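import Vale.Agent.P167.CAQ.TwoFin
import Vale.Agent.P167.BVP.Poly

/-!
# P167, general `q`, assembly of the block Q-ID: boundary arcs of a lattice polygon

`bpt S x` is the boundary point at the position `x ∈ ℝ` (mod `S.l`), `bpt S (i + t)` is the point at the
position `t` of the side `i`.
-/

open Set Metric Filter Topology MeasureTheory
open scoped ComplexConjugate ContDiff

namespace Vale.Agent.P167.H411.Q

open Vale.Agent.P153.R2.R1
open Vale.Agent.P167.BVP (Flat Test)
open Vale.Agent.P167.CA (Dat)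
open Vale.Agent.P167.CAQ (Arc)
open Vale.Agent.P167.E6 (pt dir face PF6 PV6)

/-- The boundary point at the position `x`. -/
noncomputable def bpt (S : Dat) (x : ℝ) : ℂ := PF6 S.p 1 x

theorem bpt_side (S : Dat) (i : ℤ) {t : ℝ} (h0 : 0 ≤ t) (h1 : t ≤ 1) :
    bpt S (i + t) = pt (S.p i) + t * (pt (S.p (i + 1)) - pt (S.p i)) := by
  unfold bpt PF6
  rw [pl_eq _ i (by linarith) (by linarith), add_sub_cancel_left]
  unfold PV6
  rw [Complex.real_smul, Complex.real_smul]
  push_cast
  ring

theorem bpt_bp (S : Dat) : bpt S S.tp = S.bp := by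
  have h := bpt_side S 0 S.tp0.le S.tp1.le
  rw [Int.cast_zero, zero_add] at h
  rw [h]
  unfold Dat.bp
  have e : pt (S.p (((0 : ℤ) : ZMod S.l) + 1)) - pt (S.p ((0 : ℤ) : ZMod S.l)) = pt (dir S.r) := by
    rw [Int.cast_zero, zero_add, S.step]
    apply Complex.ext <;> simp [pt]
  rw [e, Int.cast_zero]

theorem jcurve (S : Dat) : JCurve (bpt S) S.l := E6.jcurve_PF6 one_pos S.poly

theorem continuous_bpt (S : Dat) : Continuous (bpt S) := (jcurve S).cont

theorem bpt_per (S : Dat) (x : ℝ) : bpt S (x + S.l) = bpt S x := (jcurve S).per x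

theorem l_pos (S : Dat) : (0 : ℝ) < S.l := (jcurve S).pos

theorem frontier_P (S : Dat) : frontier S.P = range (bpt S) := E6.frontier_D6 one_pos S.poly S.enc

/-- Closed arcs of the boundary. -/
theorem arc_Icc (S : Dat) {s t : ℝ} (h : s ≤ t) : Arc S (bpt S '' Icc s t) where
  closed := (isCompact_Icc.image (continuous_bpt S)).isClosed
  ne := (nonempty_Icc.2 h).image _
  sub := by rw [frontier_P]; exact image_subset_range _ _

/-- The arc from the base point to the point at the position `α`. -/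
def arcF (S : Dat) (α : ℝ) : Set ℂ := bpt S '' Icc S.tp α

/-- The arc from the point at the position `α` to the base point. -/
def arcW (S : Dat) (α : ℝ) : Set ℂ := bpt S '' Icc α (S.l + S.tp)

theorem arcF_arc (S : Dat) {α : ℝ} (h : S.tp < α) : Arc S (arcF S α) := arc_Icc S h.le

theorem arcW_arc (S : Dat) {α : ℝ} (h : α < S.l + S.tp) : Arc S (arcW S α) := arc_Icc S h.le

theorem arc_inter (S : Dat) {α : ℝ} (h0 : S.tp < α) (h1 : α < S.l + S.tp) :
    arcW S α ∩ arcF S α ⊆ {bpt S α, S.bp} := by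
  rintro z ⟨⟨y, ⟨hy1, hy2⟩, rfl⟩, x, ⟨hx1, hx2⟩, hxy⟩
  obtain ⟨k, hk⟩ := (jcurve S).inj y x hxy.symm
  have hl := l_pos S
  have hk0 : 0 ≤ k := by
    by_contra hlt
    push Not at hlt
    have h2 : k ≤ -1 := by omega
    have h3 : (k : ℝ) ≤ -1 := by exact_mod_cast h2
    nlinarith
  have hk1 : k ≤ 1 := by
    by_contra hlt
    push Not at hlt
    have h2 : 2 ≤ k := by omega
    have h3 : (2 : ℝ) ≤ k := by exact_mod_cast h2
    nlinarith
  interval_cases k
  · left
    have : y = α := by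
      rw [Int.cast_zero, zero_mul, add_zero] at hk
      linarith
    rw [this]
  · right
    have : x = S.tp := by
      rw [Int.cast_one, one_mul] at hk
      linarith
    rw [mem_singleton_iff, ← bpt_bp, ← this, hxy]

/-- The direction of a side. -/
theorem exists_side (S : Dat) (i : ZMod S.l) : ∃ r : Fin 4, S.p (i + 1) = S.p i + dir r ∧
    face (S.p i) r ∈ S.Q ∧ face (S.p i) (r - 1) ∉ S.Q := by
  obtain ⟨r, hr⟩ := S.poly.2.2 i
  exact ⟨r, hr, (S.enc (S.p i) r).1 ⟨i, rfl, hr⟩⟩

/-- The inner normal of the side `i`. -/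
noncomputable def nrm (S : Dat) (i : ℤ) : ℂ := Complex.I * (pt (S.p (i + 1)) - pt (S.p i))

/-- The domain is flat at the interior points of the sides. -/
theorem flat_bpt (S : Dat) (i : ℤ) {t : ℝ} (h0 : 0 < t) (h1 : t < 1) :
    Flat S.P (bpt S (i + t)) (nrm S i) (min t (1 - t)) := by
  obtain ⟨r, hr, h2, h3⟩ := exists_side S (i : ZMod S.l)
  have h := BVP.flat_side h2 h3 h0 h1
  have e : pt (S.p (i + 1)) - pt (S.p i) = pt (dir r) := by
    rw [hr]
    apply Complex.ext <;> simp [pt]
  rw [bpt_side S i h0.le h1.le, nrm, e]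
  rw [BVP.pt_dir_succ] at h
  exact h

/-- The boundary points are different. -/
theorem bpt_ne (S : Dat) {x y : ℝ} (h : x < y) (h' : y < x + S.l) : bpt S x ≠ bpt S y := by
  intro he
  obtain ⟨k, hk⟩ := (jcurve S).inj y x he.symm
  have hl := l_pos S
  have h1 : 0 < (k : ℝ) * S.l := by linarith
  have h2 : (k : ℝ) * S.l < 1 * S.l := by linarith
  have h3 : (0 : ℝ) < k := (mul_pos_iff_of_pos_right hl).1 h1
  have h4 : (k : ℝ) < 1 := lt_of_mul_lt_mul_right h2 hl.le
  have h5 : 0 < k := by exact_mod_cast h3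
  have h6 : k < 1 := by exact_mod_cast h4
  omega

end Vale.Agent.P167.H411.Q
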