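import Vale.Agent.P167.H411.Q.Out2
import Vale.Agent.P167.H411.Q.As1

/-!
# P167, general `q`, assembly of the block Q-ID: one polygon

`out_dat`: the Dobrushin family of a lattice polygon `S` with the junction at the position `i + t` of
the boundary (base point at the position `tp` of the side `0`), from the cores of the three families,
the two limits and the local inputs [Q-ND].
-/

open Set Metric Filter Topology MeasureTheory Bornology
open scoped ComplexConjugate ContDiff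

namespace Vale.Agent.P167.H411.Q

open Vale.Agent.P153.R2.R1 Vale.Agent.P167.H411.B7
open Vale.Agent.P167.BVP (Flat Test lpot npot)
open Vale.Agent.P167.CA (Dat Pair)
open Vale.Agent.P167.CAQ (Fam Arc PotLim)
open Vale.Agent.P167.H756 (QPos)

/-- The conformal quantities of a polygon with the marks `p` (`∞`), `a` (`0`), `c`, `d`, the marks `c`,
`d` on the same side of `a` or not. -/
def QAny (P : Set ℂ) (a p c d : ℂ) (u v : ℝ) : Prop :=
  ∃ (φ : ℂ → ℂ) (xc xd D : ℝ) (d' : ℂ), IsU φ P a p ∧ xc ≠ 0 ∧ xd ≠ 0 ∧ xc ≠ xd ∧ 0 < D ∧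
    φ xc = c ∧ φ xd = d ∧ HasDerivWithinAt φ d' {z | 0 ≤ z.im} xd ∧ ‖d'‖ = 1 / D ∧
    u = |xc| / |xd| ∧ v = D / |xd - xc|

theorem QAny.of_pos {P : Set ℂ} {a p c d : ℂ} {u v : ℝ} (h : QPos P a p c d u v) :
    QAny P a p c d u v := by
  obtain ⟨φ, xc, xd, D, h0, h1, h2, h3, h4, h5, h6, h7, h8⟩ := h
  have h9 : 0 < xd := by linarith
  have h10 : 0 < xd - xc := by linarith
  refine ⟨φ, xc, xd, D, _, h0, h1.ne', h9.ne', h2.ne, h3, h4, h5, h6, ?_, ?_, ?_⟩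
  · rw [Complex.norm_real, Real.norm_of_nonneg (by positivity)]
  · rw [abs_of_pos h1, abs_of_pos h9]; exact h7
  · rw [abs_of_pos h10]; exact h8

theorem QAny.pos {P : Set ℂ} {a p c d : ℂ} {u v : ℝ} (h : QAny P a p c d u v) : 0 < u ∧ 0 < v := by
  obtain ⟨φ, xc, xd, D, d', -, h1, h2, h3, h4, -, -, -, -, rfl, rfl⟩ := h
  have h5 := abs_pos.2 h1
  have h6 := abs_pos.2 h2
  have h7 := abs_pos.2 (sub_ne_zero.2 h3.symm)
  constructor <;> positivity

/-- The conclusion of `ident` for every uniformizer. -/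
def IdLim {S : Dat} (FD FF : Fam S) (a : ℂ) : Prop :=
  ∀ ψ : ℂ → ℂ, IsU ψ S.P a S.bp → ∀ f, S.FF f → Tendsto (fun n : ℕ => FD.U n f - FF.U n f) FD.L
    (𝓝 (1 / Real.pi * ∫ z, f z * Real.log ‖ginv ψ z‖))

/-- Limits of the difference of the potentials of two families. -/
def Lims {S : Dat} (F₁ F₀ : Fam S) (K : Set ℂ) : Prop :=
  ∀ U : Ultrafilter ℕ, (U : Filter ℕ) ≤ F₁.L → ∃ Y : ℂ → ℝ, PotLim S K Y ∧
    ∀ f, S.FF f → Tendsto (fun n : ℕ => F₁.U n f - F₀.U n f) U (𝓝 (∫ z, f z * Y z))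

theorem idLim_of {S : Dat} {μ : ℝ} {FD FF FW : Fam S} {a νa νp : ℂ} {ra rp : ℝ}
    (hT : Tri μ S FD FF FW a νa ra νp rp) (cD : FD.CORE) (cF : FF.CORE) (cW : FW.CORE)
    {χp : ℂ → ℝ} (hχp : Shp Complex.I χp)
    {zz : (ℂ → ℝ) → ℕ → ℝ → ℝ} (hz : NDz μ FF FW νp rp χp zz) (ha : NDa μ FD FF a νa)
    {K K' : Set ℂ} (hK : Arc S K) (hK' : Arc S K') (hKK : K ∩ K' ⊆ {a, S.bp})
    (limY : Lims FD FF K) (limZ : Lims FD FW K') : IdLim FD FF a := by
  intro ψ h f hf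
  obtain ⟨hinj, hne⟩ := h.injOn (noCut_P S)
  refine ident hT cD cF cW hχp hz ha h hinj (fun x => hne _ (by simp)) hK hK' (fun x hx => ?_)
    limY limZ hf
  by_contra hcon
  push Not at hcon
  rcases hKK ⟨hcon.1, hcon.2⟩ with h4 | h4
  · have h5 : ψ x = ψ ((0 : ℝ) : ℂ) := by rw [h4, Complex.ofReal_zero, h.zero]
    have h6 := hinj (by simp : (x : ℂ) ∈ {z : ℂ | 0 ≤ z.im}) (by simp) h5
    exact hx (by exact_mod_cast h6)
  · exact hne _ (by simp) h4

/-- **Output** for one polygon. -/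
theorem out_any {S : Dat} {μ : ℝ} {FD FF FW : Fam S} {a νa νp : ℂ} {ra rp : ℝ}
    (hT : Tri μ S FD FF FW a νa ra νp rp) (cD : FD.CORE) (cF : FF.CORE)
    {χp χ : ℂ → ℝ} (hχp : Shp Complex.I χp) (hχ : Shp Complex.I χ) {z : ℕ → ℝ → ℝ}
    (hz : LocZ μ FF χp νp rp χ z) (hid : IdLim FD FF a)
    {c νc : ℂ} {rc : ℝ} {d νd : ℂ} {rd : ℝ} (hM : GMarks S a c νc rc d νd rd) {u v : ℝ}
    (hQ' : QAny S.P a S.bp c d u v) : OutL μ FD χ z νc c νd d u v := by
  obtain ⟨ψ, xc, xd, D, d', h, h1, h2, h2', h3, hxc, hxd, hder, hd', rfl, rfl⟩ := hQ'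
  obtain ⟨hinj, hne⟩ := h.injOn (noCut_P S)
  have hM' : Marks S a ψ c νc rc d νd rd xc xd d' :=
    ⟨hM.flatC, hM.flatD, hM.pC, hM.pD, hM.aC, hM.aD, hM.cD, hM.dC, hxc, hxd, hder⟩
  intro ε hε
  obtain ⟨θ, hθ, hout⟩ := out_log hT cD cF hχp hχ hz h hinj hne (hid ψ h) hM' hε
  refine ⟨θ, hθ, fun η η' hη hηθ hη' hη'θ => ?_⟩
  filter_upwards [hout η η' hη hηθ hη' hη'θ] with n hn
  refine ⟨hn.1, ?_⟩
  have hxc0 : 0 < |xc| := abs_pos.2 h1
  have hxd0 : 0 < |xd| := abs_pos.2 h2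
  have hsub : 0 < |xd - xc| := abs_pos.2 (sub_ne_zero.2 h2'.symm)
  have e3 := hn.2
  rw [abs_sub_comm xc xd, hd', Real.log_div one_ne_zero h3.ne', Real.log_one] at e3
  rw [Real.log_div hxc0.ne' hxd0.ne', Real.log_div h3.ne' hsub.ne']
  have hμ1 := hT.mu1
  have hπ := Real.pi_pos
  have hne1 : Real.pi - μ ≠ 0 := by linarith
  have e4 : Real.log (z n η) - Real.log (z n η') +
      μ / Real.pi * (Real.log |xc| - Real.log |xd|) +
      2 / (Real.pi - μ) * μ ^ 2 / Real.pi *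
        ((-2 * (0 - Real.log D) + (2 * Real.log η' + JJ 0 Complex.I χ χ)) / 2 -
          Real.log |xd - xc|) =
      Real.log (z n η) - Real.log (z n η') +
        hQ μ * (Real.log η' + JJ 0 Complex.I χ χ / 2) +
        μ / Real.pi * (Real.log |xc| - Real.log |xd|) +
        hQ μ * (Real.log D - Real.log |xd - xc|) := by
    unfold hQ
    field_simp
    ring
  rw [e4] at e3
  exact e3

/-- The three families of a polygon: same filter, same constant `s = 2 / (π - μ)`. -/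
structure Fam3 (μ : ℝ) {S : Dat} (FD FF FW : Fam S) : Prop where
  mu0 : 0 < μ
  mu1 : μ ≤ Real.pi / 3
  LF : FF.L = FD.L
  LW : FW.L = FD.L
  sD : FD.s = 2 / (Real.pi - μ)
  sF : FF.s = 2 / (Real.pi - μ)
  sW : FW.s = 2 / (Real.pi - μ)

/-- The radius at the junction. -/
noncomputable def rJ (S : Dat) (i : ℤ) (t : ℝ) : ℝ :=
  min (min t (1 - t)) (dist (bpt S (i + t)) S.bp)

/-- The radius at the base point. -/
noncomputable def rB (S : Dat) (i : ℤ) (t : ℝ) : ℝ :=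
  min (min S.tp (1 - S.tp)) (dist (bpt S (i + t)) S.bp)

theorem junction_ne (S : Dat) {i : ℤ} {t : ℝ} (h0 : S.tp < i + t) (h1 : (i : ℝ) + t < S.l + S.tp) :
    0 < dist (bpt S (i + t)) S.bp := by
  rw [dist_pos, ← bpt_bp]
  exact (bpt_ne S h0 (by linarith)).symm

theorem tri_dat {μ : ℝ} {S : Dat} {FD FF FW : Fam S} (h : Fam3 μ FD FF FW) {i : ℤ} {t : ℝ}
    (ht0 : 0 < t) (ht1 : t < 1) (h0 : S.tp < i + t) (h1 : (i : ℝ) + t < S.l + S.tp) :
    Tri μ S FD FF FW (bpt S (i + t)) (nrm S i) (rJ S i t) (nrm S 0) (rB S i t) := by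
  have hd := junction_ne S h0 h1
  have hF := flat_bpt S i ht0 ht1
  have hB := flat_bpt S 0 S.tp0 S.tp1
  rw [Int.cast_zero, zero_add, bpt_bp] at hB
  exact {
    mu0 := h.mu0
    mu1 := h.mu1
    LF := h.LF
    LW := h.LW
    sD := h.sD
    sF := h.sF
    sW := h.sW
    flatA := flat_le hF (lt_min hF.pos hd) (min_le_left _ _)
    flatP := flat_le hB (lt_min hB.pos hd) (min_le_left _ _)
    offA := fun hx => by
      rw [mem_ball, dist_comm] at hx
      exact absurd (hx.trans_le (min_le_right _ _)) (lt_irrefl _)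
    offP := fun hx => by
      rw [mem_ball] at hx
      exact absurd (hx.trans_le (min_le_right _ _)) (lt_irrefl _) }

/-- **One polygon**: `S` with the junction at the position `i + t`. -/
theorem out_dat {μ : ℝ} {S : Dat} {FD FF FW : Fam S} (h : Fam3 μ FD FF FW) {i : ℤ} {t : ℝ}
    (ht0 : 0 < t) (ht1 : t < 1) (h0 : S.tp < i + t) (h1 : (i : ℝ) + t < S.l + S.tp)
    (cD : FD.CORE) (cF : FF.CORE) (cW : FW.CORE) {χp χ : ℂ → ℝ} (hχp : Shp Complex.I χp)
    (hχ : Shp Complex.I χ) {zz : (ℂ → ℝ) → ℕ → ℝ → ℝ}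
    (hz : NDz μ FF FW (nrm S 0) (rB S i t) χp zz) (ha : NDa μ FD FF (bpt S (i + t)) (nrm S i))
    (limY : Lims FD FF (arcW S (i + t))) (limZ : Lims FD FW (arcF S (i + t)))
    {c νc : ℂ} {rc : ℝ} {d νd : ℂ} {rd : ℝ} (hM : GMarks S (bpt S (i + t)) c νc rc d νd rd)
    {u v : ℝ} (hQ' : QAny S.P (bpt S (i + t)) S.bp c d u v) : OutL μ FD χ (zz χ) νc c νd d u v := by
  have hT := tri_dat h ht0 ht1 h0 h1
  exact out_any hT cD cF hχp hχ (hz χ hχ).1
    (idLim_of hT cD cF cW hχp hz ha (arcW_arc S h1) (arcF_arc S h0) (arc_inter S h0 h1) limY limZ)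
    hM hQ'

end Vale.Agent.P167.H411.Q
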