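import Vale.Agent.P167.H411.Q.Out
import Vale.Agent.P167.H756.Q2

/-!
# P167, general `q`: output of the block Q-ID in terms of `H756.QPos`

* `OutL μ FD χ z νc c νd d u v`: the asymptotics of `V_n(- μ φ_{c,η} + μ φ_{d,η'})`;
* `out_Q`: `OutL` for every polygon with `QPos S.P a S.bp c d u v`;
* `OutL.ratio`: the ratio of two polygons is `u₁^e v₁^h / (u₀^e v₀^h)`, `e = μ / π`,
  `h = 2 μ² / (π (π - μ))`.
-/

open Set Metric Filter Topology MeasureTheory Bornology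
open scoped ComplexConjugate ContDiff

namespace Vale.Agent.P167.H411.Q

open Vale.Agent.P153.R2.R1 Vale.Agent.P167.H411.B7
open Vale.Agent.P167.BVP (Flat Test lpot npot)
open Vale.Agent.P167.CA (Dat Pair)
open Vale.Agent.P167.CAQ (Fam Arc PotLim)
open Vale.Agent.P167.H756 (QPos)

/-- The exponent `h`. -/
noncomputable def hQ (μ : ℝ) : ℝ := 2 * μ ^ 2 / (Real.pi * (Real.pi - μ))

/-- Asymptotics of the functional with the charges `- μ` at `c` and `+ μ` at `d`. -/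
def OutL (μ : ℝ) {S : Dat} (F : Fam S) (χ : ℂ → ℝ) (z : ℕ → ℝ → ℝ) (νc c νd d : ℂ) (u v : ℝ) :
    Prop :=
  ∀ ε : ℝ, 0 < ε → ∃ θ : ℝ, 0 < θ ∧ ∀ η η' : ℝ, 0 < η → η ≤ θ → 0 < η' → η' ≤ θ →
    ∀ᶠ n : ℕ in F.L, 0 < F.V n (fun w => -μ * fb χ νc c η w + μ * fb χ νd d η' w) ∧
      |Real.log (F.V n (fun w => -μ * fb χ νc c η w + μ * fb χ νd d η' w)) -
        (Real.log (z n η) - Real.log (z n η') +
          hQ μ * (Real.log η' + JJ 0 Complex.I χ χ / 2) +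
          μ / Real.pi * Real.log u + hQ μ * Real.log v)| ≤ ε

/-- Two flat marks (the geometric part of `Marks`). -/
structure GMarks (S : Dat) (a : ℂ) (c νc : ℂ) (rc : ℝ) (d νd : ℂ) (rd : ℝ) : Prop where
  flatC : Flat S.P c νc rc
  flatD : Flat S.P d νd rd
  pC : S.bp ∉ ball c rc
  pD : S.bp ∉ ball d rd
  aC : a ∉ ball c rc
  aD : a ∉ ball d rd
  cD : c ∉ ball d rd
  dC : d ∉ ball c rc

theorem noCut_P (S : Dat) : NoCut S.P := (E6.good_D6 one_pos S.poly S.enc).nocut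

/-- **Output of the block Q-ID.** -/
theorem out_Q {S : Dat} {μ : ℝ} {FD FF FW : Fam S} {a νa νp : ℂ} {ra rp : ℝ}
    (hT : Tri μ S FD FF FW a νa ra νp rp) (cD : FD.CORE) (cF : FF.CORE) (cW : FW.CORE)
    {χp χ : ℂ → ℝ} (hχp : Shp Complex.I χp) (hχ : Shp Complex.I χ)
    {zz : (ℂ → ℝ) → ℕ → ℝ → ℝ} (hz : NDz μ FF FW νp rp χp zz) (ha : NDa μ FD FF a νa)
    {K K' : Set ℂ} (hK : Arc S K) (hK' : Arc S K') (hKK : K ∩ K' ⊆ {a, S.bp})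
    (limY : ∀ U : Ultrafilter ℕ, (U : Filter ℕ) ≤ FD.L → ∃ Y : ℂ → ℝ, PotLim S K Y ∧
      ∀ f, S.FF f → Tendsto (fun n : ℕ => FD.U n f - FF.U n f) U (𝓝 (∫ z, f z * Y z)))
    (limZ : ∀ U : Ultrafilter ℕ, (U : Filter ℕ) ≤ FD.L → ∃ Z : ℂ → ℝ, PotLim S K' Z ∧
      ∀ f, S.FF f → Tendsto (fun n : ℕ => FD.U n f - FW.U n f) U (𝓝 (∫ z, f z * Z z)))
    {c νc : ℂ} {rc : ℝ} {d νd : ℂ} {rd : ℝ} (hM : GMarks S a c νc rc d νd rd) {u v : ℝ}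
    (hQ' : QPos S.P a S.bp c d u v) : OutL μ FD χ (zz χ) νc c νd d u v := by
  obtain ⟨ψ, xc, xd, D, h, h1, h2, h3, hxc, hxd, hder, rfl, rfl⟩ := hQ'
  obtain ⟨hinj, hne⟩ := h.injOn (noCut_P S)
  have hid : ∀ f, S.FF f → Tendsto (fun n : ℕ => FD.U n f - FF.U n f) FD.L
      (𝓝 (1 / Real.pi * ∫ z, f z * Real.log ‖ginv ψ z‖)) := fun f hf => by
    refine ident hT cD cF cW hχp hz ha h hinj (fun x => hne _ (by simp)) hK hK' (fun x hx => ?_)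
      limY limZ hf
    by_contra hcon
    push Not at hcon
    rcases hKK ⟨hcon.1, hcon.2⟩ with h4 | h4
    · have h5 : ψ x = ψ ((0 : ℝ) : ℂ) := by rw [h4, Complex.ofReal_zero, h.zero]
      have h6 := hinj (by simp : (x : ℂ) ∈ {z : ℂ | 0 ≤ z.im}) (by simp) h5
      exact hx (by exact_mod_cast h6)
    · exact hne _ (by simp) h4
  have hM' : Marks S a ψ c νc rc d νd rd xc xd ((1 / D : ℝ) : ℂ) :=
    ⟨hM.flatC, hM.flatD, hM.pC, hM.pD, hM.aC, hM.aD, hM.cD, hM.dC, hxc, hxd, hder⟩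
  intro ε hε
  obtain ⟨θ, hθ, hout⟩ := out_log hT cD cF hχp hχ (hz χ hχ).1 h hinj hne hid hM' hε
  refine ⟨θ, hθ, fun η η' hη hηθ hη' hη'θ => ?_⟩
  filter_upwards [hout η η' hη hηθ hη' hη'θ] with n hn
  refine ⟨hn.1, ?_⟩
  have hxd0 : 0 < xd := by linarith
  have hsub : 0 < xd - xc := by linarith
  have e1 : |xc - xd| = xd - xc := by rw [abs_sub_comm, abs_of_pos hsub]
  have e2 : ‖((1 / D : ℝ) : ℂ)‖ = 1 / D := by
    rw [Complex.norm_real, Real.norm_of_nonneg (by positivity)]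
  have e3 := hn.2
  rw [e1, e2, abs_of_pos h1, abs_of_pos hxd0, Real.log_div one_ne_zero h3.ne', Real.log_one] at e3
  rw [Real.log_div h1.ne' hxd0.ne', Real.log_div h3.ne' hsub.ne']
  have hμ1 := hT.mu1
  have hπ := Real.pi_pos
  have hne1 : Real.pi - μ ≠ 0 := by linarith
  have e4 : Real.log (zz χ n η) - Real.log (zz χ n η') +
      μ / Real.pi * (Real.log xc - Real.log xd) +
      2 / (Real.pi - μ) * μ ^ 2 / Real.pi *
        ((-2 * (0 - Real.log D) + (2 * Real.log η' + JJ 0 Complex.I χ χ)) / 2 -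
          Real.log (xd - xc)) =
      Real.log (zz χ n η) - Real.log (zz χ n η') +
        hQ μ * (Real.log η' + JJ 0 Complex.I χ χ / 2) +
        μ / Real.pi * (Real.log xc - Real.log xd) +
        hQ μ * (Real.log D - Real.log (xd - xc)) := by
    unfold hQ
    field_simp
    ring
  rw [e4] at e3
  exact e3

/-- **The ratio of two polygons.** -/
theorem OutL.ratio {μ : ℝ} {S₀ S₁ : Dat} {F₀ : Fam S₀} {F₁ : Fam S₁} (hL : F₁.L = F₀.L)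
    {χ : ℂ → ℝ} {z : ℕ → ℝ → ℝ} {ν₀ c₀ νd₀ d₀ ν₁ c₁ νd₁ d₁ : ℂ} {u₀ v₀ u₁ v₁ : ℝ}
    (h₀ : OutL μ F₀ χ z ν₀ c₀ νd₀ d₀ u₀ v₀) (h₁ : OutL μ F₁ χ z ν₁ c₁ νd₁ d₁ u₁ v₁)
    (hu₀ : 0 < u₀) (hv₀ : 0 < v₀) (hu₁ : 0 < u₁) (hv₁ : 0 < v₁) {ε : ℝ} (hε : 0 < ε) :
    ∃ θ : ℝ, 0 < θ ∧ ∀ η η' : ℝ, 0 < η → η ≤ θ → 0 < η' → η' ≤ θ → ∀ᶠ n : ℕ in F₀.L,
      0 < F₀.V n (fun w => -μ * fb χ ν₀ c₀ η w + μ * fb χ νd₀ d₀ η' w) ∧
      0 < F₁.V n (fun w => -μ * fb χ ν₁ c₁ η w + μ * fb χ νd₁ d₁ η' w) ∧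
      |F₁.V n (fun w => -μ * fb χ ν₁ c₁ η w + μ * fb χ νd₁ d₁ η' w) /
          F₀.V n (fun w => -μ * fb χ ν₀ c₀ η w + μ * fb χ νd₀ d₀ η' w) -
        (u₁ ^ (μ / Real.pi) * v₁ ^ hQ μ) / (u₀ ^ (μ / Real.pi) * v₀ ^ hQ μ)| ≤ ε := by
  set R : ℝ := (u₁ ^ (μ / Real.pi) * v₁ ^ hQ μ) / (u₀ ^ (μ / Real.pi) * v₀ ^ hQ μ) with hR
  have hR0 : 0 < R := by positivity
  have hlogR : Real.log R = (μ / Real.pi * Real.log u₁ + hQ μ * Real.log v₁) -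
      (μ / Real.pi * Real.log u₀ + hQ μ * Real.log v₀) := by
    rw [hR, Real.log_div (by positivity) (by positivity), Real.log_mul (by positivity)
      (by positivity), Real.log_mul (by positivity) (by positivity), Real.log_rpow hu₁,
      Real.log_rpow hv₁, Real.log_rpow hu₀, Real.log_rpow hv₀]
  -- continuity of the exponential
  have hcont : Tendsto (fun x : ℝ => Real.exp x * R) (𝓝 0) (𝓝 (Real.exp 0 * R)) :=
    (Real.continuous_exp.tendsto 0).mul_const R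
  rw [Real.exp_zero, one_mul] at hcont
  obtain ⟨δ, hδ, hδ'⟩ := Metric.eventually_nhds_iff.1 (hcont.eventually (Metric.ball_mem_nhds R hε))
  obtain ⟨θ₀, hθ₀, k₀⟩ := h₀ (δ / 4) (by positivity)
  obtain ⟨θ₁, hθ₁, k₁⟩ := h₁ (δ / 4) (by positivity)
  refine ⟨min θ₀ θ₁, by positivity, fun η η' hη hηθ hη' hη'θ => ?_⟩
  have l₀ := k₀ η η' hη (hηθ.trans (min_le_left _ _)) hη' (hη'θ.trans (min_le_left _ _))
  have l₁ := k₁ η η' hη (hηθ.trans (min_le_right _ _)) hη' (hη'θ.trans (min_le_right _ _))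
  rw [hL] at l₁
  filter_upwards [l₀, l₁] with n ⟨p₀, q₀⟩ ⟨p₁, q₁⟩
  refine ⟨p₀, p₁, ?_⟩
  set V₀ := F₀.V n (fun w => -μ * fb χ ν₀ c₀ η w + μ * fb χ νd₀ d₀ η' w) with hV₀
  set V₁ := F₁.V n (fun w => -μ * fb χ ν₁ c₁ η w + μ * fb χ νd₁ d₁ η' w) with hV₁
  have hx : |Real.log (V₁ / V₀) - Real.log R| ≤ δ / 2 := by
    rw [Real.log_div p₁.ne' p₀.ne', hlogR]
    rw [abs_le] at q₀ q₁ ⊢
    constructor <;> linarith [q₀.1, q₀.2, q₁.1, q₁.2]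
  have h5 := hδ' (y := Real.log (V₁ / V₀) - Real.log R) (by
    rw [Real.dist_eq, sub_zero]; linarith)
  have h6 : Real.exp (Real.log (V₁ / V₀) - Real.log R) * R = V₁ / V₀ := by
    rw [Real.exp_sub, Real.exp_log (by positivity), Real.exp_log hR0]
    field_simp
  rw [h6, Real.dist_eq] at h5
  exact h5.le

end Vale.Agent.P167.H411.Q
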