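import Vale.Agent.P167.H208.SH.Cell
import Vale.Agent.P167.QB.Uns
import Vale.Agent.P167.H174.ND.Nb

/-!
# P167, general `q`, block Q-ND (CONT): the one-point function `zN`

`zN θ χ n η = zS θ (0, 0) (⌈η n⌉ + 1) (θ F0 χ (n η))`, where `F0` are helper208's cell masses of the bump of
scale `n η` at the origin.
-/

open Set Metric Filter Topology MeasureTheory
open scoped ComplexConjugate ContDiff

namespace Vale.Agent.P167.H411.Q

open Vale.Agent.P167 Vale.Agent.P167.BR Vale.Agent.P167.FK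
open Vale.Agent.P167.H411.B7 (Shp)
open Vale.Agent.P167.QB (XG zS Nf Bq' dq)
open Vale.Agent.P167.H208.SH (F0 shp_bd shp_supp F0_nonneg F0_le F0_supp F0_sum)
open Vale.Agent.P167.H562.MAJ (core Sc mem_core)
open Vale.Agent.P167.H562.QM (NbP)
open Vale.Agent.P167.H519 (IsLim)

/-- The radius of the bump. -/
noncomputable def rN (n : ℕ) (η : ℝ) : ℤ := ⌈(n : ℝ) * η⌉ + 1

/-- **The one-point function.** -/
noncomputable def zN (θ : ℝ) (χ : ℂ → ℝ) (n : ℕ) (η : ℝ) : ℝ :=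
  zS θ (0, 0) (rN n η) fun w => θ * F0 χ (n * η) w

theorem rN_bd {n : ℕ} {η : ℝ} (h : 1 ≤ (n : ℝ) * η) :
    (n : ℝ) * η + 1 ≤ rN n η ∧ (rN n η : ℝ) ≤ 3 * (n * η) := by
  unfold rN
  have h1 := Int.le_ceil ((n : ℝ) * η)
  have h2 := Int.ceil_lt_add_one ((n : ℝ) * η)
  push_cast
  constructor <;> linarith

/-- **The lattice bump is admissible.** -/
theorem bq_F0 {χ : ℂ → ℝ} (h : Shp Complex.I χ) {θ : ℝ} (hθ : 0 < θ) :
    ∃ K₀ : ℝ, 1 ≤ K₀ ∧ ∀ K : ℝ, K₀ ≤ K → ∀ (n : ℕ) (η : ℝ), 8 * K ≤ n * η →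
      Bq' θ K (0, 0) (rN n η) fun w => θ * F0 χ (n * η) w := by
  obtain ⟨B, hB0, hB⟩ := shp_bd h
  obtain ⟨d, hd0, hd⟩ := shp_supp h
  refine ⟨max 1 (max (9 * θ * B) (3 / d)), le_max_left _ _, fun K hK n η hn => ?_⟩
  have hK1 : 1 ≤ K := (le_max_left _ _).trans hK
  have hK2 : 9 * θ * B ≤ K := ((le_max_left _ _).trans (le_max_right _ _)).trans hK
  have hK3 : 3 / d ≤ K := ((le_max_right _ _).trans (le_max_right _ _)).trans hK
  have hr : 1 ≤ (n : ℝ) * η := by linarith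
  have hr0 : 0 < (n : ℝ) * η := by linarith
  obtain ⟨h1, h2⟩ := rN_bd hr
  have hSc : Sc K (rN n η) := ⟨hK1, by linarith⟩
  have hR0 : (0 : ℝ) < rN n η := by linarith
  refine ⟨fun w => mul_nonneg hθ.le (F0_nonneg h _ _), fun w => ?_, fun w hw => ?_, ?_⟩
  · have h3 := (le_abs_self _).trans (F0_le hB hr0 w)
    calc θ * F0 χ (n * η) w ≤ θ * (B / (n * η) ^ 2) := mul_le_mul_of_nonneg_left h3 hθ.le
      _ ≤ K / (rN n η : ℝ) ^ 2 := by
        rw [mul_div_assoc', div_le_div_iff₀ (by positivity) (by positivity)]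
        have h4 : (rN n η : ℝ) ^ 2 ≤ (3 * (n * η)) ^ 2 := by
          exact pow_le_pow_left₀ hR0.le h2 2
        have h5 : 0 ≤ θ * B := by positivity
        calc θ * B * (rN n η : ℝ) ^ 2 ≤ θ * B * (3 * (n * η)) ^ 2 :=
              mul_le_mul_of_nonneg_left h4 h5
          _ = 9 * θ * B * (n * η) ^ 2 := by ring
          _ ≤ K * (n * η) ^ 2 := mul_le_mul_of_nonneg_right hK2 (by positivity)
  · have hw' : F0 χ (n * η) w ≠ 0 := fun h0 => hw (by rw [h0, mul_zero])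
    obtain ⟨g1, g2, g3⟩ := F0_supp hd hr0 hw'
    rw [hSc.mem_sites]
    rw [abs_le] at g1
    have k1 : (w.1 : ℝ) ≤ rN n η := by linarith
    have k2 : -(rN n η : ℝ) ≤ w.1 := by linarith
    have k3 : (w.2 : ℝ) ≤ rN n η := by linarith
    have k4 : (rN n η : ℝ) / K ≤ w.2 := by
      rw [div_le_iff₀ (by linarith)]
      rw [div_le_iff₀ hd0] at hK3
      have hw2 : 0 ≤ (w.2 : ℝ) := le_trans (by positivity) g2
      nlinarith
    have k5 : ⌈(rN n η : ℝ) / K⌉ ≤ w.2 := Int.ceil_le.2 k4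
    refine ⟨?_, ?_, ?_, ?_⟩
    · have : -(rN n η) ≤ w.1 := by exact_mod_cast k2
      simpa using this
    · have : w.1 ≤ rN n η := by exact_mod_cast k1
      simpa using this
    · simp only; omega
    · have : w.2 ≤ rN n η := by exact_mod_cast k3
      simpa using this
  · rw [← mul_finsum, F0_sum h hr0, mul_one]

/-- Two-sided bounds of the one-point function. -/
theorem zN_bds {θ : ℝ} {P : Measure Cfg} (hθ0 : 0 < θ) (hθ1 : θ ≤ Real.pi / 3)
    (hR0 : RSW (2 * Real.cos θ)) (hP : IsLim (2 * Real.cos θ) P) {χ : ℂ → ℝ} (h : Shp Complex.I χ) :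
    ∃ K₀ : ℝ, 1 ≤ K₀ ∧ ∀ K : ℝ, K₀ ≤ K → ∃ c C r0 : ℝ, 0 < c ∧ 0 < C ∧ ∀ (n : ℕ) (η : ℝ),
      r0 ≤ n * η → c * Nf θ K P (rN n η) ≤ zN θ χ n η ∧ zN θ χ n η ≤ C * Nf θ K P (rN n η) := by
  obtain ⟨K₀, hK₀, hb⟩ := bq_F0 h hθ0
  refine ⟨K₀, hK₀, fun K hK => ?_⟩
  have hK1 : 1 ≤ K := hK₀.trans hK
  obtain ⟨c, C, r0, hc, hC, hr0, hz⟩ := QB.zS_bds hθ0 hθ1 hR0 hP hK1
  refine ⟨c, C, max r0 (8 * K), hc, hC, fun n η hn => ?_⟩
  have h1 : 8 * K ≤ n * η := (le_max_right _ _).trans hn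
  have h2 : r0 ≤ n * η := (le_max_left _ _).trans hn
  obtain ⟨h3, -⟩ := rN_bd (n := n) (η := η) (by linarith)
  exact hz _ (by linarith) _ _ (hb K hK n η h1)

/-- The ratio of the exponents at two macroscopic scales is bounded from below. -/
theorem nf_ratio {θ K : ℝ} {P : Measure Cfg} (hθ0 : 0 < θ) (hθ1 : θ ≤ Real.pi / 3)
    (hR0 : RSW (2 * Real.cos θ)) (hP : IsLim (2 * Real.cos θ) P) (hK : 1 ≤ K) {η ρ : ℝ} (hη : 0 < η)
    (hρ : 0 < ρ) : ∃ c : ℝ, 0 < c ∧ ∀ᶠ n : ℕ in atTop,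
      c ≤ Nf θ K P (rN n η) / Nf θ K P (rN n ρ) := by
  have hQ := QB.two_cos hθ0 hθ1
  have ht : 0 ≤ Real.tan θ := by
    have hpi := Real.pi_pos
    exact (Real.tan_pos_of_pos_of_lt_pi_div_two hθ0 (by linarith)).le
  obtain ⟨C, d0, hC, hd0, hb⟩ := H174.ND.nb_comp hQ hR0 hP (Λ := max 1 (3 * ρ / η)) (le_max_left _ _)
  refine ⟨Real.exp (-(Real.tan θ * θ * C)), Real.exp_pos _, ?_⟩
  have h1 : Tendsto (fun n : ℕ => (n : ℝ) * η) atTop atTop :=
    tendsto_natCast_atTop_atTop.atTop_mul_const hη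
  have h2 : Tendsto (fun n : ℕ => (n : ℝ) * ρ) atTop atTop :=
    tendsto_natCast_atTop_atTop.atTop_mul_const hρ
  filter_upwards [h1.eventually_ge_atTop (max 1 (66 * K * d0)), h2.eventually_ge_atTop 1] with n hn hn'
  have hn1 : 1 ≤ (n : ℝ) * η := (le_max_left _ _).trans hn
  have hn2 : 66 * K * d0 ≤ (n : ℝ) * η := (le_max_right _ _).trans hn
  obtain ⟨a1, a2⟩ := rN_bd hn1
  obtain ⟨b1, b2⟩ := rN_bd hn'
  have hK0 : 0 < K := by linarith
  have key : NbP P (dq K (rN n ρ)) ≤ NbP P (dq K (rN n η)) + C := by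
    rcases le_total (rN n ρ : ℝ) (rN n η) with h | h
    · have := H174.ND.NbP_mono (P := P) hP.1 (d := dq K (rN n ρ)) (d' := dq K (rN n η)) (by
        unfold QB.dq
        exact mul_le_mul_of_nonneg_left h (by positivity))
      linarith
    · refine hb _ _ ?_ (by unfold QB.dq; exact mul_le_mul_of_nonneg_left h (by positivity)) ?_
      · unfold QB.dq
        rw [div_mul_eq_mul_div, one_mul, le_div_iff₀ (by positivity)]
        linarith
      · unfold QB.dq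
        rw [mul_left_comm]
        refine mul_le_mul_of_nonneg_left ?_ (by positivity)
        have h3 : (n : ℝ) * ρ * 3 = 3 * ρ / η * (n * η) := by field_simp
        have h4 : 3 * ρ / η * (n * η) ≤ max 1 (3 * ρ / η) * rN n η :=
          mul_le_mul (le_max_right _ _) (by linarith) (by linarith) (by positivity)
        linarith
  unfold QB.Nf
  rw [← Real.exp_sub]
  refine Real.exp_le_exp.2 ?_
  have h5 : 0 ≤ Real.tan θ * θ := by positivity
  nlinarith [mul_le_mul_of_nonneg_left key h5]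

end Vale.Agent.P167.H411.Q
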