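import Vale.Agent.P167.H980.ND.WF
import Vale.Agent.P167.H825.Q.BdQ
import Vale.Agent.P167.CAQ.J6

/-!
# P167, general `q`, block Q-ND (CONT): the free and the wired family

Both families are free polygons in the configuration `eta0`: the free one in the domain `S.D n`, the wired
one in the domain shifted by `(1, 0)` (helper980's `wired_free`). `w = false`: free, `w = true`: wired.
-/

namespace Vale.Agent.P167.H411.Q

open Finset Filter Topology Vale.Agent.P167 Vale.Agent.P167.BR Vale.Agent.P167.FK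
open Vale.Agent.P167.E6 (IsPolygon Encloses)
open Vale.Agent.P167.QB (XG gB)
open Vale.Agent.P167.QX (wB XB lo hi)
open Vale.Agent.P167.H825.Q (Bc qS kS bdG)
open Vale.Agent.P167.H718 (Dob)
open Vale.Agent.P167.CA (cms)
open Vale.Agent.P167.FKA (Loc)

/-- The shift. -/
def ow (w : Bool) : ℤ × ℤ := if w then (1, 0) else 0

/-- The domain. -/
noncomputable def Dw (S : CA.Dat) (w : Bool) (n : ℕ) : Finset (ℤ × ℤ) := (S.D n).image (· + ow w)

/-- The polygon. -/
noncomputable def qw (S : CA.Dat) (w : Bool) (n : ℕ) : ZMod (S.l * n) → ℤ × ℤ :=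
  fun i => qS S n i + ow w

/-- The boundary condition. -/
def bcw (w : Bool) : Bc := if w then .wired else .free

theorem bcw_in (w : Bool) (l : ℕ) : (bcw w).In l := by
  cases w <;> exact trivial

theorem mem_Dw {S : CA.Dat} {w : Bool} {n : ℕ} {v : ℤ × ℤ} : v ∈ Dw S w n ↔ v - ow w ∈ S.D n := by
  unfold Dw
  rw [mem_image]
  constructor
  · rintro ⟨u, hu, rfl⟩
    rwa [add_sub_cancel_right]
  · intro h
    exact ⟨_, h, sub_add_cancel _ _⟩

theorem poly_w (S : CA.Dat) (w : Bool) {n : ℕ} (hn : 0 < n) : IsPolygon (qw S w n) :=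
  H718.poly_add (Enl.isPolygon_qN hn S.poly _) _

theorem encl_w (S : CA.Dat) (w : Bool) {n : ℕ} (hn : 0 < n) : Encloses (qw S w n) (Dw S w n) :=
  H718.encl_add (Enl.encloses_qN hn S.poly S.enc _) _

/-- In a free polygon the functional does not depend on the gauge. -/
theorem XB_free {n : ℕ} {q : ZMod n → ℤ × ℤ} {D : Finset (ℤ × ℤ)} (hq : IsPolygon q)
    (hD : Encloses q D) (θ β : ℝ) (f : ℤ × ℤ → ℝ) (ω : Cfg) : QX.XB θ β q D n f ω = XG θ q D n f ω := by
  unfold XG QX.XB
  refine prod_congr rfl fun A hA => ?_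
  unfold QX.wB
  by_cases hl : IsLp D A
  · rw [if_pos hl, if_pos hl]
  · rw [if_neg hl, if_neg hl]
    have h2 : ¬ (lo q A < n ∧ n ≤ hi q A) := by
      obtain ⟨x, y, hxy⟩ := QX.exists_xy hq hD hA hl
      have h3 := QX.hi_xy hq hD hA hxy
      have := hxy.1
      have := hxy.2.1
      omega
    rw [if_neg h2, if_neg h2]

theorem loc_XB (θ β : ℝ) {n k : ℕ} (q : ZMod n → ℤ × ℤ) (D : Finset (ℤ × ℤ)) (f : ℤ × ℤ → ℝ) :
    Loc D (QX.XB θ β q D k f) := by
  intro ω ω' h
  unfold QX.XB
  rw [pcs_congr h]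

/-- **The value of the family** `w`. -/
theorem V_kind {θ β : ℝ} (S : CA.Dat) (w : Bool) (h0 : 0 < θ) (h1 : θ ≤ Real.pi / 3)
    {L : Filter ℕ} (hL : L ≤ atTop) {η : ℕ → Cfg}
    (hη : ∀ᶠ n in L, Dob (η n) (S.D n) (qS S n) (kS S (bcw w) n)) :
    ∀ᶠ n : ℕ in L, ∀ F : ℤ × ℤ → ℝ, Ex (2 * Real.cos θ) (S.D n) (η n)
      (QX.XB θ β (qS S n) (S.D n) (kS S (bcw w) n) F) =
        Ex (2 * Real.cos θ) (Dw S w n) eta0 (XG θ (qw S w n) (Dw S w n) (S.l * n)
          fun z => F (z - ow w)) := by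
  have hpos := H542.Q.BD.cos_pos h0 h1
  filter_upwards [hη, hL (eventually_gt_atTop 0)] with n hn hn0 F
  have hq : IsPolygon (qS S n) := Enl.isPolygon_qN hn0 S.poly _
  have hD : Encloses (qS S n) (S.D n) := Enl.encloses_qN hn0 S.poly S.enc _
  cases w with
  | true =>
    have h2 := (H980.ND.wired_free hq hD hn hpos θ β F).2.2.2
    refine h2.trans ?_
    show Ex (2 * Real.cos θ) (Dw S true n) eta0 _ = _
    congr 1
    funext ω
    exact XB_free (poly_w S true hn0) (encl_w S true hn0) θ β _ ω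
  | false =>
    have e1 : Dw S false n = S.D n := by
      ext v
      rw [mem_Dw]
      simp [ow]
    have e2 : qw S false n = qS S n := by
      funext i
      simp [qw, ow]
    have e3 : (fun z => F (z - ow false)) = F := by
      funext z
      simp [ow]
    rw [e1, e2, e3]
    have h2 := CAQ.J.ex_dob hq hD le_rfl hn (H980.ND.dob_free (S.D n) (qS S n)) hpos
      (loc_XB θ β (k := S.l * n) (qS S n) (S.D n) F)
    refine h2.trans ?_
    congr 1
    funext ω
    exact XB_free hq hD θ β _ ω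

end Vale.Agent.P167.H411.Q
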