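import Vale.Agent.P167.H411.Q.As1

/-!
# P167, general `q`: the unit square as an example of a lattice polygon

`exs_of`: the half-plane map of a lattice polygon with two boundary points. `sqD`: the unit square with
the base point in the middle of its lower side. `exs`: the input [EXS] of helper436.
-/

open Set Metric Filter Topology
open scoped ComplexConjugate

namespace Vale.Agent.P167.H411.Q

open Vale.Agent.P153.R2.R1
open Vale.Agent.P167.CA (Dat)
open Vale.Agent.P167.E6 (pt dir face IsPolygon Encloses)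

theorem pt_mem_frontier (S : Dat) (x : ℝ) : bpt S x ∈ frontier S.P := by
  rw [frontier_P]
  exact mem_range_self x

theorem good_P (S : Dat) : Good S.P := E6.good_D6 one_pos S.poly S.enc

theorem nonempty_P (S : Dat) : S.P.Nonempty := (good_P S).rdom.nonempty

/-- **The half-plane map** of a lattice polygon. -/
theorem exs_of (S : Dat) {x : ℝ} (hx : bpt S x ≠ S.bp) :
    ∃ ψ : ℂ → ℂ, IsU ψ S.P (bpt S x) S.bp ∧ InjOn ψ {z | 0 ≤ z.im} := by
  refine (good_P S).exists_isU (nonempty_P S) (pt_mem_frontier S x) ?_ hx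
  rw [← bpt_bp]
  exact pt_mem_frontier S _

/-- The corners of the unit square. -/
def sqP (i : ZMod 4) : ℤ × ℤ := ![(0, 0), (1, 0), (1, 1), (0, 1)] (i : Fin 4)

theorem sqP_poly : IsPolygon (n := 4) sqP := by
  refine ⟨by norm_num, ?_, ?_⟩
  · decide
  · decide

theorem sqP_enc : Encloses (n := 4) sqP {((0 : ℤ), (0 : ℤ))} := by
  intro v r
  constructor
  · rintro ⟨i, rfl, hi⟩
    revert i r
    decide
  · rintro ⟨h1, -⟩
    rw [Finset.mem_singleton] at h1
    have h2 : v = -(![(0, 0), (-1, 0), (-1, -1), (0, -1)] r : ℤ × ℤ) := by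
      unfold face at h1
      exact eq_neg_of_add_eq_zero_left h1
    subst h2
    revert r
    decide

/-- The unit square, base point in the middle of the lower side. -/
noncomputable def sqD : Dat where
  l := 4
  p := sqP
  Q := {((0 : ℤ), (0 : ℤ))}
  poly := sqP_poly
  enc := sqP_enc
  r := 0
  step := by decide
  tp := 1 / 2
  tp0 := by norm_num
  tp1 := by norm_num

theorem sqD_tp : sqD.tp = 1 / 2 := rfl

theorem sqD_l : sqD.l = 4 := rfl

/-- **[EXS]** -/
theorem exs : ∃ (S : Dat) (i : ℕ) (ψ : ℂ → ℂ), 0 < i ∧ i < S.l ∧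
    IsU ψ S.P (bpt S ((i : ℝ) + 1 / 2)) S.bp ∧ InjOn ψ {z | 0 ≤ z.im} := by
  have hne : bpt sqD (((2 : ℕ) : ℝ) + 1 / 2) ≠ sqD.bp := by
    rw [← bpt_bp]
    intro h
    obtain ⟨k, hk⟩ := (jcurve sqD).inj _ _ h
    rw [sqD_tp, sqD_l] at hk
    push_cast at hk
    have h2 : (2 * k + 1 : ℤ) = 0 ∨ (2 : ℤ) = -(4 * k) ∨ (2 : ℤ) = 4 * k := by
      have h3 : (4 : ℝ) * k = -2 ∨ (4 : ℝ) * k = 2 := by
        first
        | exact Or.inl (by linarith)
        | exact Or.inr (by linarith)
      rcases h3 with h3 | h3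
      · exact Or.inr (Or.inl (by have h4 : (4 : ℤ) * k = -2 := by exact_mod_cast h3
                                 omega))
      · exact Or.inr (Or.inr (by have h4 : (4 : ℤ) * k = 2 := by exact_mod_cast h3
                                 omega))
    omega
  obtain ⟨ψ, h1, h2⟩ := exs_of sqD hne
  exact ⟨sqD, 2, ψ, by norm_num, by rw [sqD_l]; norm_num, h1, h2⟩

end Vale.Agent.P167.H411.Q
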