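import Vale.Agent.P167.QB.Uns
import Vale.Agent.P167.H640.ND.SymX
import Vale.Agent.P167.H135.RotEnv

/-!
# P167, general `q`, block Q-ND (CONT): the literal inputs

`S_unsM`: `QB.uns` with the flat point `q 0` in another direction (`M` is a rotation composed with an
even translation; the window at `q 0` is above `M.t (q 0)` after the movement `M`).
-/

namespace Vale.Agent.P167.H411.Q

open Finset Vale.Agent.P167 Vale.Agent.P167.BR Vale.Agent.P167.FK
open Vale.Agent.P167.E6 (IsPolygon Encloses)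
open Vale.Agent.P167.H562.QM
open Vale.Agent.P167.QB (XG zS Nf Bq' dlt)

/-- **(UNS)** with the window of the base point in any direction. -/
def S_unsM (θ : ℝ) (P : MeasureTheory.Measure Cfg) : Prop := ∀ K : ℝ, 1 ≤ K →
  ∃ (r0 : ℝ) (Λ : ℤ) (α C : ℝ), 1 ≤ r0 ∧ 1 ≤ Λ ∧ 0 < α ∧ 0 < C ∧
  ∀ (n : ℕ) (q : ZMod n → ℤ × ℤ) (D : Finset (ℤ × ℤ)), IsPolygon q → Encloses q D →
  ∀ (i : Fin 4) (η : Cfg) (l : ℕ) (rc R rp : ℤ) (fc fp : ℤ × ℤ → ℝ),
    Good η → l ≤ n → r0 ≤ rc → r0 ≤ rp → Λ * rc ≤ R → R ≤ rc ^ 2 →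
    FltQ D η (q l) R false false →
    FltQ ((H135.rk i).S D) ((H135.rk i).c η) ((H135.rk i).t (q 0)) (2 * rp) false false →
    Disjoint (hbox ((H135.rk i).t (q 0)) (2 * rp)) ((H135.rk i).S (hbox (q l) R)) →
    Bq' θ K (q l) rc fc → Bq' θ K ((H135.rk i).t (q 0)) rp ((H135.rk i).F fp) →
    |Ex (2 * Real.cos θ) D η (XG θ q D n (fun z => fp z - fc z)) -
      zS θ (q l) rc fc *
        Ex (2 * Real.cos θ) D η (XG θ q D n (fun z => fp z - dlt (q l) θ z))| ≤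
      C * ((rc : ℝ) / R) ^ α * (Nf θ K P rc / Nf θ K P rp)

end Vale.Agent.P167.H411.Q
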