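import Vale.Agent.P167.H411.Q.LocZ
import Vale.Agent.P167.H208.SH.PS3
import Vale.Agent.P167.H542.Q.Um3
import Vale.Agent.P167.H469.SrswB
import Vale.Agent.P167.K8.RswFin
import Vale.Agent.P167.H662.L.Lay7

/-!
# P167, general `q`, block Q-ND: `NDz` without hypotheses

`ndz_fin`: the charge `- θ` at a flat point is invisible, for the free and the wired family of every
lattice polygon with a flat base point; one shape `χp` at the base point and one one-point function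
`zN θ` for all polygons.
-/

open Set Filter Topology MeasureTheory
open scoped ComplexConjugate

namespace Vale.Agent.P167.H411.Q

open Vale.Agent.P167 Vale.Agent.P167.BR Vale.Agent.P167.FK
open Vale.Agent.P167.BVP (Flat)
open Vale.Agent.P167.H411.B7 (Shp)
open Vale.Agent.P167.H519 (IsLim)
open Vale.Agent.P167.H192.Q (SRSW)
open Vale.Agent.P167.H825.Q (Bc bdQ bdG dob_qS)
open Vale.Agent.P167.H718 (etaW)

/-- **The input on the side of the base point**: one shape for all polygons. -/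
theorem pSide_of {θ : ℝ} {P : Measure Cfg} (h0 : 0 < θ) (h1 : θ ≤ Real.pi / 3)
    (hR : RSW (2 * Real.cos θ)) (hS : SRSW (2 * Real.cos θ)) (hP : IsLim (2 * Real.cos θ) P) :
    ∃ χp : ℂ → ℝ, Shp Complex.I χp ∧ ∀ (S : CA.Dat) (νp : ℂ) (rp : ℝ), Flat S.P S.bp νp rp →
      ∀ w, PSide θ P χp S νp rp w := by
  obtain ⟨χp, hχp, α, hα, K₀, -, h⟩ := H208.SH.pside h0 h1 hR hS hP
  refine ⟨χp, hχp, fun S νp rp hF w => ⟨K₀, fun K hK => ?_⟩⟩
  obtain ⟨h2, c, C, τ, hc, hC, hτ, h3⟩ := h K hK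
  refine ⟨⟨1, one_pos, fun ρ hρ _ j hj => h2 S νp rp hF w j hj ρ hρ⟩, c, C, α, τ, hc, hC, hα, hτ,
    fun r ρ hr hρ hρτ => ?_⟩
  filter_upwards [h3 S νp rp hF w r hr ρ hρ hρτ] with n hn l l' hl hl'
  exact hn l l' ⟨hl.1.1, hl.1.2.1, hl.1.2.2, hl.2⟩ ⟨hl'.1.1, hl'.1.2.1, hl'.1.2.2, hl'.2⟩

/-- **[Q-ND] (Q3) + (Q5)** without hypotheses. -/
theorem ndz_fin {θ β : ℝ} (h0 : 0 < θ) (h1 : θ ≤ Real.pi / 3)
    (hβ : Real.cos (θ / 2 + β) = Real.sin θ) :
    ∃ χp : ℂ → ℝ, Shp Complex.I χp ∧ ∀ (S : CA.Dat) (hfr : Bc.free.In S.l) (hwi : Bc.wired.In S.l)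
      {L : Filter ℕ} (hL : L ≤ atTop) (hc : L.IsCountablyGenerated) {νp : ℂ} {rp : ℝ},
      Flat S.P S.bp νp rp →
      NDz θ ((bdQ S θ β .free hfr L hL hc).famB h0 h1 hβ)
        ((bdQ S θ β .wired hwi L hL hc).famB h0 h1 hβ) νp rp χp (zN θ) := by
  have hR := K8.k_rsw θ h0.le h1
  have hS := H469.srsw_of_rsw h0 h1 hR
  have h2 : 1 ≤ 2 * Real.cos θ := by
    have hpi := Real.pi_pos
    have : Real.cos (Real.pi / 3) ≤ Real.cos θ :=
      Real.cos_le_cos_of_nonneg_of_le_pi h0.le (by linarith) h1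
    rw [Real.cos_pi_div_three] at this
    linarith
  obtain ⟨P, hP⟩ := H662.L.exists_isLim h2 hR
  obtain ⟨χp, hχp, h⟩ := pSide_of h0 h1 hR hS hP
  refine ⟨χp, hχp, fun S hfr hwi L hL hc νp rp hF => ?_⟩
  exact ndz_of h0 h1 hβ hR hP (H542.Q.Um.s_unsM h0 h1 hR hP) hL hc (hL (dob_qS S .free))
    (hL (dob_qS S .wired)) hχp hF (h S νp rp hF)

end Vale.Agent.P167.H411.Q
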