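import Vale.Agent.P167.H411.B7.Main

/-!
# P167, general `q`: the logarithmic potential of the junction

`ψ 0 = a`, `ψ ∞ = p`, `ll ψ φ = (φ, log |g|)` with `g` the inverse of `ψ`; bumps of mass `1` near flat
boundary points.
-/

open Set Metric Filter Topology Bornology MeasureTheory
open scoped ComplexConjugate ContDiff

namespace Vale.Agent.P167.H411.Q

open Vale.Agent.P153.R2.R1 Vale.Agent.P167.H411.B7
open Vale.Agent.P167.BVP (Flat nker npot kreg lpot Test)

variable {ψ : ℂ → ℂ} {P : Set ℂ} {a p : ℂ}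

/-- The pairing with `log |g|`. -/
noncomputable def ll (ψ : ℂ → ℂ) (φ : ℂ → ℝ) : ℝ := ∫ z, φ z * Real.log ‖ginv ψ z‖

theorem ll_eq_lg (ψ : ℂ → ℂ) (φ : ℂ → ℝ) : ll ψ φ = lg ψ φ / 2 := by
  unfold ll lg
  rw [← integral_div]
  congr 1
  funext z
  ring

theorem int_log {φ : ℂ → ℝ} (hφ : Test P φ) (q : ℂ) :
    Integrable fun z => φ z * Real.log ‖z - q‖ := by
  have h := BVP.integrable_log hφ.1.continuous hφ.2.1 q
  refine h.congr (Eventually.of_forall fun z => ?_)
  simp only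
  rw [norm_sub_rev]

/-- Averages of functions which are almost equal. -/
theorem avg_close {q : ℂ} {η ε : ℝ} {φ u v : ℂ → ℝ} (hφ : Bp P q η φ)
    (hu : Integrable fun z => φ z * u z) (hv : Integrable fun z => φ z * v z)
    (h : ∀ᵐ z : ℂ, z ∈ tsupport φ → |u z - v z| ≤ ε) :
    |(∫ z, φ z * u z) - ∫ z, φ z * v z| ≤ ε := by
  rw [← integral_sub hu hv]
  have h1 : |∫ z, (φ z * u z - φ z * v z)| ≤ ∫ z, φ z * ε := by
    rw [← Real.norm_eq_abs]
    refine norm_integral_le_of_norm_le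
      ((integrable_test hφ.test).mul_const ε) ?_
    filter_upwards [h] with z hz
    rw [← mul_sub, norm_mul, Real.norm_of_nonneg (hφ.nonneg z), Real.norm_eq_abs]
    by_cases hz' : z ∈ tsupport φ
    · exact mul_le_mul_of_nonneg_left (hz hz') (hφ.nonneg z)
    · rw [image_eq_zero_of_notMem_tsupport hz', zero_mul, zero_mul]
  rw [integral_mul_const, hφ.mass, one_mul] at h1
  exact h1

theorem int_ll (h : IsU ψ P a p) (hinj : InjOn ψ {z | 0 ≤ z.im}) {φ : ℂ → ℝ} (hφ : Test P φ) :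
    Integrable fun z => φ z * Real.log ‖ginv ψ z‖ := by
  have h1 := integrable_mul_contOn (isOpen_of_isU h) hφ (log_ginv_contOn h hinj 1)
  simpa using h1

/-- A bump near the junction. -/
theorem ll_a (h : IsU ψ P a p) (hinj : InjOn ψ {z | 0 ≤ z.im}) {ν : ℂ} {r η : ℝ} {φ : ℂ → ℝ}
    (hF : Flat P a ν r) (hp : p ∉ ball a r) (hη : η ≤ r / 8400) (hφ : Bp P a η φ) {d : ℂ}
    (hd : HasDerivWithinAt ψ d {z | 0 ≤ z.im} 0) :
    |ll ψ φ - (-Real.log ‖d‖ + ∫ z, φ z * Real.log ‖z - a‖)| ≤ 8400 * (η / r) := by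
  obtain ⟨G, hX⟩ := exists_ext h hinj hF hp
  have hr := hF.pos
  have h0 : ginv ψ a = 0 := by rw [← h.zero]; exact ginv_apply hinj (by simp)
  have hd' : HasDerivWithinAt ψ d {z | 0 ≤ z.im} ((0 : ℝ) : ℂ) := by
    rw [Complex.ofReal_zero]; exact hd
  have e1 := hX.deriv_eq h hinj hF hp (x := 0) (by rw [Complex.ofReal_zero, h.zero]) hd'
  have h1 := avg_close hφ (u := fun z => Real.log ‖ginv ψ z‖)
    (v := fun z => -Real.log ‖d‖ + Real.log ‖z - a‖) (ε := 8400 * (η / r))
    (int_ll h hinj hφ.test) (by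
      have := ((integrable_test hφ.test).mul_const (-Real.log ‖d‖)).add (int_log hφ.test a)
      refine this.congr (Eventually.of_forall fun z => ?_)
      simp only [Pi.add_apply]; ring) (by
      have hne : ∀ᵐ z : ℂ, z ≠ a := by
        rw [ae_iff]; simp
      filter_upwards [hne] with z hz hzs
      obtain ⟨hzP, hzη⟩ := hφ.sub hzs
      have hzb : z ∈ ball a r := closedBall_subset_ball (by linarith) hzη
      have k := log_near hr hX.diff hX.inj hη hzη (mem_closedBall_self hφ.eta_nonneg) hz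
      rw [hX.eq_mem hF hzb hzP, hX.center hF, h0, sub_zero, e1, Real.log_inv] at k
      have e : Real.log ‖ginv ψ z‖ - (-Real.log ‖d‖ + Real.log ‖z - a‖) =
        Real.log ‖ginv ψ z‖ - -Real.log ‖d‖ - Real.log ‖z - a‖ := by ring
      rw [e]
      exact k)
  have e2 : ∫ z, φ z * (-Real.log ‖d‖ + Real.log ‖z - a‖) =
      -Real.log ‖d‖ + ∫ z, φ z * Real.log ‖z - a‖ := by
    have e3 : ∀ z, φ z * (-Real.log ‖d‖ + Real.log ‖z - a‖) =
        φ z * (-Real.log ‖d‖) + φ z * Real.log ‖z - a‖ := fun z => by ring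
    simp only [e3]
    rw [integral_add ((integrable_test hφ.test).mul_const _) (int_log hφ.test a),
      integral_mul_const, hφ.mass, one_mul]
  rw [e2] at h1
  exact h1

/-- A bump near another flat point. -/
theorem ll_c (h : IsU ψ P a p) (hinj : InjOn ψ {z | 0 ≤ z.im}) {c ν : ℂ} {r η : ℝ} {φ : ℂ → ℝ}
    (hF : Flat P c ν r) (hp : p ∉ ball c r) (ha : a ∉ ball c r) (hη : η ≤ r / 8400)
    (hφ : Bp P c η φ) : |ll ψ φ - Real.log ‖ginv ψ c‖| ≤ 40 * (η / r) := by
  obtain ⟨G, hX⟩ := exists_ext h hinj hF hp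
  have hr := hF.pos
  have hom : (0 : ℂ) ∉ G '' ball c r :=
    hX.omit h hinj hF hp (by simp) (by rw [h.zero]; exact ha)
  have hGc : G c ≠ 0 := fun e => hom ⟨c, mem_ball_self hr, e⟩
  have hη0 := hφ.eta_nonneg
  have hsm : 20 * (η / r) ≤ 1 / 2 := by
    have : η / r ≤ 1 / 8400 := by
      rw [div_le_iff₀ hr]; linarith
    linarith
  have h1 := avg_close hφ (u := fun z => Real.log ‖ginv ψ z‖)
    (v := fun _ => Real.log ‖ginv ψ c‖) (ε := 40 * (η / r))
    (int_ll h hinj hφ.test) ((integrable_test hφ.test).mul_const _) (by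
      refine Eventually.of_forall fun z hzs => ?_
      obtain ⟨hzP, hzη⟩ := hφ.sub hzs
      have hzb : z ∈ ball c r := closedBall_subset_ball (by linarith) hzη
      have k := near_omit hr hX.diff hX.inj hη hzη hom
      rw [zero_sub, norm_neg] at k
      have hGz : G z ≠ 0 := fun e => hom ⟨z, hzb, e⟩
      have k2 : ‖G z / G c - 1‖ ≤ 20 * (η / r) := by
        rw [div_sub_one hGc, norm_div, div_le_iff₀ (norm_pos_iff.2 hGc)]
        exact k
      have k3 := abs_log_norm_le hsm k2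
      rw [norm_div, Real.log_div (norm_ne_zero_iff.2 hGz) (norm_ne_zero_iff.2 hGc),
        hX.eq_mem hF hzb hzP, hX.center hF] at k3
      linarith)
  rw [integral_mul_const, hφ.mass, one_mul] at h1
  exact h1

/-- A bump near `p`. -/
theorem ll_p (h : IsU ψ P a p) (hinj : InjOn ψ {z | 0 ≤ z.im})
    (hne : ∀ z : ℂ, 0 ≤ z.im → ψ z ≠ p) {H : ℂ → ℂ} {ν : ℂ} {r η : ℝ} {φ : ℂ → ℝ}
    (hX : XT (swp ψ p) H p ν r) (hF : Flat P p ν r) (hη : η ≤ r / 8400)
    (hφ : Bp P p η φ) :
    |ll ψ φ + (Real.log ‖deriv H p‖ + ∫ z, φ z * Real.log ‖z - p‖)| ≤ 8400 * (η / r) := by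
  have hr := hF.pos
  have h0 : ginv (swp ψ p) p = 0 := by
    have := ginv_apply (swp_inj hinj hne) (w := 0) (by simp)
    rwa [swp_zero] at this
  have h1 := avg_close hφ (u := fun z => Real.log ‖ginv ψ z‖)
    (v := fun z => -Real.log ‖deriv H p‖ - Real.log ‖z - p‖) (ε := 8400 * (η / r))
    (int_ll h hinj hφ.test) (by
      have := ((integrable_test hφ.test).mul_const (-Real.log ‖deriv H p‖)).sub (int_log hφ.test p)
      refine this.congr (Eventually.of_forall fun z => ?_)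
      simp only [Pi.sub_apply]; ring) (by
      have hne' : ∀ᵐ z : ℂ, z ≠ p := by
        rw [ae_iff]; simp
      filter_upwards [hne'] with z hz hzs
      obtain ⟨hzP, hzη⟩ := hφ.sub hzs
      have hzb : z ∈ ball p r := closedBall_subset_ball (by linarith) hzη
      have k := log_near hr hX.diff hX.inj hη hzη (mem_closedBall_self hφ.eta_nonneg) hz
      rw [hX.eq_mem hF hzb hzP, hX.center hF, h0, sub_zero, ginv_swp h hinj hne hzP, norm_div,
        norm_neg, norm_one, one_div, Real.log_inv] at k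
      have e : Real.log ‖ginv ψ z‖ - (-Real.log ‖deriv H p‖ - Real.log ‖z - p‖) =
        -(-Real.log ‖ginv ψ z‖ - Real.log ‖deriv H p‖ - Real.log ‖z - p‖) := by ring
      rw [e, abs_neg]
      exact k)
  have e2 : ∫ z, φ z * (-Real.log ‖deriv H p‖ - Real.log ‖z - p‖) =
      -(Real.log ‖deriv H p‖ + ∫ z, φ z * Real.log ‖z - p‖) := by
    have e3 : ∀ z, φ z * (-Real.log ‖deriv H p‖ - Real.log ‖z - p‖) =
        φ z * (-Real.log ‖deriv H p‖) - φ z * Real.log ‖z - p‖ := fun z => by ring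
    simp only [e3]
    rw [integral_sub ((integrable_test hφ.test).mul_const _) (int_log hφ.test p),
      integral_mul_const, hφ.mass]
    ring
  rw [e2, sub_neg_eq_add] at h1
  exact h1

end Vale.Agent.P167.H411.Q
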