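import Vale.Agent.P167.H411.Q.Refl
import Vale.Agent.P167.H411.Q.Lg

/-!
# P167, general `q`: from a scale invariant oscillation bound to growth in the half-plane
-/

open Set Metric Filter Topology InnerProductSpace Complex MeasureTheory
open scoped ComplexConjugate

namespace Vale.Agent.P167.H411.Q

open Vale.Agent.P153.R2.R1 Vale.Agent.P167.H411.B7

/-- Coarse continuity. -/
theorem coarse {f : ℝ → ℝ} {C δ : ℝ} (hδ : 0 < δ) (hf : ∀ t t', |t' - t| ≤ δ → |f t - f t'| ≤ C)
    (t t' : ℝ) : |f t - f t'| ≤ C * (1 + |t' - t| / δ) := by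
  have hC : 0 ≤ C := (abs_nonneg _).trans (hf 0 0 (by simpa using hδ.le))
  set n : ℕ := ⌊|t' - t| / δ⌋₊ + 1 with hn
  have hn0 : (0 : ℝ) < n := by rw [hn]; positivity
  have hn1 : |t' - t| / δ ≤ n := by
    rw [hn]; push_cast; exact (Nat.lt_floor_add_one _).le
  have hn2 : (n : ℝ) ≤ 1 + |t' - t| / δ := by
    rw [hn]; push_cast
    have := Nat.floor_le (show 0 ≤ |t' - t| / δ by positivity)
    linarith
  set s : ℝ := (t' - t) / n with hs
  have hsδ : |s| ≤ δ := by
    rw [hs, abs_div, abs_of_pos hn0, div_le_iff₀ hn0]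
    rw [div_le_iff₀ hδ] at hn1
    linarith
  have key : ∀ k : ℕ, |f t - f (t + k * s)| ≤ k * C := by
    intro k
    induction k with
    | zero => simp
    | succ k ih =>
      have h1 := hf (t + k * s) (t + (k + 1 : ℕ) * s) (by
        have : t + ((k + 1 : ℕ) : ℝ) * s - (t + k * s) = s := by push_cast; ring
        rwa [this])
      have h2 := abs_sub_le (f t) (f (t + k * s)) (f (t + (k + 1 : ℕ) * s))
      push_cast at h1 h2 ⊢
      linarith
  have h1 := key n
  have h2 : t + n * s = t' := by rw [hs]; field_simp; ring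
  rw [h2] at h1
  calc |f t - f t'| ≤ n * C := h1
    _ ≤ (1 + |t' - t| / δ) * C := mul_le_mul_of_nonneg_right hn2 hC
    _ = _ := by ring

/-- Scale invariant oscillation in the half-plane gives logarithmic growth. -/
theorem hlog_of_osc {v : ℂ → ℝ} {C : ℝ} (hv : ∀ z z' : ℂ, 0 < z.im → 0 < z'.im →
    ‖z' - z‖ ≤ z.im / 1000 → |v z - v z'| ≤ C) : HLog v (|v I| + 6003 * C) := by
  have hC : 0 ≤ C := (abs_nonneg _).trans (hv I I (by simp) (by simp) (by simp))
  have hvert : ∀ x s t : ℝ, |v (x + Real.exp s * I) - v (x + Real.exp t * I)| ≤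
      C * (1 + 2000 * |t - s|) := by
    intro x s t
    have h1 := coarse (f := fun s => v (x + Real.exp s * I)) (C := C) (δ := 1 / 2000) (by norm_num)
      (fun a b hab => by
        have hima : ∀ a : ℝ, ((x : ℂ) + Real.exp a * I).im = Real.exp a := fun a => by
          rw [add_im, ofReal_im, zero_add, mul_I_im, ofReal_re]
        refine hv _ _ (by rw [hima]; exact Real.exp_pos _) (by rw [hima]; exact Real.exp_pos _) ?_
        have e1 : ((x : ℂ) + Real.exp b * I) - (x + Real.exp a * I) =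
          ((Real.exp b - Real.exp a : ℝ) : ℂ) * I := by push_cast; ring
        rw [e1, norm_mul, norm_I, mul_one, Complex.norm_real, Real.norm_eq_abs]
        rw [hima]
        have e3 : Real.exp b - Real.exp a = Real.exp a * (Real.exp (b - a) - 1) := by
          rw [mul_sub, ← Real.exp_add, mul_one]; congr 2; ring
        rw [e3, abs_mul, abs_of_pos (Real.exp_pos a)]
        have e4 := Real.abs_exp_sub_one_le (x := b - a) (by linarith)
        have e5 : |Real.exp (b - a) - 1| ≤ 1 / 1000 := by linarith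
        have := mul_le_mul_of_nonneg_left e5 (Real.exp_pos a).le
        linarith) s t
    refine h1.trans (le_of_eq ?_)
    ring
  have hhor : ∀ Y x : ℝ, 0 < Y → |x| ≤ Y → |v (x + Y * I) - v ((0 : ℝ) + Y * I)| ≤ 1001 * C := by
    intro Y x hY hx
    have h1 := coarse (f := fun t : ℝ => v (t + Y * I)) (C := C) (δ := Y / 1000) (by positivity)
      (fun a b hab => by
        refine hv _ _ (by simp [hY]) (by simp [hY]) ?_
        have e1 : ((b : ℂ) + Y * I) - (a + Y * I) = ((b - a : ℝ) : ℂ) := by push_cast; ring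
        rw [e1, Complex.norm_real, Real.norm_eq_abs]
        have e2 : (((a : ℂ) + Y * I)).im = Y := by simp
        rw [e2]
        exact hab) x 0
    refine h1.trans ?_
    have : |0 - x| / (Y / 1000) ≤ 1000 := by
      rw [zero_sub, abs_neg, div_le_iff₀ (by positivity)]
      linarith
    nlinarith
  intro z hz
  set Y : ℝ := 1 + |z.re| with hY
  have hY1 : 1 ≤ Y := by rw [hY]; linarith [abs_nonneg z.re]
  have hY0 : 0 < Y := by linarith
  have hlY : 0 ≤ Real.log Y := Real.log_nonneg hY1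
  have hlY2 : Real.log Y ≤ Real.log (1 + ‖z‖) :=
    Real.log_le_log hY0 (by rw [hY]; linarith [Complex.abs_re_le_norm z])
  have h1 := hvert z.re (Real.log z.im) (Real.log Y)
  rw [Real.exp_log hz, Real.exp_log hY0, Complex.re_add_im] at h1
  have h2 := hhor Y z.re hY0 (by rw [hY]; linarith)
  have h3 := hvert 0 (Real.log Y) (Real.log 1)
  rw [Real.exp_log hY0, Real.exp_log one_pos, Real.log_one, zero_sub, abs_neg, abs_of_nonneg hlY]
    at h3
  have e1 : ((0 : ℝ) : ℂ) + (1 : ℝ) * I = I := by push_cast; ring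
  rw [e1] at h3
  have h4 : |Real.log Y - Real.log z.im| ≤ Real.log Y + |Real.log z.im| := by
    have := abs_sub (Real.log Y) (Real.log z.im)
    rwa [abs_of_nonneg hlY] at this
  have h5 : |v z| ≤ |v I| + (|v z - v (z.re + Y * I)| +
      |v (z.re + Y * I) - v ((0 : ℝ) + Y * I)| + |v ((0 : ℝ) + Y * I) - v I|) := by
    have : v z = v I + ((v z - v (z.re + Y * I)) + (v (z.re + Y * I) - v ((0 : ℝ) + Y * I)) +
      (v ((0 : ℝ) + Y * I) - v I)) := by ring
    calc |v z| = |v I + ((v z - v (z.re + Y * I)) + (v (z.re + Y * I) - v ((0 : ℝ) + Y * I)) +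
      (v ((0 : ℝ) + Y * I) - v I))| := by rw [← this]
      _ ≤ |v I| + |(v z - v (z.re + Y * I)) + (v (z.re + Y * I) - v ((0 : ℝ) + Y * I)) +
        (v ((0 : ℝ) + Y * I) - v I)| := abs_add_le _ _
      _ ≤ _ := by
        have a1 := abs_add_le ((v z - v (z.re + Y * I)) + (v (z.re + Y * I) - v ((0 : ℝ) + Y * I)))
          (v ((0 : ℝ) + Y * I) - v I)
        have a2 := abs_add_le (v z - v (z.re + Y * I)) (v (z.re + Y * I) - v ((0 : ℝ) + Y * I))
        linarith
  have h6 : C * (1 + 2000 * |Real.log Y - Real.log z.im|) ≤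
      C * (1 + 2000 * (Real.log (1 + ‖z‖) + |Real.log z.im|)) :=
    mul_le_mul_of_nonneg_left (by linarith) hC
  have h7 : C * (1 + 2000 * Real.log Y) ≤ C * (1 + 2000 * Real.log (1 + ‖z‖)) :=
    mul_le_mul_of_nonneg_left (by linarith) hC
  set L := Real.log (1 + ‖z‖) with hL
  have hL0 : 0 ≤ L := hlY.trans hlY2
  have hm := abs_nonneg (Real.log z.im)
  have hvI := abs_nonneg (v I)
  have h8 : 0 ≤ |v I| * (|Real.log z.im| + L) := by positivity
  have h9 : 0 ≤ C * |Real.log z.im| := by positivity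
  have h10 : 0 ≤ C * L := by positivity
  nlinarith

variable {ψ : ℂ → ℂ} {P : Set ℂ} {a p : ℂ}

theorem bdd_isU (h : IsU ψ P a p) : Bornology.IsBounded P := h.toDisc.isBounded

theorem compl_ne (h : IsU ψ P a p) : (Pᶜ).Nonempty := by
  obtain ⟨R, hR⟩ := (bdd_isU h).subset_closedBall (0 : ℂ)
  refine ⟨((|R| + 1 : ℝ) : ℂ), fun hm => ?_⟩
  have := hR hm
  rw [mem_closedBall_zero_iff, Complex.norm_real, Real.norm_eq_abs, abs_of_pos (by positivity)]
    at this
  linarith [le_abs_self R]

/-- Small hyperbolic discs are mapped to small discs. -/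
theorem map_small (h : IsU ψ P a p) {z z' : ℂ} (hz : 0 < z.im) (hzz : ‖z' - z‖ ≤ z.im / 1000) :
    ‖ψ z' - ψ z‖ ≤ infDist (ψ z) Pᶜ / 4 := by
  have hsub : ball z z.im ⊆ {w : ℂ | 0 < w.im} := by
    intro w hw
    rw [mem_ball, dist_eq_norm] at hw
    have h1 := Complex.abs_im_le_norm (w - z)
    rw [sub_im] at h1
    have h2 := (abs_lt.1 (h1.trans_lt hw)).1
    show 0 < w.im
    linarith
  have hd := h.diff.mono hsub
  have hi := h.inj.mono hsub
  have h1 : ball (ψ z) (z.im * ‖deriv ψ z‖ / 10) ⊆ P := by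
    refine (Vale.Agent.P164.koebe_image hz hd hi).trans ?_
    rw [← h.img]
    exact image_mono hsub
  have hne : (Pᶜ).Nonempty := compl_ne h
  have h2 : z.im * ‖deriv ψ z‖ / 10 ≤ infDist (ψ z) Pᶜ := by
    refine (le_infDist hne).2 fun w hw => ?_
    by_contra hlt
    push Not at hlt
    exact hw (h1 (by rw [mem_ball, dist_comm]; exact hlt))
  have hr : z.im / 1000 < z.im / 200 := by linarith
  have h3 := koebe_lin hz hd hi hr (z := z') (w := z) (by rwa [mem_closedBall, dist_eq_norm])
    (mem_closedBall_self (by positivity))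
  have e1 : 4200 * (z.im / 1000 / z.im) = 4.2 := by field_simp; norm_num
  rw [e1] at h3
  have h4 : ‖ψ z' - ψ z‖ ≤ 5.2 * (‖deriv ψ z‖ * ‖z' - z‖) := by
    have : ψ z' - ψ z = (ψ z' - ψ z - deriv ψ z * (z' - z)) + deriv ψ z * (z' - z) := by ring
    rw [this]
    refine (norm_add_le _ _).trans ?_
    rw [norm_mul]
    nlinarith
  have h5 : ‖deriv ψ z‖ * ‖z' - z‖ ≤ ‖deriv ψ z‖ * (z.im / 1000) :=
    mul_le_mul_of_nonneg_left hzz (norm_nonneg _)
  nlinarith [norm_nonneg (deriv ψ z), mul_nonneg (norm_nonneg (deriv ψ z)) hz.le]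

end Vale.Agent.P167.H411.Q
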