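import Vale.Agent.P167.H411.Q.NDefs
import Mathlib.Analysis.Complex.Isometry

/-!
# P167, general `q`: rotated bumps
-/

open Set Metric Filter Topology MeasureTheory
open scoped ComplexConjugate ContDiff

namespace Vale.Agent.P167.H411.Q

open Vale.Agent.P153.R2.R1 Vale.Agent.P167.H411.B7
open Vale.Agent.P167.BVP (Flat Test lpot)

/-- The rotated shape. -/
noncomputable def rot (χ : ℂ → ℝ) (ν : ℂ) (u : ℂ) : ℝ := χ (Complex.I * conj ν * u)

theorem fb_eq (χ : ℂ → ℝ) (ν c : ℂ) (η : ℝ) : fb χ ν c η = scb (rot χ ν) c η := by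
  funext z
  unfold fb scb rot
  rw [mul_div_assoc]

theorem norm_om {ν : ℂ} (hν : ‖ν‖ = 1) : ‖Complex.I * conj ν‖ = 1 := by
  rw [norm_mul, Complex.norm_I, RCLike.norm_conj, hν, mul_one]

theorem integral_rot {κ : ℂ} (hκ : ‖κ‖ = 1) (F : ℂ → ℝ) : ∫ u, F (κ * u) = ∫ u, F u := by
  set a : Circle := ⟨κ, mem_sphere_zero_iff_norm.2 hκ⟩ with ha
  have h1 := (rotation a).measurePreserving.integral_comp
    (rotation a).toHomeomorph.measurableEmbedding F
  exact h1

theorem shp_rot {χ : ℂ → ℝ} (h : Shp Complex.I χ) {ν : ℂ} (hν : ‖ν‖ = 1) : Shp ν (rot χ ν) := by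
  refine ⟨?_, ?_, fun z => h.nonneg _, ?_⟩
  · exact h.smooth.comp (by fun_prop)
  · intro u hu
    have hcl : IsClosed {u : ℂ | Complex.I * conj ν * u ∈ tsupport χ} :=
      (isClosed_tsupport χ).preimage (by fun_prop)
    have hsub : tsupport (rot χ ν) ⊆ {u : ℂ | Complex.I * conj ν * u ∈ tsupport χ} := by
      refine closure_minimal ?_ hcl
      intro z hz
      exact subset_tsupport _ hz
    obtain ⟨h1, h2⟩ := h.supp (hsub hu)
    constructor
    · rw [mem_closedBall_zero_iff] at h1 ⊢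
      rwa [norm_mul, norm_om hν, one_mul] at h1
    · have h3 : 0 < (Complex.I * conj ν * u * conj Complex.I).re := h2
      have e : Complex.I * conj ν * u * conj Complex.I = u * conj ν := by
        rw [Complex.conj_I]
        linear_combination (-(conj ν * u)) * Complex.I_mul_I
      rw [e] at h3
      exact h3
  · unfold rot
    rw [integral_rot (norm_om hν) χ, h.mass]

theorem lpot_rot {χ : ℂ → ℝ} {ν : ℂ} (hν : ‖ν‖ = 1) (z : ℂ) :
    lpot (rot χ ν) z = lpot χ (Complex.I * conj ν * z) := by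
  unfold lpot rot
  rw [← integral_rot (norm_om hν) (fun u => χ u * Real.log ‖Complex.I * conj ν * z - u‖)]
  refine integral_congr_ae (Eventually.of_forall fun w => ?_)
  simp only
  rw [← mul_sub, norm_mul, norm_om hν, one_mul]

/-- The self-energy of a shape does not depend on the direction. -/
theorem JJ_rot {χ χ' : ℂ → ℝ} {ν : ℂ} (hν : ‖ν‖ = 1) :
    JJ 0 ν (rot χ ν) (rot χ' ν) = JJ 0 Complex.I χ χ' := by
  unfold JJ
  rw [← integral_rot (norm_om hν) (fun z => χ z * (lpot χ' z + lpot χ' (rfn 0 Complex.I z)))]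
  refine integral_congr_ae (Eventually.of_forall fun z => ?_)
  simp only
  rw [lpot_rot hν, lpot_rot hν]
  have e : Complex.I * conj ν * rfn 0 ν z = rfn 0 Complex.I (Complex.I * conj ν * z) := by
    have hνν := norm_mul_conj hν
    unfold rfn
    simp only [sub_zero, zero_sub, map_mul, Complex.conj_conj, Complex.conj_I, map_neg]
    linear_combination (-Complex.I * ν * conj z) * hνν +
      (-Complex.I * ν * conj z) * Complex.I_mul_I
  rw [e]
  rfl

theorem fb_bp {χ : ℂ → ℝ} (h : Shp Complex.I χ) {P : Set ℂ} {c ν : ℂ} {r η : ℝ}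
    (hF : Flat P c ν r) (hη : 0 < η) (hr : η < r) : Bp P c η (fb χ ν c η) := by
  rw [fb_eq]
  exact (shp_rot h hF.norm).bp hF hη hr

theorem JJ_fb {χ : ℂ → ℝ} (h : Shp Complex.I χ) {c ν : ℂ} (hν : ‖ν‖ = 1) {η : ℝ} (hη : 0 < η) :
    JJ c ν (fb χ ν c η) (fb χ ν c η) = 2 * Real.log η + JJ 0 Complex.I χ χ := by
  have hs := shp_rot h hν
  rw [fb_eq, JJ_scb hs.smooth hs.compact hs.smooth hs.compact c ν hη, hs.mass, JJ_rot hν]
  ring

theorem int_log_fb {χ : ℂ → ℝ} (h : Shp Complex.I χ) {c ν : ℂ} (hν : ‖ν‖ = 1) {η : ℝ}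
    (hη : 0 < η) :
    ∫ z, fb χ ν c η z * Real.log ‖z - c‖ = Real.log η + ∫ z, χ z * Real.log ‖z‖ := by
  have hs := shp_rot h hν
  have h1 : ∫ z, fb χ ν c η z * Real.log ‖z - c‖ = lpot (scb (rot χ ν) c η) c := by
    rw [fb_eq]
    unfold lpot
    refine integral_congr_ae (Eventually.of_forall fun z => ?_)
    simp only
    rw [norm_sub_rev]
  rw [h1, lpot_scb hs.smooth.continuous hs.compact c hη, hs.mass, mul_one, sub_self, zero_div,
    lpot_rot hν, mul_zero]
  congr 1
  unfold lpot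
  refine integral_congr_ae (Eventually.of_forall fun z => ?_)
  simp only
  rw [zero_sub, norm_neg]

end Vale.Agent.P167.H411.Q
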