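import Vale.Agent.P167.BVP.Ext
import Vale.Agent.P167.BVP.Dir
import Vale.Agent.P167.BVP.MaxP

/-!
# P167, general `q`: harmonic functions with constant boundary values

`odd_refl`: the Schwarz reflection principle for harmonic functions;
`half_dir`: a harmonic function in the half-plane with the boundary value `t₀` off a finite set and
logarithmic growth at this set and at infinity is constant.
-/

open Set Metric Filter Topology InnerProductSpace Complex
open scoped ComplexConjugate

namespace Vale.Agent.P167.H411.Q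

open Vale.Agent.P167.BVP

theorem halfBall_closure {ρ : ℝ} {z : ℂ} (hz : z ∈ closure (halfBall ρ)) :
    z ∈ closedBall (0 : ℂ) ρ ∧ 0 ≤ z.im := by
  have h1 : closure (halfBall ρ) ⊆ closedBall (0 : ℂ) ρ ∩ {z | 0 ≤ z.im} := by
    refine closure_minimal ?_ (isClosed_closedBall.inter
      (isClosed_le continuous_const Complex.continuous_im))
    rintro w ⟨h1, h2⟩
    have h2' : 0 < w.im := h2
    exact ⟨ball_subset_closedBall h1, h2'.le⟩
  exact h1 hz

/-- **Odd reflection** in a disc with centre `0`. -/
theorem odd_refl {ρ : ℝ} (hρ : 0 < ρ) {u : ℂ → ℝ} (hc : ContinuousOn u (closedBall 0 ρ))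
    (hh : HarmonicOnNhd u (halfBall ρ)) (ho : ∀ z ∈ closedBall (0 : ℂ) ρ, u (conj z) = - u z) :
    HarmonicOnNhd u (ball 0 ρ) := by
  obtain ⟨P, hPc, hPh, hPs⟩ := exists_dirichlet hρ (hc.mono sphere_subset_closedBall)
  have hcj : ∀ z ∈ closedBall (0 : ℂ) ρ, conj z ∈ closedBall (0 : ℂ) ρ := fun z hz => by
    rw [mem_closedBall_zero_iff] at hz ⊢; rwa [norm_conj]
  have hPo : ∀ z ∈ closedBall (0 : ℂ) ρ, P (conj z) = - P z := by
    have h1 := eq_of_frontier (U := ball (0 : ℂ) ρ) isOpen_ball isBounded_ball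
      (u := fun z => P (conj z)) (v := fun z => - P z) ?_ ?_ ?_ ?_ ?_
    · rwa [closure_ball _ hρ.ne'] at h1
    · rw [closure_ball _ hρ.ne']
      exact hPc.comp Complex.continuous_conj.continuousOn hcj
    · rw [closure_ball _ hρ.ne']
      exact hPc.neg
    · intro z hz
      refine harmonicAt_conj (hPh _ ?_)
      rw [mem_ball_zero_iff] at hz ⊢; rwa [norm_conj]
    · intro z hz
      exact harmonicAt_neg' (hPh z hz)
    · intro z hz
      rw [frontier_ball _ hρ.ne'] at hz
      have hz' : conj z ∈ sphere (0 : ℂ) ρ := by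
        rw [mem_sphere_zero_iff_norm] at hz ⊢; rwa [norm_conj]
      show P (conj z) = - P z
      rw [hPs _ hz', hPs _ hz, ho z (sphere_subset_closedBall hz)]
  have hsubb : halfBall ρ ⊆ ball 0 ρ := fun z hz => hz.1
  have hcl : closure (halfBall ρ) ⊆ closedBall 0 ρ := fun z hz => (halfBall_closure hz).1
  have hup : ∀ z ∈ closure (halfBall ρ), u z = P z := by
    refine eq_of_frontier (halfBall_open ρ) (isBounded_ball.subset hsubb) (hc.mono hcl)
      (hPc.mono hcl) hh (fun z hz => hPh z (hsubb hz)) ?_
    intro z hz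
    rw [(halfBall_open ρ).frontier_eq] at hz
    obtain ⟨h1, h2⟩ := halfBall_closure hz.1
    by_cases h3 : z ∈ sphere (0 : ℂ) ρ
    · exact (hPs z h3).symm
    · have h4 : z ∈ ball (0 : ℂ) ρ := by
        rw [mem_closedBall_zero_iff] at h1
        rw [mem_sphere_zero_iff_norm] at h3
        rw [mem_ball_zero_iff]
        exact lt_of_le_of_ne h1 h3
      have h5 : z.im = 0 := by
        by_contra h
        exact hz.2 ⟨h4, lt_of_le_of_ne h2 (Ne.symm h)⟩
      have h6 : conj z = z := Complex.conj_eq_iff_im.2 h5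
      have e1 := ho z h1
      have e2 := hPo z h1
      rw [h6] at e1 e2
      linarith
  have hall : ∀ z ∈ ball (0 : ℂ) ρ, u z = P z := by
    have hmem : ∀ z ∈ ball (0 : ℂ) ρ, 0 ≤ z.im → z ∈ closure (halfBall ρ) := by
      intro z hz h0
      rcases h0.lt_or_eq with h | h
      · exact subset_closure ⟨hz, h⟩
      · rw [Metric.mem_closure_iff]
        intro ε hε
        rw [mem_ball_zero_iff] at hz
        set t : ℝ := min (ε / 2) ((ρ - ‖z‖) / 2) with ht
        have ht0 : 0 < t := lt_min (by linarith) (by linarith)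
        refine ⟨z + t * I, ⟨?_, ?_⟩, ?_⟩
        · rw [mem_ball_zero_iff]
          refine (norm_add_le _ _).trans_lt ?_
          rw [norm_mul, norm_real, norm_I, mul_one, Real.norm_of_nonneg ht0.le]
          have := min_le_right (ε / 2) ((ρ - ‖z‖) / 2)
          linarith
        · show 0 < (z + t * I).im
          simp [← h, ht0]
        · rw [dist_eq_norm, sub_add_cancel_left, norm_neg, norm_mul, norm_real, norm_I, mul_one,
            Real.norm_of_nonneg ht0.le]
          have := min_le_left (ε / 2) ((ρ - ‖z‖) / 2)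
          linarith
    intro z hz
    rcases le_total 0 z.im with h | h
    · exact hup z (hmem z hz h)
    · have hz' : conj z ∈ ball (0 : ℂ) ρ := by
        rw [mem_ball_zero_iff] at hz ⊢; rwa [norm_conj]
      have h1 := hup (conj z) (hmem _ hz' (by simpa using h))
      have e1 := ho z (ball_subset_closedBall hz)
      have e2 := hPo z (ball_subset_closedBall hz)
      linarith
  intro z hz
  refine (harmonicAt_congr_nhds ?_).2 (hPh z hz)
  filter_upwards [isOpen_ball.mem_nhds hz] with w hw using hall w hw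

/-- **Constant boundary values.** -/
theorem half_dir {v : ℂ → ℝ} {K : Finset ℝ} {t₀ : ℝ} (hh : ∀ z : ℂ, 0 < z.im → HarmonicAt v z)
    (hd : ∀ x : ℝ, x ∉ K → Tendsto v (𝓝[{z : ℂ | 0 < z.im}] (x : ℂ)) (𝓝 t₀))
    (hl : ∀ x ∈ K, ∃ C : ℝ, ∀ᶠ z in 𝓝 (x : ℂ), 0 < z.im → |v z| ≤ C * (1 + |Real.log ‖z - x‖|))
    (hi : ∃ C R : ℝ, ∀ z : ℂ, 0 < z.im → R ≤ ‖z‖ → |v z| ≤ C * (1 + Real.log ‖z‖)) :
    ∀ z : ℂ, 0 < z.im → v z = t₀ := by
  classical
  set w : ℂ → ℝ := fun z => if 0 < z.im then v z - t₀ else if z.im < 0 then -(v (conj z) - t₀)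
    else 0 with hw
  have hwpos : ∀ z : ℂ, 0 < z.im → w z = v z - t₀ := fun z hz => by simp [hw, hz]
  have hwneg : ∀ z : ℂ, z.im < 0 → w z = -(v (conj z) - t₀) := fun z hz => by
    simp [hw, hz, not_lt.mpr hz.le]
  have hw0 : ∀ z : ℂ, z.im = 0 → w z = 0 := fun z hz => by simp [hw, hz]
  have hodd : ∀ z : ℂ, w (conj z) = - w z := by
    intro z
    rcases lt_trichotomy z.im 0 with h | h | h
    · rw [hwneg z h, hwpos (conj z) (by simpa using h)]; ring
    · rw [hw0 z h, hw0 (conj z) (by simpa using h)]; ring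
    · rw [hwpos z h, hwneg (conj z) (by simpa using h), Complex.conj_conj]
  have hharm : ∀ z : ℂ, z.im ≠ 0 → HarmonicAt w z := by
    intro z hz
    rcases lt_or_gt_of_ne hz with h | h
    · have h1 : HarmonicAt v (conj z) := hh _ (by simpa using h)
      have h3 : HarmonicAt (fun y => v (conj y)) z := harmonicAt_conj h1
      have h4 : HarmonicAt (fun y => -(v (conj y) - t₀)) z :=
        harmonicAt_neg' (harmonicAt_sub' h3 (harmonicAt_const t₀ z))
      refine (harmonicAt_congr_nhds ?_).2 h4
      have h2 : ∀ᶠ y : ℂ in 𝓝 z, y.im < 0 :=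
        (isOpen_lt Complex.continuous_im continuous_const).mem_nhds h
      filter_upwards [h2] with y hy using hwneg y hy
    · have h4 : HarmonicAt (fun y => v y - t₀) z :=
        harmonicAt_sub' (hh z h) (harmonicAt_const t₀ z)
      refine (harmonicAt_congr_nhds ?_).2 h4
      have h2 : ∀ᶠ y : ℂ in 𝓝 z, 0 < y.im :=
        (isOpen_lt continuous_const Complex.continuous_im).mem_nhds h
      filter_upwards [h2] with y hy using hwpos y hy
  have hcreal : ∀ x : ℝ, x ∉ K → ContinuousAt w (x : ℂ) := by
    intro x hx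
    have h1 := hd x hx
    rw [ContinuousAt, hw0 (x : ℂ) (by simp), Metric.tendsto_nhds]
    intro ε hε
    have h2 : ∀ᶠ z in 𝓝 (x : ℂ), 0 < z.im → |v z - t₀| < ε := by
      have h3 := (Metric.tendsto_nhds.1 h1) ε hε
      rw [eventually_nhdsWithin_iff] at h3
      filter_upwards [h3] with z hz h0
      exact hz h0
    have h2' := (conj_tendsto x).eventually h2
    filter_upwards [h2, h2'] with z a1 a2
    rw [Real.dist_eq, sub_zero]
    rcases lt_trichotomy z.im 0 with h | h | h
    · rw [hwneg z h, abs_neg]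
      exact a2 (by simpa using h)
    · rw [hw0 z h, abs_zero]; exact hε
    · rw [hwpos z h]; exact a1 h
  set K' : Finset ℂ := K.image (fun x : ℝ => (x : ℂ)) with hK'
  have hmemK' : ∀ x : ℝ, (x : ℂ) ∈ K' ↔ x ∈ K := by
    intro x
    rw [hK', Finset.mem_image]
    constructor
    · rintro ⟨y, hy, hyx⟩
      rwa [← Complex.ofReal_injective hyx]
    · intro hx; exact ⟨x, hx, rfl⟩
  have hwh : ∀ z ∉ K', HarmonicAt w z := by
    intro z hz
    by_cases h : z.im = 0
    · have hzr : z = (z.re : ℂ) := by apply Complex.ext <;> simp [h]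
      rw [hzr] at hz ⊢
      rw [hmemK'] at hz
      set x := z.re with hx
      have hKo : ∀ᶠ t : ℝ in 𝓝 x, t ∉ (K : Set ℝ) :=
        K.finite_toSet.isClosed.isOpen_compl.mem_nhds (by simpa using hz)
      obtain ⟨ρ, hρ, hρK⟩ := Metric.eventually_nhds_iff_ball.1 hKo
      have hρ2 : 0 < ρ / 2 := by linarith
      have hfre : ∀ y : ℂ, y ∈ closedBall (0 : ℂ) (ρ / 2) → (y + x).im = 0 →
          ((y + x).re) ∉ K := by
        intro y hy _
        have := hρK (y + x).re (by
          rw [mem_ball, Real.dist_eq]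
          simp only [add_re, ofReal_re, add_sub_cancel_right]
          rw [mem_closedBall_zero_iff] at hy
          have := Complex.abs_re_le_norm y
          linarith)
        simpa using this
      have hcont : ContinuousOn (fun y => w (y + x)) (closedBall 0 (ρ / 2)) := by
        intro y hy
        have h1 : ContinuousAt w (y + x) := by
          by_cases h0 : (y + x).im = 0
          · have e : y + x = (((y + x).re : ℝ) : ℂ) := by apply Complex.ext <;> simp [h0]
            have h0' : y.im = 0 := by simpa using h0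
            rw [e]
            exact hcreal _ (hfre y hy h0)
          · exact (hharm _ h0).1.continuousAt
        exact (h1.comp (f := fun y : ℂ => y + x) (by fun_prop)).continuousWithinAt
      have han : ∀ z a : ℂ, AnalyticAt ℂ (fun w : ℂ => w + a) z := fun z a =>
        analyticAt_id.add analyticAt_const
      have h1 := odd_refl hρ2 hcont (fun y hy => by
        have hy' : 0 < y.im := hy.2
        exact harmonicAt_comp (g := fun w : ℂ => w + (x : ℂ)) (v := w)
          (hharm (y + x) (by simp; exact hy'.ne')) (han y _)) (fun y _ => by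
        have := hodd (y + x)
        simpa using this)
      have h2 := harmonicAt_comp (g := fun w : ℂ => w + (-(x : ℂ))) (w := (x : ℂ))
        (v := fun z => w (z + x)) (by simpa using h1 0 (mem_ball_self hρ2)) (han _ _)
      refine (harmonicAt_congr_nhds (Eventually.of_forall fun y => ?_)).1 h2
      simp
    · exact hharm z h
  have hnc : ∀ (z : ℂ) (x : ℝ), ‖conj z - x‖ = ‖z - x‖ := by
    intro z x
    have : conj z - (x : ℂ) = conj (z - x) := by simp
    rw [this, norm_conj]
  have hwl : ∀ x ∈ K', LogAt w x := by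
    intro x' hx'
    obtain ⟨x, hx, rfl⟩ := Finset.mem_image.1 hx'
    obtain ⟨C, hC⟩ := hl x hx
    have hC' := (conj_tendsto x).eventually hC
    refine ⟨|C| + |t₀|, nhdsWithin_le_nhds ?_⟩
    filter_upwards [hC, hC'] with z a1 a2
    set L := |Real.log ‖z - x‖| with hL
    have hL0 : 0 ≤ L := abs_nonneg _
    have key : ∀ s : ℝ, |s| ≤ C * (1 + L) → |s - t₀| ≤ (|C| + |t₀|) * (1 + L) := by
      intro s hs
      have h1 := abs_sub s t₀
      have h2 := le_abs_self C
      have h3 := abs_nonneg t₀
      nlinarith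
    rcases lt_trichotomy z.im 0 with h | h | h
    · rw [hwneg z h, abs_neg]
      refine key _ ?_
      have := a2 (by simpa using h)
      rwa [hnc] at this
    · rw [hw0 z h, abs_zero]; positivity
    · rw [hwpos z h]
      exact key _ (a1 h)
  have hwi : LogInf w := by
    obtain ⟨C, R, hC⟩ := hi
    refine ⟨|C| + |t₀|, max R 1, fun z hz => ?_⟩
    have hR : R ≤ ‖z‖ := (le_max_left _ _).trans hz
    have h1 : 1 ≤ ‖z‖ := (le_max_right _ _).trans hz
    have hL0 : 0 ≤ Real.log ‖z‖ := Real.log_nonneg h1
    have key : ∀ s : ℝ, |s| ≤ C * (1 + Real.log ‖z‖) →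
        |s - t₀| ≤ (|C| + |t₀|) * (1 + Real.log ‖z‖) := by
      intro s hs
      have h1 := abs_sub s t₀
      have h2 := le_abs_self C
      have h3 := abs_nonneg t₀
      nlinarith
    rcases lt_trichotomy z.im 0 with h | h | h
    · rw [hwneg z h, abs_neg]
      refine key _ ?_
      have := hC (conj z) (by simpa using h) (by rwa [norm_conj])
      rwa [norm_conj] at this
    · rw [hw0 z h, abs_zero]; positivity
    · rw [hwpos z h]
      exact key _ (hC z h hR)
  obtain ⟨c, a, hca⟩ := liouville_log hwh hwl hwi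
  intro z hz
  have hzK : z ∉ K' := by
    intro h
    obtain ⟨x, _, rfl⟩ := Finset.mem_image.1 h
    simp at hz
  have hzK' : conj z ∉ K' := by
    intro h
    obtain ⟨x, _, hx⟩ := Finset.mem_image.1 h
    have : (conj z).im = 0 := by rw [← hx]; simp
    rw [Complex.conj_im] at this
    have hz' : 0 < z.im := hz
    linarith
  have h1 := hca z hzK
  have h2 := hca (conj z) hzK'
  have h3 : ∑ x ∈ K', a x * Real.log ‖conj z - x‖ = ∑ x ∈ K', a x * Real.log ‖z - x‖ := by
    refine Finset.sum_congr rfl fun x hx => ?_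
    obtain ⟨y, _, rfl⟩ := Finset.mem_image.1 hx
    rw [hnc]
  rw [h3, ← h1, hodd] at h2
  have h4 := hwpos z hz
  linarith

end Vale.Agent.P167.H411.Q
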