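import Vale.Agent.P167.H411.Q.TStep

/-!
# P167, general `q`, block Q-ID: the main theorem

The difference of the potentials of the Dobrushin polygon and of the free polygon converges to
`(1 / π) log |g|`, `g = ψ⁻¹ : P → ℍ` with `g(a) = 0`, `g(p) = ∞`.
-/

open Set Metric Filter Topology MeasureTheory Bornology
open scoped ComplexConjugate ContDiff

namespace Vale.Agent.P167.H411.Q

open Vale.Agent.P153.R2.R1 Vale.Agent.P167.H411.B7
open Vale.Agent.P167.BVP (Flat Test lpot npot)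
open Vale.Agent.P167.CA (Dat Pair)
open Vale.Agent.P167.CAQ (Fam Arc PotLim)

variable {S : Dat} {K K' : Set ℂ} {Y Z : ℂ → ℝ}

/-- The algebra of the coefficient. -/
theorem alg_coef {μ s ts A B E l₁ l₃ : ℝ} (hμ : 0 < μ) (hts : 0 < ts)
    (hs : s / 2 * (ts + μ) = 1) (h1 : |ts * A - s / 2 * ts ^ 2 * E| ≤ l₁)
    (h3 : |(-μ) * B - s / 2 * (-μ) ^ 2 * E| ≤ l₃) :
    |(B - A) + E| ≤ l₁ / ts + l₃ / μ := by
  rw [abs_le] at h1 h3
  have a1 : A ≤ s / 2 * ts * E + l₁ / ts := by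
    have : ts * A ≤ ts * (s / 2 * ts * E + l₁ / ts) := by
      rw [mul_add, mul_div_cancel₀ _ hts.ne']; nlinarith [h1.2]
    exact le_of_mul_le_mul_left this hts
  have a2 : s / 2 * ts * E - l₁ / ts ≤ A := by
    have : ts * (s / 2 * ts * E - l₁ / ts) ≤ ts * A := by
      rw [mul_sub, mul_div_cancel₀ _ hts.ne']; nlinarith [h1.1]
    exact le_of_mul_le_mul_left this hts
  have a3 : B ≤ -(s / 2 * μ * E) + l₃ / μ := by
    have : μ * B ≤ μ * (-(s / 2 * μ * E) + l₃ / μ) := by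
      rw [mul_add, mul_div_cancel₀ _ hμ.ne']; nlinarith [h3.1]
    exact le_of_mul_le_mul_left this hμ
  have a4 : -(s / 2 * μ * E) - l₃ / μ ≤ B := by
    have : μ * (-(s / 2 * μ * E) - l₃ / μ) ≤ μ * B := by
      rw [mul_sub, mul_div_cancel₀ _ hμ.ne']; nlinarith [h3.2]
    exact le_of_mul_le_mul_left this hμ
  have e1 : s / 2 * ts * E + s / 2 * μ * E = E := by
    have : s / 2 * ts * E + s / 2 * μ * E = s / 2 * (ts + μ) * E := by ring
    rw [this, hs, one_mul]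
  rw [abs_le]
  constructor <;> linarith

theorem hB_of_ND {μ : ℝ} {FD FF FW : Fam S} {a νa νp : ℂ} {ra rp : ℝ}
    (hT : Tri μ S FD FF FW a νa ra νp rp) (cD : FD.CORE) (cF : FF.CORE) {ψ g : ℂ → ℂ}
    (hP : Pair S.P ψ g) {U : Filter ℕ} [U.NeBot] (hU : U ≤ FD.L)
    (limY : ∀ f, S.FF f → Tendsto (fun n : ℕ => FD.U n f - FF.U n f) U (𝓝 (∫ z, f z * Y z)))
    {χ h : ℂ → ℝ} {N : ℕ → ℝ → ℝ} (hχ : Shp Complex.I χ) (hh : Test S.P h) (hm : ∫ w, h w = 1)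
    (hup : BdA (Real.pi - 2 * μ) FD χ νa a h N) (hbd : BdA (-μ) FF χ νa a h N) :
    ∀ ε : ℝ, 0 < ε → ∃ B η₀ : ℝ, 0 < η₀ ∧ ∀ η : ℝ, 0 < η → η < η₀ →
      |(∫ z, (fb χ νa a η z - h z) * Y z) +
        CA.en g (fun z => fb χ νa a η z - h z) (fun z => fb χ νa a η z - h z)| ≤
      ε * |CA.en g (fun z => fb χ νa a η z - h z) (fun z => fb χ νa a η z - h z)| + B := by
  intro ε hε
  have hμ := hT.mu0
  have hμ1 := hT.mu1
  have hπ := Real.pi_pos
  have hts : 0 < Real.pi - 2 * μ := by linarith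
  have hs0 : 0 < 2 / (Real.pi - μ) := by
    have : 0 < Real.pi - μ := by linarith
    positivity
  have hs : 2 / (Real.pi - μ) / 2 * (Real.pi - 2 * μ + μ) = 1 := by
    have : Real.pi - μ ≠ 0 := by linarith
    field_simp
    ring
  obtain ⟨c₁, C₁, η₁, hc₁, hη₁, b1⟩ := hup
  obtain ⟨c₃, C₃, η₃, hc₃, hη₃, b3⟩ := hbd
  have hra := hT.flatA.pos
  refine ⟨(|Real.log c₁| + |Real.log C₁| + 1) / (Real.pi - 2 * μ) +
    (|Real.log c₃| + |Real.log C₃| + 1) / μ, min η₁ (min η₃ ra), by positivity,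
    fun η hη hηlt => ?_⟩
  have f1 : η < η₁ := hηlt.trans_le (min_le_left _ _)
  have f3 : η < η₃ := hηlt.trans_le ((min_le_right _ _).trans (min_le_left _ _))
  have f4 : η < ra := hηlt.trans_le ((min_le_right _ _).trans (min_le_right _ _))
  have hφ := fb_bp hχ hT.flatA hη f4
  have hf : S.FF fun z => fb χ νa a η z - h z := ff_of hφ.test hh (by rw [hφ.mass, hm])
  set E := CA.en g (fun z => fb χ νa a η z - h z) (fun z => fb χ νa a η z - h z) with hE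
  have lim := limY _ hf
  refine le_of_tendsto (lim.add_const E).abs ?_
  have c1 := log_VN cD hP hf (Real.pi - 2 * μ) N
  have c4 := log_VN cF hP hf (-μ) N
  rw [hT.LF, hT.sF] at c4
  rw [hT.sD] at c1
  have b3' := b3 η hη f3
  rw [hT.LF] at b3'
  filter_upwards [hU c1, hU c4, hU (b1 η hη f1), hU b3'] with n ⟨p1, q1⟩ ⟨p4, q4⟩ r1 r3
  have s1 := Real.log_le_log p1 r1.2
  have s2 := Real.log_le_log hc₁ r1.1
  have s3 := Real.log_le_log hc₃ r3.1
  have s4 := Real.log_le_log p4 r3.2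
  rw [abs_le] at q1 q4
  have e : FD.U n (fun z => fb χ νa a η z - h z) - FF.U n (fun z => fb χ νa a η z - h z) + E =
      ((N n η - FF.U n (fun z => fb χ νa a η z - h z)) -
        (N n η - FD.U n (fun z => fb χ νa a η z - h z))) + E := by ring
  rw [e]
  have key : |((N n η - FF.U n (fun z => fb χ νa a η z - h z)) -
        (N n η - FD.U n (fun z => fb χ νa a η z - h z))) + E| ≤
      (|Real.log c₁| + |Real.log C₁| + 1) / (Real.pi - 2 * μ) +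
        (|Real.log c₃| + |Real.log C₃| + 1) / μ := by
    refine alg_coef (s := 2 / (Real.pi - μ)) (ts := Real.pi - 2 * μ) hμ hts hs ?_ ?_
    · rw [abs_le]
      constructor
      · linarith [q1.2, neg_abs_le (Real.log c₁), abs_nonneg (Real.log C₁)]
      · linarith [q1.1, le_abs_self (Real.log C₁), abs_nonneg (Real.log c₁)]
    · rw [abs_le]
      constructor
      · linarith [q4.2, neg_abs_le (Real.log c₃), abs_nonneg (Real.log C₃)]
      · linarith [q4.1, le_abs_self (Real.log C₃), abs_nonneg (Real.log c₃)]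
  have : 0 ≤ ε * |E| := by positivity
  linarith

/-- **Identification of the limits.** -/
theorem ident_lim {μ : ℝ} {FD FF FW : Fam S} {a νa νp : ℂ} {ra rp : ℝ}
    (hT : Tri μ S FD FF FW a νa ra νp rp) (cD : FD.CORE) (cF : FF.CORE) (cW : FW.CORE)
    {χp : ℂ → ℝ} (hχp : Shp Complex.I χp) {zz : (ℂ → ℝ) → ℕ → ℝ → ℝ}
    (hz : NDz μ FF FW νp rp χp zz) (ha : NDa μ FD FF a νa)
    {ψ : ℂ → ℂ} (h : IsU ψ S.P a S.bp) (hinj : InjOn ψ {z | 0 ≤ z.im})
    (hne : ∀ x : ℝ, ψ x ≠ S.bp)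
    (hK : Arc S K) (hK' : Arc S K') (hKK : ∀ x : ℝ, x ≠ 0 → ψ x ∉ K ∨ ψ x ∉ K')
    (hY : PotLim S K Y) (hZ : PotLim S K' Z) {U : Filter ℕ} [U.NeBot] (hU : U ≤ FD.L)
    (limY : ∀ f, S.FF f → Tendsto (fun n : ℕ => FD.U n f - FF.U n f) U (𝓝 (∫ z, f z * Y z)))
    (limZ : ∀ f, S.FF f → Tendsto (fun n : ℕ => FD.U n f - FW.U n f) U (𝓝 (∫ z, f z * Z z)))
    {f : ℂ → ℝ} (hf : S.FF f) :
    ∫ z, f z * Y z = 1 / Real.pi * ∫ z, f z * Real.log ‖ginv ψ z‖ := by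
  have hP := pair_of_isU h hinj
  set E : Finset ℝ := insert 0 (BVP.bad_preimage_finite S hP).toFinset with hE
  have hflat : ∀ x : ℝ, x ∉ E → ∃ (ν : ℂ) (r : ℝ), Flat S.P (ψ x) ν r ∧ S.bp ∉ ball (ψ x) r := by
    intro x hx
    rw [hE, Finset.mem_insert, not_or, Set.Finite.mem_toFinset] at hx
    have hsh : ∃ (q ν : ℂ) (ρ : ℝ), BVP.MapFlat S.P ψ x q ν ρ := by
      rcases hKK x hx.1 with h3 | h3
      · obtain ⟨q, ν, ρ, hM, -⟩ := hY.side ψ _ hP x hx.2 h3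
        exact ⟨q, ν, ρ, hM⟩
      · obtain ⟨q, ν, ρ, hM, -⟩ := hZ.side ψ _ hP x hx.2 h3
        exact ⟨q, ν, ρ, hM⟩
    obtain ⟨q, ν, ρ, hM⟩ := hsh
    have hq : q = ψ x := hM.val.symm
    subst hq
    have hd : 0 < dist S.bp (ψ x) := dist_pos.2 (hne x).symm
    refine ⟨ν, min ρ (dist S.bp (ψ x)), ⟨hM.flat.norm, lt_min hM.flat.pos hd, fun z hz' => ?_⟩, ?_⟩
    · exact hM.flat.mem z (ball_subset_ball (min_le_left _ _) hz')
    · intro hb
      rw [mem_ball] at hb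
      exact absurd (hb.trans_le (min_le_right _ _)) (lt_irrefl _)
  obtain ⟨t₀, ht₀⟩ := T_const hK hK' hY hZ h (E := E) (fun x x' hx hx' ε hε => by
    obtain ⟨ν, r, h1, h2⟩ := hflat x hx
    obtain ⟨ν', r', h1', h2'⟩ := hflat x' hx'
    exact T_hyp hT cF cW hχp hz hP hK hK' hY hZ hU limY limZ h1 h1' h2 h2' hε)
  obtain ⟨c, L, hcL⟩ := Y_log hK hK' hY hZ h hinj hKK ht₀
  obtain ⟨χ, h₀, N, hχ, hh, hm, hup, hbd⟩ := ha
  have hL := coef_of_bd h hinj hT.flatA hT.offA hχ hh hm hcL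
    (hB_of_ND hT cD cF hP hU limY hχ hh hm hup hbd)
  have i1 := int_ll h hinj hf.1
  have i2 := integrable_test hf.1
  have e : ∀ z, f z * Y z = c * f z + L * (f z * Real.log ‖ginv ψ z‖) := by
    intro z
    by_cases hz' : z ∈ S.P
    · rw [hcL z hz']; ring
    · have z1 : f z = 0 := image_eq_zero_of_notMem_tsupport fun hz1 => hz' (hf.1.2.2 hz1)
      rw [z1]; ring
  rw [integral_congr_ae (Eventually.of_forall e), integral_add (i2.const_mul c) (i1.const_mul L),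
    integral_const_mul, integral_const_mul, hf.2, mul_zero, zero_add, hL]

/-- **[Q-ID]**: the potential of the Dobrushin polygon minus the one of the free polygon. -/
theorem ident {μ : ℝ} {FD FF FW : Fam S} {a νa νp : ℂ} {ra rp : ℝ}
    (hT : Tri μ S FD FF FW a νa ra νp rp) (cD : FD.CORE) (cF : FF.CORE) (cW : FW.CORE)
    {χp : ℂ → ℝ} (hχp : Shp Complex.I χp) {zz : (ℂ → ℝ) → ℕ → ℝ → ℝ}
    (hz : NDz μ FF FW νp rp χp zz) (ha : NDa μ FD FF a νa)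
    {ψ : ℂ → ℂ} (h : IsU ψ S.P a S.bp) (hinj : InjOn ψ {z | 0 ≤ z.im})
    (hne : ∀ x : ℝ, ψ x ≠ S.bp)
    (hK : Arc S K) (hK' : Arc S K') (hKK : ∀ x : ℝ, x ≠ 0 → ψ x ∉ K ∨ ψ x ∉ K')
    (limY : ∀ U : Ultrafilter ℕ, (U : Filter ℕ) ≤ FD.L → ∃ Y : ℂ → ℝ, PotLim S K Y ∧
      ∀ f, S.FF f → Tendsto (fun n : ℕ => FD.U n f - FF.U n f) U (𝓝 (∫ z, f z * Y z)))
    (limZ : ∀ U : Ultrafilter ℕ, (U : Filter ℕ) ≤ FD.L → ∃ Z : ℂ → ℝ, PotLim S K' Z ∧
      ∀ f, S.FF f → Tendsto (fun n : ℕ => FD.U n f - FW.U n f) U (𝓝 (∫ z, f z * Z z)))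
    {f : ℂ → ℝ} (hf : S.FF f) :
    Tendsto (fun n : ℕ => FD.U n f - FF.U n f) FD.L
      (𝓝 (1 / Real.pi * ∫ z, f z * Real.log ‖ginv ψ z‖)) := by
  rw [tendsto_iff_ultrafilter]
  intro U hU
  obtain ⟨Y, hY, hYl⟩ := limY U hU
  obtain ⟨Z, hZ, hZl⟩ := limZ U hU
  rw [← ident_lim hT cD cF cW hχp hz ha h hinj hne hK hK' hKK hY hZ hU hYl hZl hf]
  exact hYl f hf

end Vale.Agent.P167.H411.Q
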