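import Vale.Agent.P167.H411.Q.Mvq

/-!
# P167, general `q`, block Q-ND (CONT): the bridge at a flat point in any direction, one lattice
-/

namespace Vale.Agent.P167.H411.Q

open Finset Vale.Agent.P167 Vale.Agent.P167.BR Vale.Agent.P167.FK
open Vale.Agent.P167.E6 (IsPolygon Encloses)
open Vale.Agent.P167.H135 (Mov rk tra)
open Vale.Agent.P167.H562.QM (FltQ)
open Vale.Agent.P167.QB (XG zS Nf Bq' dlt)
open Vale.Agent.P167.H640.ND (Mq poly_mov enc_mov Ex_XG_mov)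

theorem nm_tri (x y z : ℤ × ℤ) : nm (x - z) ≤ nm (x - y) + nm (y - z) := by
  have h1 := H45.nm_sub_le x y z
  exact h1

theorem rk_zero (j : Fin 4) : (rk j).t 0 = (0, 0) := by
  revert j
  exact rk_cases (by rw [H135.rk0_t]; rfl) (by rw [H135.rk1_t]; rfl) (by rw [H135.rk2_t]; rfl)
    (by rw [H135.rk3_t]; rfl)

theorem disj_rk {i : Fin 4} {b c : ℤ × ℤ} {r R : ℤ} (h : r + R + 3 ≤ nm (b - c)) :
    Disjoint (hbox ((rk i).t b) r) ((rk i).S (hbox c R)) := by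
  rw [Finset.disjoint_left]
  intro v h1 h2
  obtain ⟨u, hu, rfl⟩ := Finset.mem_image.1 h2
  rw [mem_hbox] at h1 hu
  obtain ⟨g1, g2⟩ := H135.rk_s_t i u
  have e1 : nm ((rk i).t b - (rk i).s u) ≤ r := by
    rw [H365.nm_le']
    simp only [Prod.fst_sub, Prod.snd_sub]
    omega
  have e2 : nm ((rk i).s u - (rk i).t u) ≤ 1 := by
    rw [H365.nm_le']
    simp only [Prod.fst_sub, Prod.snd_sub]
    rw [abs_le] at g1 g2
    omega
  have e3 : nm ((rk i).t u - (rk i).t c) ≤ R := by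
    rw [← H135.rk_sub, H135.nm_rk, H365.nm_le']
    simp only [Prod.fst_sub, Prod.snd_sub]
    omega
  have e4 : nm ((rk i).t b - (rk i).t c) = nm (b - c) := by
    rw [← H135.rk_sub, H135.nm_rk]
  have f1 := nm_tri ((rk i).t b) ((rk i).s u) ((rk i).t c)
  have f2 := nm_tri ((rk i).s u) ((rk i).t u) ((rk i).t c)
  omega

/-- **The bridge**, one lattice. -/
theorem uns_fix {θ : ℝ} {P : MeasureTheory.Measure Cfg} (hU : S_unsM θ P) {K : ℝ} (hK : 1 ≤ K) :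
    ∃ (r0 : ℝ) (Λ : ℤ) (α C : ℝ), 1 ≤ r0 ∧ 1 ≤ Λ ∧ 0 < α ∧ 0 < C ∧
    ∀ (n : ℕ) (q : ZMod n → ℤ × ℤ) (D : Finset (ℤ × ℤ)), IsPolygon q → Encloses q D →
    ∀ (j jp : Fin 4) (l : ℕ) (he : Even ((-(q l)).1 + (-(q l)).2)) (rc R rp : ℤ)
      (f0 fp : ℤ × ℤ → ℝ), l ≤ n → r0 ≤ rc → r0 ≤ rp → Λ * rc ≤ R → R ≤ rc ^ 2 →
      FltQ ((Mc j (-(q l)) he).S D) eta0 (0, 0) R false false →
      FltQ ((rk jp).S D) eta0 ((rk jp).t (q 0)) (2 * rp) false false →
      2 * rp + R + 3 ≤ nm (q 0 - q l) →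
      Bq' θ K (0, 0) rc f0 → Bq' θ K ((rk jp).t (q 0)) rp ((rk jp).F fp) →
      |Ex (2 * Real.cos θ) D eta0 (XG θ q D n (fun z => fp z - f0 ((Mc j (-(q l)) he).t z))) -
        zS θ (0, 0) rc f0 *
          Ex (2 * Real.cos θ) D eta0 (XG θ q D n (fun z => fp z - dlt (q l) θ z))| ≤
        C * ((rc : ℝ) / R) ^ α * (Nf θ K P rc / Nf θ K P rp) := by
  obtain ⟨r0, Λ, α, C, hr0, hΛ, hα, hC, h⟩ := hU K hK
  refine ⟨r0, Λ, α, C, hr0, hΛ, hα, hC, fun n q D hq hD j jp l he rc R rp f0 fp hl hrc hrp hR1 hR2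
    hFc hFp hdis hf0 hfp => ?_⟩
  set M := Mc j (-(q l)) he with hM
  have hji : j + (jp - j) = jp := by abel
  have hql : Mq M q l = (0, 0) := by
    show (rk j).t (q l + -(q l)) = (0, 0)
    rw [add_neg_cancel]
    exact rk_zero j
  have hq0 : Mq M q 0 = M.t (q 0) := rfl
  have hflt : FltQ ((rk (jp - j)).S (M.S D)) ((rk (jp - j)).c eta0) ((rk (jp - j)).t (M.t (q 0)))
      (2 * rp) false false := fltQ_rk he (by rw [hji]; exact hFp)
  have hbp : Bq' θ K ((rk (jp - j)).t (M.t (q 0))) rp ((rk (jp - j)).F (M.F fp)) :=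
    bq_rk he (by rw [hji]; exact hfp)
  have hd : 2 * rp + R + 3 ≤ nm (M.t (q 0) - (0, 0)) := by
    have e : M.t (q 0) - (0, 0) = (rk j).t (q 0 - q l) := by
      show (rk j).t (q 0 + -(q l)) - (0, 0) = _
      rw [← sub_eq_add_neg]
      exact sub_zero _
    rw [e, H135.nm_rk]
    exact hdis
  have h1 := h n (Mq M q) (M.S D) (poly_mov M hq) (enc_mov M hD) (jp - j) eta0 l rc R rp f0 (M.F fp)
    good_eta0 hl hrc hrp hR1 hR2 (by rw [hql]; exact hFc) hflt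
    (by rw [hql]; exact disj_rk hd) (by rw [hql]; exact hf0) hbp
  have e1 : (fun z => M.F fp z - f0 z) = M.F fun z => fp z - f0 (M.t z) := by
    funext z
    unfold Mov.F
    simp only [Equiv.apply_symm_apply]
  have e2 : (fun z => M.F fp z - dlt (Mq M q l) θ z) = M.F fun z => fp z - dlt (q l) θ z := by
    funext z
    unfold Mov.F
    have e3 : dlt (Mq M q l) θ z = dlt (q l) θ (M.t.symm z) := by
      unfold QB.dlt Mq
      by_cases hz : z = M.t (q l)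
      · rw [if_pos hz, if_pos (by rw [hz, Equiv.symm_apply_apply])]
      · rw [if_neg hz, if_neg (fun h' => hz (by rw [← h', Equiv.apply_symm_apply]))]
    rw [e3]
  have e0 : (eta0 : Cfg) = M.c eta0 := rfl
  rw [e1, e2] at h1
  rw [e0, Ex_XG_mov M _ _ hq, Ex_XG_mov M _ _ hq, hql] at h1
  exact h1

end Vale.Agent.P167.H411.Q
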