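import Vale.Agent.P167.H411.Q.Dir

/-!
# P167, general `q`: growth of harmonic functions with a logarithmic bound in the imaginary part
-/

open Set Metric Filter Topology InnerProductSpace Complex MeasureTheory Real
open scoped ComplexConjugate

namespace Vale.Agent.P167.H411.Q

open Vale.Agent.P167.BVP

/-- On a circle which crosses the real axis, `2 R |Im z|` is the product of the distances to the two
real points of the circle. -/
theorem im_factor {c : ℂ} {R : ℝ} (him : |c.im| < R) {z : ℂ} (hz : ‖z - c‖ = R) :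
    ‖z - ((c.re - √(R ^ 2 - c.im ^ 2) : ℝ) : ℂ)‖ * ‖z - ((c.re + √(R ^ 2 - c.im ^ 2) : ℝ) : ℂ)‖ =
      2 * R * |z.im| := by
  have h0 : 0 ≤ R ^ 2 - c.im ^ 2 := by
    have := sq_lt_sq' (by linarith [(abs_lt.1 him).1]) (abs_lt.1 him).2
    linarith
  set s := √(R ^ 2 - c.im ^ 2) with hs
  have hs2 : s ^ 2 = R ^ 2 - c.im ^ 2 := Real.sq_sqrt h0
  have hz2 : (z.re - c.re) ^ 2 + (z.im - c.im) ^ 2 = R ^ 2 := by
    rw [← hz, ← Complex.normSq_eq_norm_sq, Complex.normSq_apply]
    simp only [sub_re, sub_im]; ring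
  have e : (z - ((c.re - s : ℝ) : ℂ)) * (z - ((c.re + s : ℝ) : ℂ)) =
      (z - c) * (2 * I * (z.im : ℂ)) := by
    apply Complex.ext
    · simp only [mul_re, mul_im, sub_re, sub_im, ofReal_re, ofReal_im, I_re, I_im]
      norm_num
      nlinarith
    · simp only [mul_re, mul_im, sub_re, sub_im, ofReal_re, ofReal_im, I_re, I_im]
      norm_num
      ring
  rw [← norm_mul, e, norm_mul, hz, norm_mul, norm_mul, norm_I, Complex.norm_real, Real.norm_eq_abs]
  norm_num
  ring

theorem im_mean {w : ℂ → ℝ} {c : ℂ} {R A B : ℝ} (hR : 0 < R) (him : |c.im| < R)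
    (hw : HarmonicOnNhd w (closedBall c R)) (hA : 0 ≤ A) (hB : 0 ≤ B)
    (hb : ∀ z, ‖z - c‖ = R → z.im ≠ 0 → |w z| ≤ A - B * Real.log |z.im|) :
    |w c| ≤ A - B * Real.log (R / 2) := by
  have habs : |R| = R := abs_of_pos hR
  have h0 : 0 < R ^ 2 - c.im ^ 2 := by
    have := sq_lt_sq' (by linarith [(abs_lt.1 him).1]) (abs_lt.1 him).2
    linarith
  set s := √(R ^ 2 - c.im ^ 2) with hs
  have hs0 : 0 < s := Real.sqrt_pos.2 h0
  have hs2 : s ^ 2 = R ^ 2 - c.im ^ 2 := Real.sq_sqrt h0.le
  have hsR : s ≤ R := by nlinarith [sq_nonneg c.im]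
  set α : ℂ := ((c.re - s : ℝ) : ℂ) with hα
  set β : ℂ := ((c.re + s : ℝ) : ℂ) with hβ
  have hfac : ∀ z, ‖z - c‖ = R → ‖z - α‖ * ‖z - β‖ = 2 * R * |z.im| := fun z hz =>
    im_factor him hz
  have hαc : α ∈ closedBall c |R| := by
    rw [habs, mem_closedBall, dist_eq_norm]
    apply le_of_sq_le_sq _ hR.le
    rw [← Complex.normSq_eq_norm_sq, Complex.normSq_apply]
    simp only [hα, sub_re, sub_im, ofReal_re, ofReal_im]
    nlinarith
  have hβc : β ∈ closedBall c |R| := by
    rw [habs, mem_closedBall, dist_eq_norm]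
    apply le_of_sq_le_sq _ hR.le
    rw [← Complex.normSq_eq_norm_sq, Complex.normSq_apply]
    simp only [hβ, sub_re, sub_im, ofReal_re, ofReal_im]
    nlinarith
  -- the modified function
  set w' : ℂ → ℝ := fun z => if z.im = 0 then 0 else w z with hw'
  set m : ℂ → ℝ := fun z => (A + B * Real.log (2 * R)) -
    B * (Real.log ‖z - α‖ + Real.log ‖z - β‖) with hm
  have hwi : CircleIntegrable w c R :=
    (hw.continuousOn.mono (by rw [habs]; exact sphere_subset_closedBall)).circleIntegrable'
  have hcod : w =ᶠ[codiscreteWithin (sphere c |R|)] w' := by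
    have : {z : ℂ | z.im ≠ 0} ∈ codiscreteWithin (sphere c |R|) := by
      apply codiscreteWithin_iff_locallyFiniteComplementWithin.2
      intro z hz
      refine ⟨Set.univ, univ_mem, ?_⟩
      refine Set.Finite.subset (Set.toFinite {α, β}) ?_
      rintro y ⟨-, hy⟩
      rw [Set.mem_sdiff, mem_sphere, dist_eq_norm, habs] at hy
      have hy2 : y.im = 0 := by
        by_contra h; exact hy.2 h
      have := hfac y hy.1
      rw [hy2, abs_zero, mul_zero, mul_eq_zero, norm_eq_zero, norm_eq_zero, sub_eq_zero,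
        sub_eq_zero] at this
      simpa using this
    filter_upwards [this] with z hz
    have : z.im ≠ 0 := hz
    simp [hw', this]
  have hw'i : CircleIntegrable w' c R := hwi.congr_codiscreteWithin hcod
  have hmi : CircleIntegrable m c R := by
    refine (circleIntegrable_const _ _ _).sub (CircleIntegrable.const_fun_smul (a := B) ?_)
    exact (circleIntegrable_log_norm_sub_const R).add (circleIntegrable_log_norm_sub_const R)
  have hle : ∀ z ∈ sphere c |R|, |w' z| ≤ m z := by
    intro z hz
    rw [mem_sphere, dist_eq_norm, habs] at hz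
    have hf := hfac z hz
    by_cases h : z.im = 0
    · have e : w' z = 0 := by simp [hw', h]
      rw [e, abs_zero]
      rw [h, abs_zero, mul_zero, mul_eq_zero, norm_eq_zero, norm_eq_zero, sub_eq_zero,
        sub_eq_zero] at hf
      have hlog : Real.log (2 * s) ≤ Real.log (2 * R) :=
        Real.log_le_log (by linarith) (by linarith)
      have key : Real.log ‖z - α‖ + Real.log ‖z - β‖ = Real.log (2 * s) := by
        rcases hf with rfl | rfl
        · rw [sub_self, norm_zero, Real.log_zero, zero_add]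
          congr 1
          rw [hα, hβ, ← ofReal_sub, Complex.norm_real, Real.norm_eq_abs]
          rw [show c.re - s - (c.re + s) = -(2 * s) by ring, abs_neg, abs_of_pos (by linarith)]
        · rw [sub_self, norm_zero, Real.log_zero, add_zero]
          congr 1
          rw [hα, hβ, ← ofReal_sub, Complex.norm_real, Real.norm_eq_abs]
          rw [show c.re + s - (c.re - s) = 2 * s by ring, abs_of_pos (by linarith)]
      simp only [hm, key]
      nlinarith [mul_le_mul_of_nonneg_left hlog hB]
    · have e : w' z = w z := by simp [hw', h]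
      rw [e]
      refine (hb z hz h).trans ?_
      have hpos : 0 < |z.im| := abs_pos.2 h
      have hne : ‖z - α‖ * ‖z - β‖ ≠ 0 := by rw [hf]; positivity
      have h1 : ‖z - α‖ ≠ 0 := left_ne_zero_of_mul hne
      have h2 : ‖z - β‖ ≠ 0 := right_ne_zero_of_mul hne
      have e2 : Real.log ‖z - α‖ + Real.log ‖z - β‖ = Real.log (2 * R) + Real.log |z.im| := by
        rw [← Real.log_mul h1 h2, hf, Real.log_mul (by positivity) hpos.ne']
      simp only [hm, e2]
      linarith
  have h1 : |circleAverage w' c R| ≤ circleAverage m c R := by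
    refine (abs_circleAverage_le_circleAverage_abs).trans ?_
    exact circleAverage_mono hw'i.abs hmi hle
  have h2 : circleAverage m c R = A - B * Real.log (R / 2) := by
    have e1 : circleAverage m c R = circleAverage (fun _ => A + B * Real.log (2 * R)) c R -
        B * (circleAverage (fun z => Real.log ‖z - α‖) c R +
          circleAverage (fun z => Real.log ‖z - β‖) c R) := by
      have i1 : CircleIntegrable (fun z => Real.log ‖z - α‖) c R :=
        circleIntegrable_log_norm_sub_const R
      have i2 : CircleIntegrable (fun z => Real.log ‖z - β‖) c R :=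
        circleIntegrable_log_norm_sub_const R
      have i3 : CircleIntegrable (fun z => Real.log ‖z - α‖ + Real.log ‖z - β‖) c R := i1.add i2
      have i4 : CircleIntegrable (fun z => B * (Real.log ‖z - α‖ + Real.log ‖z - β‖)) c R :=
        CircleIntegrable.const_fun_smul (a := B) i3
      rw [← circleAverage_fun_add i1 i2]
      have := circleAverage_fun_smul (a := B) (f := fun z => Real.log ‖z - α‖ + Real.log ‖z - β‖)
        (c := c) (R := R)
      simp only [smul_eq_mul] at this
      rw [← this, ← circleAverage_fun_sub (circleIntegrable_const _ _ _) i4]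
    rw [e1, circleAverage_const, circleAverage_log_norm_sub_const_of_mem_closedBall hαc,
      circleAverage_log_norm_sub_const_of_mem_closedBall hβc,
      Real.log_mul (by norm_num) hR.ne', Real.log_div hR.ne' (by norm_num)]
    ring
  have h3 : circleAverage w' c R = w c := by
    rw [← circleAverage_congr_codiscreteWithin hcod hR.ne']
    exact InnerProductSpace.HarmonicOnNhd.circleAverage_eq (by rwa [habs])
  rw [h3, h2] at h1
  exact h1

/-- Growth at most like the logarithm of the imaginary part. -/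
def ImLog (v : ℂ → ℝ) (C : ℝ) : Prop :=
  ∀ z : ℂ, z.im ≠ 0 → |v z| ≤ C * (1 + |Real.log (|z.im|)| + Real.log (1 + ‖z‖))

theorem im_bound {w : ℂ → ℝ} {K : Finset ℂ} {C : ℝ} (hw : ∀ z ∉ K, HarmonicAt w z)
    (hC : ImLog w C) (hC0 : 0 ≤ C) {z : ℂ} {R M N : ℝ} (hR : 0 < R) (him : |z.im| < R)
    (hK : ∀ y ∈ closedBall z R, y ∉ K) (hM : 1 ≤ M)
    (hMz : ∀ y ∈ closedBall z R, |y.im| ≤ M) (hN : ∀ y ∈ closedBall z R, ‖y‖ ≤ N) :
    |w z| ≤ C * (1 + 2 * Real.log M + Real.log (1 + N)) - C * Real.log (R / 2) := by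
  have hN0 : 0 ≤ N := (norm_nonneg _).trans (hN z (mem_closedBall_self hR.le))
  have hlM : 0 ≤ Real.log M := Real.log_nonneg hM
  have hlN : 0 ≤ Real.log (1 + N) := Real.log_nonneg (by linarith)
  refine im_mean hR him (fun y hy => hw y (hK y hy)) (by positivity) hC0 fun y hy hy0 => ?_
  have hyb : y ∈ closedBall z R := by rw [mem_closedBall, dist_eq_norm, hy]
  refine (hC y hy0).trans ?_
  have hpos : 0 < |y.im| := abs_pos.2 hy0
  have h1 : Real.log |y.im| ≤ Real.log M := Real.log_le_log hpos (hMz y hyb)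
  have h2 : |Real.log (|y.im|)| ≤ 2 * Real.log M - Real.log |y.im| := by
    rw [abs_le]
    constructor <;> linarith
  have h3 : Real.log (1 + ‖y‖) ≤ Real.log (1 + N) :=
    Real.log_le_log (by positivity) (by linarith [hN y hyb])
  have h4 : C * (1 + |Real.log (|y.im|)| + Real.log (1 + ‖y‖)) ≤
      C * (1 + (2 * Real.log M - Real.log |y.im|) + Real.log (1 + N)) :=
    mul_le_mul_of_nonneg_left (by linarith) hC0
  linarith

theorem logAt_of_im {w : ℂ → ℝ} {K : Finset ℂ} {C : ℝ} (hw : ∀ z ∉ K, HarmonicAt w z)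
    (hC : ImLog w C) (hC0 : 0 ≤ C) {x : ℂ} (hx : x.im = 0) : LogAt w x := by
  classical
  have h1 : (K.erase x : Set ℂ).Finite := (K.erase x).finite_toSet
  have h2 : ∀ᶠ w in 𝓝 x, w ∉ (K.erase x : Set ℂ) :=
    h1.isClosed.isOpen_compl.mem_nhds (by simp)
  obtain ⟨δ, hδ, hδK⟩ := Metric.eventually_nhds_iff_ball.1 h2
  set ρ : ℝ := min (δ / 2) (1 / 2) with hρ
  have hρ0 : 0 < ρ := by positivity
  have hρδ : ρ ≤ δ / 2 := min_le_left _ _
  have hρ1 : ρ ≤ 1 / 2 := min_le_right _ _
  have hl2 : 0 ≤ Real.log (2 + ‖x‖) := Real.log_nonneg (by linarith [norm_nonneg x])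
  have hl4 : 0 ≤ Real.log 4 := Real.log_nonneg (by norm_num)
  have hl24 : Real.log 2 ≤ Real.log 4 := Real.log_le_log (by norm_num) (by norm_num)
  refine ⟨C * (1 + Real.log (2 + ‖x‖) + Real.log 4) + C, ?_⟩
  have hev : ∀ᶠ z in 𝓝 x, z ∈ ball x ρ := ball_mem_nhds x hρ0
  filter_upwards [nhdsWithin_le_nhds hev, self_mem_nhdsWithin] with z hz hzx
  have hzx' : z ≠ x := hzx
  set d : ℝ := ‖z - x‖ with hd
  have hd0 : 0 < d := norm_pos_iff.2 (sub_ne_zero.2 hzx')
  have hdρ : d < ρ := by rw [mem_ball, dist_eq_norm] at hz; exact hz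
  have hd1 : d < 1 / 2 := by linarith
  have hlogd : Real.log d < 0 := Real.log_neg hd0 (by linarith)
  have hfin : |w z| ≤ C * (1 + Real.log (2 + ‖x‖) + Real.log 4 - Real.log d) →
      |w z| ≤ (C * (1 + Real.log (2 + ‖x‖) + Real.log 4) + C) * (1 + |Real.log d|) := by
    intro h
    refine h.trans ?_
    rw [abs_of_neg hlogd]
    have : 0 ≤ C * (1 + Real.log (2 + ‖x‖) + Real.log 4) := by positivity
    nlinarith
  apply hfin
  have hzim : |z.im| ≤ d := by
    have := Complex.abs_im_le_norm (z - x)
    rwa [sub_im, hx, sub_zero] at this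
  rcases lt_or_ge |z.im| (d / 2) with h | h
  · have h3 := im_bound hw hC hC0 (z := z) (R := d / 2) (M := 1) (N := ‖x‖ + 1) (by positivity) h
      ?_ le_rfl ?_ ?_
    · rw [Real.log_one, mul_zero, add_zero, show (1 : ℝ) + (‖x‖ + 1) = 2 + ‖x‖ by ring,
        show d / 2 / 2 = d / 4 by ring, Real.log_div hd0.ne' (by norm_num)] at h3
      linarith
    · intro y hy hyK
      rw [mem_closedBall, dist_eq_norm] at hy
      have e1 : ‖y - x‖ < δ := by
        have : y - x = (y - z) + (z - x) := by ring
        rw [this]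
        refine (norm_add_le _ _).trans_lt ?_
        linarith
      have e2 : y ≠ x := by
        rintro rfl
        rw [norm_sub_rev] at hy
        linarith
      exact hδK y (by rw [mem_ball, dist_eq_norm]; exact e1)
        (Finset.mem_coe.2 (Finset.mem_erase.2 ⟨e2, hyK⟩))
    · intro y hy
      rw [mem_closedBall, dist_eq_norm] at hy
      have e1 := Complex.abs_im_le_norm (y - z)
      rw [sub_im] at e1
      have e2 := abs_sub_abs_le_abs_sub y.im z.im
      linarith
    · intro y hy
      rw [mem_closedBall, dist_eq_norm] at hy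
      have : y = (y - z) + (z - x) + x := by ring
      rw [this]
      refine (norm_add_le _ _).trans ?_
      have := norm_add_le (y - z) (z - x)
      linarith
  · have hz0 : 0 < |z.im| := by linarith
    have h3 := hC z (abs_pos.1 hz0)
    have e1 : Real.log |z.im| ≤ 0 := Real.log_nonpos hz0.le (by linarith)
    have e2 : Real.log (d / 2) ≤ Real.log |z.im| := Real.log_le_log (by positivity) h
    rw [Real.log_div hd0.ne' (by norm_num)] at e2
    rw [abs_of_nonpos e1] at h3
    have e3 : Real.log (1 + ‖z‖) ≤ Real.log (2 + ‖x‖) := by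
      refine Real.log_le_log (by positivity) ?_
      have : z = (z - x) + x := by ring
      have := norm_add_le (z - x) x
      rw [sub_add_cancel] at this
      linarith
    refine h3.trans (mul_le_mul_of_nonneg_left ?_ hC0)
    linarith

theorem logInf_of_im {w : ℂ → ℝ} {K : Finset ℂ} {C : ℝ} (hw : ∀ z ∉ K, HarmonicAt w z)
    (hC : ImLog w C) (hC0 : 0 ≤ C) : LogInf w := by
  obtain ⟨R₀, hR₀⟩ := (K.finite_toSet.isBounded).subset_closedBall (0 : ℂ)
  have hl2 : 0 ≤ Real.log 2 := Real.log_nonneg (by norm_num)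
  have hl3 : 0 ≤ Real.log 3 := Real.log_nonneg (by norm_num)
  have hl4 : 0 ≤ Real.log 4 := Real.log_nonneg (by norm_num)
  refine ⟨C * (3 + 2 * Real.log 2 + Real.log 3 + Real.log 4), 2 * |R₀| + 4, fun z hz => ?_⟩
  have hz1 : 1 ≤ ‖z‖ := by linarith [abs_nonneg R₀]
  have hz0 : 0 < ‖z‖ := by linarith
  have hlz : 0 ≤ Real.log ‖z‖ := Real.log_nonneg hz1
  have e3 : Real.log (1 + 2 * ‖z‖) ≤ Real.log 3 + Real.log ‖z‖ := by
    rw [← Real.log_mul (by norm_num) hz0.ne']
    exact Real.log_le_log (by positivity) (by linarith)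
  have e4 : Real.log (1 + ‖z‖) ≤ Real.log 2 + Real.log ‖z‖ := by
    rw [← Real.log_mul (by norm_num) hz0.ne']
    exact Real.log_le_log (by positivity) (by linarith)
  rcases lt_or_ge |z.im| (‖z‖ / 2) with h | h
  · have h3 := im_bound hw hC hC0 (z := z) (R := ‖z‖ / 2) (M := 2 * ‖z‖) (N := 2 * ‖z‖)
      (by positivity) h ?_ (by linarith) ?_ ?_
    · rw [Real.log_mul (by norm_num) hz0.ne', show ‖z‖ / 2 / 2 = ‖z‖ / 4 by ring,
        Real.log_div hz0.ne' (by norm_num)] at h3
      refine h3.trans ?_
      rw [← mul_sub, mul_assoc]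
      refine mul_le_mul_of_nonneg_left ?_ hC0
      nlinarith
    · intro y hy hyK
      have e1 := hR₀ (Finset.mem_coe.2 hyK)
      rw [mem_closedBall_zero_iff] at e1
      rw [mem_closedBall, dist_eq_norm] at hy
      have e2 : ‖z‖ ≤ ‖y - z‖ + ‖y‖ := by
        have := norm_sub_le y (y - z)
        rw [sub_sub_cancel] at this
        linarith
      linarith [le_abs_self R₀, abs_nonneg R₀]
    · intro y hy
      rw [mem_closedBall, dist_eq_norm] at hy
      have e1 := Complex.abs_im_le_norm y
      have e2 : ‖y‖ ≤ ‖y - z‖ + ‖z‖ := by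
        have := norm_add_le (y - z) z
        rwa [sub_add_cancel] at this
      linarith
    · intro y hy
      rw [mem_closedBall, dist_eq_norm] at hy
      have e2 : ‖y‖ ≤ ‖y - z‖ + ‖z‖ := by
        have := norm_add_le (y - z) z
        rwa [sub_add_cancel] at this
      linarith
  · have h1 : 1 ≤ |z.im| := by linarith [abs_nonneg R₀]
    have h3 := hC z (abs_pos.1 (by linarith))
    have e1 : 0 ≤ Real.log |z.im| := Real.log_nonneg h1
    have e2 : Real.log |z.im| ≤ Real.log ‖z‖ :=
      Real.log_le_log (by linarith) (Complex.abs_im_le_norm z)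
    rw [abs_of_nonneg e1] at h3
    refine h3.trans ?_
    rw [mul_assoc]
    refine mul_le_mul_of_nonneg_left ?_ hC0
    nlinarith

end Vale.Agent.P167.H411.Q
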