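import Vale.Agent.P167.H411.Q.NDefs

/-!
# P167, general `q`, block Q-ID: identification of the limits

`Y` (Dobrushin minus free) and `Z` (Dobrushin minus wired) are limits of differences of potentials.
If `T = Y - Z` is almost constant near any two flat boundary points then `T` is constant, and
`Y = c + L log |g|`.
-/

open Set Metric Filter Topology InnerProductSpace Complex MeasureTheory Bornology
open scoped ComplexConjugate ContDiff

namespace Vale.Agent.P167.H411.Q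

open Vale.Agent.P153.R2.R1 Vale.Agent.P167.H411.B7
open Vale.Agent.P167.BVP (Flat Test SideHarm EvenExt upper_neBot half_log coef_zero)
open Vale.Agent.P167.CA (Dat Pair)
open Vale.Agent.P167.CAQ (Arc PotLim)

theorem pair_of_isU {ψ : ℂ → ℂ} {P : Set ℂ} {a p : ℂ} (h : IsU ψ P a p)
    (hinj : InjOn ψ {z | 0 ≤ z.im}) : Pair P ψ (ginv ψ) :=
  ⟨h.diff, h.img, h.cont, hinj, ⟨p, h.infty⟩, fun _ hz => ginv_apply hinj (le_of_lt hz)⟩

variable {S : Dat} {ψ : ℂ → ℂ} {a p : ℂ} {K K' : Set ℂ} {Y Z : ℂ → ℝ}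

theorem mem_P (h : IsU ψ S.P a p) {z : ℂ} (hz : 0 < z.im) : ψ z ∈ S.P := by
  rw [← h.img]; exact mem_image_of_mem _ hz

theorem real_tendsto (h : IsU ψ S.P a p) (x : ℝ) :
    Tendsto ψ (𝓝[{z : ℂ | 0 < z.im}] (x : ℂ)) (𝓝 (ψ x)) := by
  have h1 : ContinuousWithinAt ψ {z : ℂ | 0 ≤ z.im} (x : ℂ) := h.cont _ (by simp)
  exact h1.mono_left (nhdsWithin_mono _ fun z (hz : 0 < z.im) => hz.le)

theorem real_mem (h : IsU ψ S.P a p) (x : ℝ) : ψ x ∈ E6.region 1 S.Q := by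
  rw [← CAQ.closure_P]
  have := upper_neBot x
  refine mem_closure_of_tendsto (real_tendsto h x) ?_
  filter_upwards [self_mem_nhdsWithin] with z hz
  exact mem_P h hz

theorem osc_of_pot (hK : Arc S K) (hY : PotLim S K Y) (h : IsU ψ S.P a p) :
    ∃ C : ℝ, ∀ z z' : ℂ, 0 < z.im → 0 < z'.im → ‖z' - z‖ ≤ z.im / 1000 →
      |Y (ψ z) - Y (ψ z')| ≤ C := by
  obtain ⟨C, β, hC, hβ, hol⟩ := hY.hol
  refine ⟨C, fun z z' hz hz' hzz => ?_⟩
  have hx := mem_P h hz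
  have hy := mem_P h hz'
  have hxK := hK.notMem hx
  have hyK := hK.notMem hy
  have hpos := hK.pos hxK
  have h1 := map_small h hz hzz
  have h2 : infDist (ψ z) S.Pᶜ ≤ infDist (ψ z) K :=
    infDist_le_infDist_of_subset (fun y hy' hyP => hK.notMem hyP hy') hK.ne
  have h3 : ‖ψ z - ψ z'‖ < infDist (ψ z) K / 2 := by
    rw [norm_sub_rev]; linarith
  refine (hol _ ⟨CAQ.P_sub S hx, hxK⟩ _ ⟨CAQ.P_sub S hy, hyK⟩ h3).trans ?_
  have h4 : (‖ψ z - ψ z'‖ / infDist (ψ z) K) ^ β ≤ 1 := by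
    refine Real.rpow_le_one (by positivity) ?_ hβ.le
    rw [div_le_one hpos]; linarith
  nlinarith

theorem harm_of_pot (hY : PotLim S K Y) (h : IsU ψ S.P a p) {z : ℂ} (hz : 0 < z.im) :
    HarmonicAt (fun z => Y (ψ z)) z := by
  have hopen : IsOpen {z : ℂ | 0 < z.im} := isOpen_lt continuous_const Complex.continuous_im
  exact BVP.harmonicAt_comp (hY.harm _ (mem_P h hz)) (h.diff.analyticAt (hopen.mem_nhds hz))

/-- **`T` is constant.** -/
theorem T_const (hK : Arc S K) (hK' : Arc S K') (hY : PotLim S K Y) (hZ : PotLim S K' Z)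
    (h : IsU ψ S.P a p) {E : Finset ℝ}
    (hT : ∀ x x' : ℝ, x ∉ E → x' ∉ E → ∀ ε > 0, ∃ δ > 0, ∀ w ∈ S.P, ∀ w' ∈ S.P,
      ‖w - ψ x‖ < δ → ‖w' - ψ x'‖ < δ → |(Y w - Z w) - (Y w' - Z w')| ≤ ε) :
    ∃ t₀ : ℝ, ∀ z : ℂ, 0 < z.im → Y (ψ z) - Z (ψ z) = t₀ := by
  obtain ⟨x₀, hx₀⟩ : ∃ x₀ : ℝ, x₀ ∉ E := Infinite.exists_notMem_finset E
  set v : ℂ → ℝ := fun z => Y (ψ z) - Z (ψ z) with hv
  have hnear : ∀ (x : ℝ) {δ : ℝ}, 0 < δ → ∀ᶠ z in 𝓝[{z : ℂ | 0 < z.im}] (x : ℂ),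
      ψ z ∈ S.P ∧ ‖ψ z - ψ x‖ < δ := by
    intro x δ hδ
    filter_upwards [(real_tendsto h x).eventually (ball_mem_nhds _ hδ), self_mem_nhdsWithin] with
      z h1 h2
    exact ⟨mem_P h h2, by rwa [dist_eq_norm] at h1⟩
  have hcau : Cauchy (map v (𝓝[{z : ℂ | 0 < z.im}] (x₀ : ℂ))) := by
    have := upper_neBot x₀
    rw [Metric.cauchy_iff]
    refine ⟨inferInstance, fun ε hε => ?_⟩
    obtain ⟨δ, hδ, hd⟩ := hT x₀ x₀ hx₀ hx₀ (ε / 2) (by positivity)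
    refine ⟨v '' {z | ψ z ∈ S.P ∧ ‖ψ z - ψ x₀‖ < δ}, image_mem_map (hnear x₀ hδ), ?_⟩
    rintro _ ⟨z, hz, rfl⟩ _ ⟨z', hz', rfl⟩
    rw [Real.dist_eq]
    have := hd _ hz.1 _ hz'.1 hz.2 hz'.2
    exact this.trans_lt (by linarith)
  obtain ⟨t₀, ht₀⟩ := CompleteSpace.complete hcau
  have hlim : ∀ x : ℝ, x ∉ E → Tendsto v (𝓝[{z : ℂ | 0 < z.im}] (x : ℂ)) (𝓝 t₀) := by
    intro x hx
    rw [Metric.tendsto_nhds]
    intro ε hε
    obtain ⟨δ, hδ, hd⟩ := hT x x₀ hx hx₀ (ε / 2) (by positivity)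
    have := upper_neBot x₀
    filter_upwards [hnear x hδ] with z hz
    have h1 : ∀ᶠ z' in 𝓝[{z : ℂ | 0 < z.im}] (x₀ : ℂ), |v z - v z'| ≤ ε / 2 := by
      filter_upwards [hnear x₀ hδ] with z' hz'
      exact hd _ hz.1 _ hz'.1 hz.2 hz'.2
    have h2 : Tendsto v (𝓝[{z : ℂ | 0 < z.im}] (x₀ : ℂ)) (𝓝 t₀) := ht₀
    have h3 : Tendsto (fun z' => |v z - v z'|) (𝓝[{z : ℂ | 0 < z.im}] (x₀ : ℂ)) (𝓝 |v z - t₀|) :=
      (h2.const_sub (v z)).abs
    have h4 := le_of_tendsto h3 h1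
    rw [Real.dist_eq]
    linarith
  obtain ⟨C, hC⟩ := osc_of_pot hK hY h
  obtain ⟨C', hC'⟩ := osc_of_pot hK' hZ h
  have hosc : ∀ z z' : ℂ, 0 < z.im → 0 < z'.im → ‖z' - z‖ ≤ z.im / 1000 → |v z - v z'| ≤ C + C' := by
    intro z z' hz hz' hzz
    have e : v z - v z' = (Y (ψ z) - Y (ψ z')) - (Z (ψ z) - Z (ψ z')) := by simp only [hv]; ring
    rw [e]
    exact (abs_sub _ _).trans (add_le_add (hC z z' hz hz' hzz) (hC' z z' hz hz' hzz))
  have hCC : 0 ≤ C + C' := (abs_nonneg _).trans (hosc I I (by simp) (by simp) (by simp))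
  exact ⟨t₀, half_dir_im (fun z hz => BVP.harmonicAt_sub' (harm_of_pot hY h hz)
    (harm_of_pot hZ h hz)) hlim (hlog_of_osc hosc) (by positivity)⟩

/-- **The limit is a multiple of `log |g|`** plus a constant. -/
theorem Y_log (hK : Arc S K) (hK' : Arc S K') (hY : PotLim S K Y) (hZ : PotLim S K' Z)
    (h : IsU ψ S.P a p) (hinj : InjOn ψ {z | 0 ≤ z.im})
    (hKK : ∀ x : ℝ, x ≠ 0 → ψ x ∉ K ∨ ψ x ∉ K') {t₀ : ℝ}
    (hT : ∀ z : ℂ, 0 < z.im → Y (ψ z) - Z (ψ z) = t₀) :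
    ∃ c L : ℝ, ∀ z ∈ S.P, Y z = c + L * Real.log ‖ginv ψ z‖ := by
  classical
  have hP := pair_of_isU h hinj
  set E : Finset ℝ := insert 0 (BVP.bad_preimage_finite S hP).toFinset with hE
  set v : ℂ → ℝ := fun z => Y (ψ z) with hv
  have hEm : ∀ x : ℝ, x ∉ E → x ≠ 0 ∧ ψ x ∉ BVP.bad S := by
    intro x hx
    rw [hE, Finset.mem_insert, not_or, Set.Finite.mem_toFinset] at hx
    exact ⟨hx.1, hx.2⟩
  have hZv : ∀ z : ℂ, 0 < z.im → v z = Z (ψ z) + t₀ := fun z hz => by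
    have := hT z hz; simp only [hv]; linarith
  have he : ∀ x : ℝ, x ∉ E → EvenExt v x := by
    intro x hx
    obtain ⟨h1, h2⟩ := hEm x hx
    rcases hKK x h1 with h3 | h3
    · exact (hY.side ψ _ hP x h2 h3).evenExt
    · obtain ⟨u, hu1, hu2, hu3⟩ := (hZ.side ψ _ hP x h2 h3).evenExt
      refine ⟨fun z => u z + t₀, ?_, ?_, ?_⟩
      · have := BVP.harmonicAt_sub' hu1 (BVP.harmonicAt_const (-t₀) (x : ℂ))
        refine (harmonicAt_congr_nhds (Eventually.of_forall fun y => ?_)).1 this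
        simp
      · filter_upwards [hu2] with z hz
        rw [hz]
      · filter_upwards [hu3] with z hz hz0
        rw [hZv z hz0, hz hz0]
  obtain ⟨C, hC⟩ := osc_of_pot hK hY h
  have hC0 : 0 ≤ C := (abs_nonneg _).trans (hC I I (by simp) (by simp) (by simp))
  obtain ⟨g1, g2⟩ := growth_even (fun z hz => harm_of_pot hY h hz) he
    (hlog_of_osc (v := v) hC) (by positivity)
  obtain ⟨c, b, hcb⟩ := half_log (fun z hz => harm_of_pot hY h hz) he g1 g2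
  -- bounded near the other points
  have hbdd : ∀ x ∈ E, x ≠ 0 → b x = 0 := by
    intro x hx hx0
    refine coef_zero hcb hx ?_
    have key : ∀ {K₁ : Set ℂ} {W : ℂ → ℝ}, Arc S K₁ → PotLim S K₁ W → ψ x ∉ K₁ →
        ∃ M : ℝ, ∀ᶠ z in 𝓝 (x : ℂ), 0 < z.im → |W (ψ z)| ≤ M := by
      intro K₁ W hK₁ hW hxK
      have h1 : ContinuousWithinAt W (E6.region 1 S.Q \ K₁) (ψ x) :=
        hW.cont _ ⟨real_mem h x, hxK⟩
      have h2 : Tendsto ψ (𝓝[{z : ℂ | 0 < z.im}] (x : ℂ)) (𝓝[E6.region 1 S.Q \ K₁] (ψ x)) := by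
        refine tendsto_nhdsWithin_of_tendsto_nhds_of_eventually_within _ (real_tendsto h x) ?_
        filter_upwards [self_mem_nhdsWithin] with z hz
        exact ⟨CAQ.P_sub S (mem_P h hz), hK₁.notMem (mem_P h hz)⟩
      have h3 : Tendsto (fun z => |W (ψ z)|) (𝓝[{z : ℂ | 0 < z.im}] (x : ℂ)) (𝓝 |W (ψ x)|) :=
        (h1.tendsto.comp h2).abs
      refine ⟨|W (ψ x)| + 1, ?_⟩
      have h4 := h3.eventually (gt_mem_nhds (lt_add_one _))
      rw [eventually_nhdsWithin_iff] at h4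
      filter_upwards [h4] with z hz hz0
      exact (hz hz0).le
    rcases hKK x hx0 with h3 | h3
    · exact key hK hY h3
    · obtain ⟨M, hM⟩ := key hK' hZ h3
      refine ⟨M + |t₀|, ?_⟩
      filter_upwards [hM] with z hz hz0
      have e : Y (ψ z) = Z (ψ z) + t₀ := hZv z hz0
      rw [e]
      exact (abs_add_le _ _).trans (by linarith [hz hz0])
  have h0E : (0 : ℝ) ∈ E := Finset.mem_insert_self _ _
  refine ⟨c, b 0, fun z hz => ?_⟩
  obtain ⟨w, hw, rfl⟩ : ∃ w : ℂ, 0 < w.im ∧ ψ w = z := by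
    rw [← h.img] at hz; exact hz
  have h1 := hcb w hw
  rw [← Finset.add_sum_erase _ _ h0E, Finset.sum_eq_zero, add_zero, ofReal_zero, sub_zero] at h1
  · rw [ginv_apply hinj hw.le]
    exact h1
  · intro x hx
    rw [hbdd x (Finset.mem_of_mem_erase hx) (Finset.ne_of_mem_erase hx), zero_mul]

end Vale.Agent.P167.H411.Q
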