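import Vale.Agent.P167.CAQ.TwoFin
import Vale.Agent.P167.H411.Q.Bloch

/-!
# P167, general `q`, block Q-ID: the inputs [Q-ND] (definitions)

`F` is one of the three families of functionals (free, wired, Dobrushin) of a lattice polygon `S`
with base point `S.bp`. `fb χ ν c η` is the bump of shape `χ` (a smooth bump of mass `1` in the upper
half of the unit disc) and scale `η` at the flat boundary point `c` with inner normal `ν`.

* `LocZ μ F χp νp rp χ z` : `V_n(- μ φ_{c,η} + μ φ_{p,ρ}) = t(ρ, n) z(n, η) (1 + O(ε))`: the charge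
  `- μ` at a flat point `c` is invisible. `z` is one function for all polygons, for the free and the
  wired family; `t` may depend on the polygon and on the family.
* `BdA` : two-sided bounds of `e^{τ N} V_n(τ (φ_{a,η} - h))`, uniformly in `η`; `N = N(n, η)` is
  the compensation of the small loops, one real sequence for the two charges (helper436).
-/

open Set Metric Filter Topology MeasureTheory
open scoped ComplexConjugate ContDiff

namespace Vale.Agent.P167.H411.Q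

open Vale.Agent.P167.BVP (Flat Test)
open Vale.Agent.P167.CA (Dat)
open Vale.Agent.P167.CAQ (Fam)
open Vale.Agent.P167.H411.B7 (Shp)

/-- The bump of shape `χ` and scale `η` at the flat boundary point `c` with inner normal `ν`. -/
noncomputable def fb (χ : ℂ → ℝ) (ν c : ℂ) (η : ℝ) (z : ℂ) : ℝ :=
  χ (Complex.I * conj ν * (z - c) / η) / η ^ 2

/-- **The charge `- μ` at a flat boundary point is invisible** (free and wired families). -/
def LocZ (μ : ℝ) {S : Dat} (F : Fam S) (χp : ℂ → ℝ) (νp : ℂ) (rp : ℝ) (χ : ℂ → ℝ)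
    (z : ℕ → ℝ → ℝ) : Prop :=
  ∃ t : ℝ → ℕ → ℝ, (∀ ρ n, 0 < t ρ n) ∧ ∀ ε : ℝ, 0 < ε → ∃ θ : ℝ, 0 < θ ∧
    ∀ ρ : ℝ, 0 < ρ → ρ ≤ θ * rp → ∀ (c ν : ℂ) (r : ℝ), Flat S.P c ν r → S.bp ∉ ball c r →
      ρ ≤ θ * r → ∀ η : ℝ, 0 < η → η ≤ θ * r → ∀ᶠ n : ℕ in F.L,
        |F.V n (fun w => -μ * fb χ ν c η w + μ * fb χp νp S.bp ρ w) - t ρ n * z n η| ≤
          ε * (t ρ n * z n η)

/-- `e^{τ N} V_n(τ (φ_{a,η} - h))`. -/
noncomputable def VN (τ : ℝ) {S : Dat} (F : Fam S) (χ : ℂ → ℝ) (ν a : ℂ) (h : ℂ → ℝ)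
    (N : ℕ → ℝ → ℝ) (n : ℕ) (η : ℝ) : ℝ :=
  F.V n (fun w => τ * (fb χ ν a η w - h w)) * Real.exp (τ * N n η)

/-- Two-sided bounds for the charge `τ` at the point `a`, uniformly in the scale `η`. -/
def BdA (τ : ℝ) {S : Dat} (F : Fam S) (χ : ℂ → ℝ) (ν a : ℂ) (h : ℂ → ℝ) (N : ℕ → ℝ → ℝ) : Prop :=
  ∃ c C η₀ : ℝ, 0 < c ∧ 0 < η₀ ∧ ∀ η : ℝ, 0 < η → η < η₀ → ∀ᶠ n : ℕ in F.L,
    c ≤ VN τ F χ ν a h N n η ∧ VN τ F χ ν a h N n η ≤ C

/-- The data of a Dobrushin polygon: the three families with the same constant `s = 2 / (π - μ)`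
and the same filter, the junction `a` (a flat boundary point), the flat base point. -/
structure Tri (μ : ℝ) (S : Dat) (FD FF FW : Fam S) (a νa : ℂ) (ra : ℝ) (νp : ℂ) (rp : ℝ) : Prop where
  mu0 : 0 < μ
  mu1 : μ ≤ Real.pi / 3
  LF : FF.L = FD.L
  LW : FW.L = FD.L
  sD : FD.s = 2 / (Real.pi - μ)
  sF : FF.s = 2 / (Real.pi - μ)
  sW : FW.s = 2 / (Real.pi - μ)
  flatA : Flat S.P a νa ra
  flatP : Flat S.P S.bp νp rp
  offA : S.bp ∉ ball a ra
  offP : a ∉ ball S.bp rp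

/-- **[Q-ND] (Q3) + (Q5)**: for every shape `χ`, with one function `z` for the free and the wired
family. -/
def NDz (μ : ℝ) {S : Dat} (FF FW : Fam S) (νp : ℂ) (rp : ℝ) (χp : ℂ → ℝ)
    (z : (ℂ → ℝ) → ℕ → ℝ → ℝ) : Prop :=
  ∀ χ, Shp Complex.I χ → LocZ μ FF χp νp rp χ (z χ) ∧ LocZ μ FW χp νp rp χ (z χ)

/-- **[Q-ND] (Q4)**: the charge `t* = π - 2 μ` at the junction (Dobrushin family) and the charge `- μ` at
the same point for the free family (two-sided bounds); one shape, one `h`, one `N`. -/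
def NDa (μ : ℝ) {S : Dat} (FD FF : Fam S) (a νa : ℂ) : Prop :=
  ∃ (χ h : ℂ → ℝ) (N : ℕ → ℝ → ℝ), Shp Complex.I χ ∧ Test S.P h ∧ ∫ w, h w = 1 ∧
    BdA (Real.pi - 2 * μ) FD χ νa a h N ∧ BdA (-μ) FF χ νa a h N

end Vale.Agent.P167.H411.Q
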