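import Vale.Agent.P167.H411.Q.Bump
import Vale.Agent.P167.H411.Q.Ident
import Vale.Agent.P167.CAQ.Core
import Vale.Agent.P167.H411.Q.NDefs

/-!
# P167, general `q`, block Q-ID: the coefficient `1 / π`
-/

open Set Metric Filter Topology MeasureTheory Bornology
open scoped ComplexConjugate ContDiff

namespace Vale.Agent.P167.H411.Q

open Vale.Agent.P153.R2.R1 Vale.Agent.P167.H411.B7
open Vale.Agent.P167.BVP (Flat Test lpot npot)
open Vale.Agent.P167.CA (Dat Pair)
open Vale.Agent.P167.CAQ (Fam)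

/-! ### Logarithms -/

section

variable {S : Dat} {F : Fam S} {ψ g : ℂ → ℂ}

theorem log_V (hcore : F.CORE) (hP : Pair S.P ψ g) {f : ℂ → ℝ} (hf : S.FF f) :
    Tendsto (fun n : ℕ => Real.log (F.V n f) + F.U n f + F.s / 2 * CA.en g f f) F.L (𝓝 0) := by
  have h1 := CAQ.V_ratio hcore hP hf
  obtain ⟨c, K, hc, hb⟩ := CAQ.V_bounds hcore hP hf
  have h2 : Tendsto (fun n : ℕ => Real.log (F.V n f * Real.exp (F.U n f + F.s / 2 * CA.en g f f)))
      F.L (𝓝 (Real.log 1)) := (Real.continuousAt_log one_ne_zero).tendsto.comp h1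
  rw [Real.log_one] at h2
  refine h2.congr' ?_
  filter_upwards [hb] with n hn
  rw [Real.log_mul (hc.trans_le hn.1).ne' (Real.exp_pos _).ne', Real.log_exp]
  ring

/-- The logarithm of `VN`. -/
theorem log_VN (hcore : F.CORE) (hP : Pair S.P ψ g) {χ h : ℂ → ℝ} {ν a : ℂ} {η : ℝ}
    (hf : S.FF fun w => fb χ ν a η w - h w) (τ : ℝ) (N : ℕ → ℝ → ℝ) :
    ∀ᶠ n : ℕ in F.L, 0 < VN τ F χ ν a h N n η ∧
      |Real.log (VN τ F χ ν a h N n η) - (τ * (N n η - F.U n (fun w => fb χ ν a η w - h w)) -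
        F.s / 2 * τ ^ 2 * CA.en g (fun w => fb χ ν a η w - h w) (fun w => fb χ ν a η w - h w))| ≤
          1 := by
  have hf' := CA.FF.smul hf τ
  have h1 := log_V hcore hP hf'
  have h2 := h1.eventually (Metric.ball_mem_nhds 0 one_pos)
  obtain ⟨c, K, hc, hb⟩ := CAQ.V_bounds hcore hP hf'
  filter_upwards [hb, h2] with n hn h3
  have hV := hc.trans_le hn.1
  rw [dist_zero_right, Real.norm_eq_abs, CAQ.U_smul, CA.en_smul] at h3
  refine ⟨mul_pos hV (Real.exp_pos _), ?_⟩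
  unfold VN
  rw [Real.log_mul hV.ne' (Real.exp_pos _).ne', Real.log_exp]
  rw [abs_lt] at h3
  rw [abs_le]
  constructor <;> linarith [h3.1, h3.2]

theorem ff_of {f h : ℂ → ℝ} (hf : Test S.P f) (hh : Test S.P h) (hm : ∫ z, f z = ∫ z, h z) :
    S.FF fun z => f z - h z := by
  have hfi : Integrable f := integrable_test hf
  have hhi : Integrable h := integrable_test hh
  refine ⟨⟨hf.1.sub hh.1, hf.2.1.sub hh.2.1, ?_⟩, ?_⟩
  · exact (tsupport_sub f h).trans (union_subset hf.2.2 hh.2.2)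
  · rw [integral_sub hfi hhi, hm, sub_self]

end

/-! ### Energies -/

section

variable {ψ : ℂ → ℂ} {P : Set ℂ} {a p : ℂ}

theorem en_diff {g : ℂ → ℂ} (hg : BVP.Conf P g) {f h : ℂ → ℝ} (hf : Test P f) (hh : Test P h) :
    CA.en g (fun z => f z - h z) (fun z => f z - h z) =
      CA.en g f f - 2 * CA.en g f h + CA.en g h h := by
  have e : (fun z => f z - h z) = fun z => 1 * f z + (-1) * h z := by funext z; ring
  have ht := H411.B7.test_lin hf hh 1 (-1)
  rw [e]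
  have h1 := H411.B7.en_lin_left hg hf hh ht 1 (-1)
  have h2 := H411.B7.en_lin_right hg hf hf hh 1 (-1)
  have h3 := H411.B7.en_lin_right hg hh hf hh 1 (-1)
  have h4 := CA.en_symm hg hh hf
  rw [H411.B7.en_eq] at *
  rw [h1, h2, h3, h4]
  ring

/-- The potential of a test function is bounded near a flat point. -/
theorem npot_near (h : IsU ψ P a p) (hinj : InjOn ψ {z | 0 ≤ z.im}) {q ν : ℂ} {r : ℝ}
    (hF : Flat P q ν r) (hp : p ∉ ball q r) {f : ℂ → ℝ} (hf : Test P f) :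
    ∃ M δ : ℝ, 0 < δ ∧ ∀ z ∈ P, ‖z - q‖ < δ → |npot (ginv ψ) f z| ≤ M := by
  obtain ⟨G, hX⟩ := exists_ext h hinj hF hp
  have hg := ginv_conf h hinj
  have him := hX.im_center hF
  have hGq : G q = (((G q).re : ℝ) : ℂ) := by
    apply Complex.ext <;> simp [him]
  obtain ⟨u, hu1, -, hu3⟩ := BVP.nhalf_evenExt hg hf (G q).re
  have hcu : ContinuousAt u (((G q).re : ℝ) : ℂ) := hu1.1.continuousAt
  have h1 : ∀ᶠ ζ in 𝓝 (((G q).re : ℝ) : ℂ), |u ζ| < |u (((G q).re : ℝ) : ℂ)| + 1 :=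
    hcu.abs.eventually (gt_mem_nhds (lt_add_one _))
  have hGc : Tendsto G (𝓝 q) (𝓝 (((G q).re : ℝ) : ℂ)) := by
    rw [← hGq]
    exact (hX.diff.continuousOn.continuousAt (isOpen_ball.mem_nhds (mem_ball_self hF.pos))).tendsto
  have h2 := hGc.eventually (h1.and hu3)
  obtain ⟨δ, hδ, hδ'⟩ := Metric.eventually_nhds_iff_ball.1 h2
  refine ⟨|u (((G q).re : ℝ) : ℂ)| + 1, min δ r, lt_min hδ hF.pos, fun z hz hzq => ?_⟩
  have hzδ : z ∈ ball q δ := by
    rw [mem_ball, dist_eq_norm]; exact hzq.trans_le (min_le_left _ _)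
  have hzr : z ∈ ball q r := by
    rw [mem_ball, dist_eq_norm]; exact hzq.trans_le (min_le_right _ _)
  obtain ⟨h3, h4⟩ := hδ' z hzδ
  have hGz := hX.eq_mem hF hzr hz
  have h5 := h4 (by rw [hGz]; exact (ginv_pos h hinj hz).1)
  rw [BVP.npot_eq_nhalf, ← hGz, h5]
  exact h3.le

theorem en_near {q : ℂ} {η : ℝ} {φ f : ℂ → ℝ} (hφ : Bp P q η φ) {g : ℂ → ℂ} {M δ : ℝ} (hη : η < δ)
    (hM : ∀ z ∈ P, ‖z - q‖ < δ → |npot g f z| ≤ M) : |CA.en g φ f| ≤ M := by
  have h1 : |CA.en g φ f| ≤ ∫ z, φ z * M := by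
    unfold CA.en
    rw [← Real.norm_eq_abs]
    refine norm_integral_le_of_norm_le ((integrable_test hφ.test).mul_const M)
      (Eventually.of_forall fun z => ?_)
    rw [norm_mul, Real.norm_of_nonneg (hφ.nonneg z), Real.norm_eq_abs]
    by_cases hz : z ∈ tsupport φ
    · obtain ⟨h2, h3⟩ := hφ.sub hz
      refine mul_le_mul_of_nonneg_left (hM z h2 ?_) (hφ.nonneg z)
      rw [mem_closedBall, dist_eq_norm] at h3
      linarith
    · rw [image_eq_zero_of_notMem_tsupport hz, zero_mul, zero_mul]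
  rwa [integral_mul_const, hφ.mass, one_mul] at h1

end

/-! ### The coefficient -/

section

variable {S : Dat} {ψ : ℂ → ℂ} {a p : ℂ}

theorem six {x1 x2 x3 x4 x5 x6 y1 y2 y3 y4 y5 y6 : ℝ} (h1 : |x1| ≤ y1) (h2 : |x2| ≤ y2)
    (h3 : |x3| ≤ y3) (h4 : |x4| ≤ y4) (h5 : |x5| ≤ y5) (h6 : |x6| ≤ y6) :
    |x1 - x2 + x3 - x4 + x5 - x6| ≤ y1 + (y2 + y3) + y4 + y5 + y6 := by
  rw [abs_le] at *
  constructor <;> linarith [h1.1, h1.2, h2.1, h2.2, h3.1, h3.2, h4.1, h4.2, h5.1, h5.2, h6.1, h6.2]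

/-- Growth of the two sides as the scale goes to zero. -/
theorem coef_of_bd (h : IsU ψ S.P a p) (hinj : InjOn ψ {z | 0 ≤ z.im}) {ν : ℂ} {r : ℝ}
    (hF : Flat S.P a ν r) (hp : p ∉ ball a r) {χ h₀ : ℂ → ℝ} (hχ : Shp Complex.I χ)
    (hh : Test S.P h₀) (hm : ∫ z, h₀ z = 1) {Y : ℂ → ℝ} {c L : ℝ}
    (hY : ∀ z ∈ S.P, Y z = c + L * Real.log ‖ginv ψ z‖)
    (hB : ∀ ε : ℝ, 0 < ε → ∃ B η₀ : ℝ, 0 < η₀ ∧ ∀ η : ℝ, 0 < η → η < η₀ →
      |(∫ z, (fb χ ν a η z - h₀ z) * Y z) +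
        CA.en (ginv ψ) (fun z => fb χ ν a η z - h₀ z) (fun z => fb χ ν a η z - h₀ z)| ≤
      ε * |CA.en (ginv ψ) (fun z => fb χ ν a η z - h₀ z) (fun z => fb χ ν a η z - h₀ z)| + B) :
    L = 1 / Real.pi := by
  by_contra hne
  have hne' : L - 1 / Real.pi ≠ 0 := sub_ne_zero.2 hne
  obtain ⟨B, η₀, hη₀, hB⟩ := hB (|L - 1 / Real.pi| / 2) (by positivity)
  obtain ⟨G, hX⟩ := exists_ext h hinj hF hp
  have hg := ginv_conf h hinj
  have hr := hF.pos
  have h0 : ginv ψ a = ((0 : ℝ) : ℂ) := by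
    rw [← h.zero, Complex.ofReal_zero]; exact ginv_apply hinj (by simp)
  have hd := hX.hasDeriv h hinj hF hp
  rw [h0] at hd
  set d : ℂ := (deriv G a)⁻¹ with hd_def
  have hψ0 : ψ ((0 : ℝ) : ℂ) = a := by rw [Complex.ofReal_zero, h.zero]
  obtain ⟨M, δ, hδ, hM⟩ := npot_near h hinj hF hp hh
  set I₁ : ℝ := ∫ z, χ z * Real.log ‖z‖ with hI₁
  set J₁ : ℝ := JJ 0 Complex.I χ χ with hJ₁
  set lh : ℝ := ∫ z, h₀ z * Real.log ‖ginv ψ z‖ with hlh
  set eh : ℝ := CA.en (ginv ψ) h₀ h₀ with heh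
  set R₁ : ℝ := (|Real.log ‖d‖| + |J₁| + 1) + 2 * |M| + |eh| with hR₁
  -- the estimate
  have key : ∀ η : ℝ, 0 < η → η < min (min η₀ δ) (r / 8400) →
      |(L - 1 / Real.pi) * Real.log η| ≤
        |L - 1 / Real.pi| / 2 * (|Real.log η| + R₁) + B +
        |L| * (|Real.log ‖d‖| + |I₁| + |lh| + 1) +
        (|Real.log ‖d‖| + |J₁| + 1) + 2 * |M| + |eh| := by
    intro η hη hηlt
    have e1 : η < η₀ := hηlt.trans_le ((min_le_left _ _).trans (min_le_left _ _))
    have e2 : η < δ := hηlt.trans_le ((min_le_left _ _).trans (min_le_right _ _))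
    have e3 : η ≤ r / 8400 := hηlt.le.trans (min_le_right _ _)
    have e3' : η < r := by linarith
    have hφ := fb_bp hχ hF hη e3'
    set φ := fb χ ν a η with hφd
    have hηr : 8400 * (η / r) ≤ 1 := by
      rw [mul_div_assoc', div_le_one hr]; linarith
    have k1 := ll_a h hinj hF hp e3 hφ (d := d) (by rw [← Complex.ofReal_zero]; exact hd)
    rw [int_log_fb hχ hF.norm hη] at k1
    have k2 := en_bb h hinj hF hp e3 hφ hφ hψ0 hd
    rw [JJ_fb hχ hF.norm hη] at k2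
    have k3 := en_near hφ (f := h₀) e2 hM
    have k4 := hB η hη e1
    rw [en_diff hg hφ.test hh] at k4
    have k5 : ∫ z, (φ z - h₀ z) * Y z = L * (ll ψ φ - lh) := by
      have i1 := int_ll h hinj hφ.test
      have i2 := int_ll h hinj hh
      have i3 := integrable_test hφ.test
      have i4 := integrable_test hh
      have e : ∀ z, (φ z - h₀ z) * Y z = (c * φ z - c * h₀ z) +
          (L * (φ z * Real.log ‖ginv ψ z‖) - L * (h₀ z * Real.log ‖ginv ψ z‖)) := by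
        intro z
        by_cases hz : z ∈ S.P
        · rw [hY z hz]; ring
        · have z1 : φ z = 0 := image_eq_zero_of_notMem_tsupport fun hz' => hz (hφ.test.2.2 hz')
          have z2 : h₀ z = 0 := image_eq_zero_of_notMem_tsupport fun hz' => hz (hh.2.2 hz')
          rw [z1, z2]; ring
      have j1 : Integrable fun z => c * φ z - c * h₀ z := (i3.const_mul c).sub (i4.const_mul c)
      have j2 : Integrable fun z => L * (φ z * Real.log ‖ginv ψ z‖) -
          L * (h₀ z * Real.log ‖ginv ψ z‖) := (i1.const_mul L).sub (i2.const_mul L)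
      have j3 : ∫ z, (φ z - h₀ z) * Y z = ∫ z, ((c * φ z - c * h₀ z) +
          (L * (φ z * Real.log ‖ginv ψ z‖) - L * (h₀ z * Real.log ‖ginv ψ z‖))) :=
        integral_congr_ae (Eventually.of_forall e)
      rw [j3, integral_add j1 j2, integral_sub (i3.const_mul c) (i4.const_mul c),
        integral_sub (i1.const_mul L) (i2.const_mul L), integral_const_mul, integral_const_mul,
        integral_const_mul, integral_const_mul, hφ.mass, hm]
      unfold ll
      ring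
    rw [k5] at k4
    have k6 : |ll ψ φ - Real.log η| ≤ |Real.log ‖d‖| + |I₁| + 1 := by
      have e : ll ψ φ - Real.log η = (ll ψ φ - (-Real.log ‖d‖ + (Real.log η + I₁))) +
        (-Real.log ‖d‖ + I₁) := by ring
      rw [e]
      have a1 := abs_add_le (ll ψ φ - (-Real.log ‖d‖ + (Real.log η + I₁))) (-Real.log ‖d‖ + I₁)
      have a2 := abs_add_le (-Real.log ‖d‖) I₁
      rw [abs_neg] at a2
      linarith
    have k7 : |CA.en (ginv ψ) φ φ + 1 / Real.pi * Real.log η| ≤ |Real.log ‖d‖| + |J₁| + 1 := by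
      have hk2 : |CA.en (ginv ψ) φ φ + 1 / (2 * Real.pi) * (-2 * Real.log ‖d‖ +
        (2 * Real.log η + J₁))| ≤ 2700 * (η / r) := k2
      have e : CA.en (ginv ψ) φ φ + 1 / Real.pi * Real.log η = (CA.en (ginv ψ) φ φ +
        1 / (2 * Real.pi) * (-2 * Real.log ‖d‖ + (2 * Real.log η + J₁))) +
          (1 / Real.pi * Real.log ‖d‖ - 1 / (2 * Real.pi) * J₁) := by
        have := Real.pi_ne_zero
        field_simp
        ring
      rw [e]
      refine (abs_add_le _ _).trans ?_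
      have a1 := abs_sub (1 / Real.pi * Real.log ‖d‖) (1 / (2 * Real.pi) * J₁)
      rw [abs_mul, abs_mul] at a1
      have p1 : |1 / Real.pi| ≤ 1 := by
        rw [abs_of_pos (by positivity), div_le_one Real.pi_pos]; linarith [Real.pi_gt_three]
      have p2 : |1 / (2 * Real.pi)| ≤ 1 := by
        rw [abs_of_pos (by positivity), div_le_one (by positivity)]; linarith [Real.pi_gt_three]
      have a2 := mul_le_mul_of_nonneg_right p1 (abs_nonneg (Real.log ‖d‖))
      have a3 := mul_le_mul_of_nonneg_right p2 (abs_nonneg J₁)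
      have a4 : 2700 * (η / r) ≤ 1 := by
        have : 0 ≤ η / r := by positivity
        linarith
      linarith
    have k8 : |CA.en (ginv ψ) φ φ - 2 * CA.en (ginv ψ) φ h₀ + CA.en (ginv ψ) h₀ h₀| ≤
        |Real.log η| + R₁ := by
      have p1 : |1 / Real.pi * Real.log η| ≤ |Real.log η| := by
        rw [abs_mul, abs_of_pos (by positivity : (0 : ℝ) < 1 / Real.pi)]
        refine mul_le_of_le_one_left (abs_nonneg _) ?_
        rw [div_le_one Real.pi_pos]; linarith [Real.pi_gt_three]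
      have p2 : |CA.en (ginv ψ) φ h₀| ≤ |M| := k3.trans (le_abs_self M)
      have p3 := le_abs_self eh
      have p4 := neg_abs_le eh
      rw [abs_le] at k7 p1 p2 ⊢
      rw [hR₁]
      constructor <;> linarith [k7.1, k7.2, p1.1, p1.2, p2.1, p2.2]
    have k9 : |L * (ll ψ φ - lh) + (CA.en (ginv ψ) φ φ - 2 * CA.en (ginv ψ) φ h₀ +
        CA.en (ginv ψ) h₀ h₀)| ≤ |L - 1 / Real.pi| / 2 * (|Real.log η| + R₁) + B :=
      k4.trans (by
        have := mul_le_mul_of_nonneg_left k8 (show 0 ≤ |L - 1 / Real.pi| / 2 by positivity)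
        linarith)
    have e : (L - 1 / Real.pi) * Real.log η =
        (L * (ll ψ φ - lh) + (CA.en (ginv ψ) φ φ - 2 * CA.en (ginv ψ) φ h₀ +
          CA.en (ginv ψ) h₀ h₀)) - L * (ll ψ φ - Real.log η) + L * lh -
        (CA.en (ginv ψ) φ φ + 1 / Real.pi * Real.log η) + 2 * CA.en (ginv ψ) φ h₀ -
        CA.en (ginv ψ) h₀ h₀ := by ring
    have b1 : |L * (ll ψ φ - Real.log η)| ≤ |L| * (|Real.log ‖d‖| + |I₁| + 1) := by
      rw [abs_mul]; exact mul_le_mul_of_nonneg_left k6 (abs_nonneg _)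
    have b2 : |L * lh| = |L| * |lh| := abs_mul _ _
    have b3 : |2 * CA.en (ginv ψ) φ h₀| ≤ 2 * |M| := by
      rw [abs_mul, abs_two]
      linarith [k3.trans (le_abs_self M)]
    rw [e]
    have b5 : |CA.en (ginv ψ) h₀ h₀| ≤ |eh| := le_rfl
    have b6 : |L| * (|Real.log ‖d‖| + |I₁| + |lh| + 1) =
        |L| * (|Real.log ‖d‖| + |I₁| + 1) + |L| * |lh| := by ring
    rw [b6]
    exact six k9 b1 (le_of_eq b2) k7 b3 b5
  -- conclusion
  set B' := |L - 1 / Real.pi| / 2 * R₁ + B + |L| * (|Real.log ‖d‖| + |I₁| + |lh| + 1) +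
    (|Real.log ‖d‖| + |J₁| + 1) + 2 * |M| + |eh| with hB'
  have h1 : Tendsto (fun η : ℝ => |L - 1 / Real.pi| / 2 * |Real.log η|) (𝓝[>] 0) atTop := by
    have h2 : Tendsto (fun η : ℝ => |Real.log η|) (𝓝[>] 0) atTop :=
      tendsto_abs_atBot_atTop.comp Real.tendsto_log_nhdsGT_zero
    exact h2.const_mul_atTop (by positivity)
  have h2 : ∀ᶠ η : ℝ in 𝓝[>] 0, η < min (min η₀ δ) (r / 8400) :=
    nhdsWithin_le_nhds (gt_mem_nhds (by positivity))
  obtain ⟨η, h3, h4, h5⟩ := ((h1.eventually_gt_atTop B').and (h2.and self_mem_nhdsWithin)).exists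
  have h6 := key η h5 h4
  rw [abs_mul] at h6
  rw [hB'] at h3
  linarith

end

end Vale.Agent.P167.H411.Q
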