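import Vale.Agent.P167.H411.Q.Sup
import Vale.Agent.P167.H980.ND.WinF
import Vale.Agent.P167.H411.Q.NDefs

/-!
# P167, general `q`, block Q-ND (CONT): the charge `- θ` at a flat point is invisible (assembly)

`PSide`: the input on the side of the base point (helper208). `locZ`: the property `LocZ` of the free
and the wired family from `S_unsM` (helper542), `PSide` and the windows (helper980).
-/

namespace Vale.Agent.P167.H411.Q

open Finset Filter Topology MeasureTheory Vale.Agent.P167 Vale.Agent.P167.BR Vale.Agent.P167.FK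
open scoped ComplexConjugate
open Vale.Agent.P167.E6 (IsPolygon Encloses pt)
open Vale.Agent.P167.H135 (Mov rk tra)
open Vale.Agent.P167.H562.QM (FltQ)
open Vale.Agent.P167.QB (XG zS Nf Bq' dlt)
open Vale.Agent.P167.H825.Q (Bc qS kS bdG)
open Vale.Agent.P167.H718 (Dob)
open Vale.Agent.P167.CA (cms)
open Vale.Agent.P167.H208.SH (F0)
open Vale.Agent.P167.H411.B7 (Shp)
open Vale.Agent.P167.BVP (Flat Test)
open Vale.Agent.P167.H519 (IsLim)

/-- The value with the unit charge `- θ` at the site `q l`. -/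
noncomputable def Wl (θ : ℝ) (S : CA.Dat) (w : Bool) (χp : ℂ → ℝ) (νp : ℂ) (ρ : ℝ) (n l : ℕ) : ℝ :=
  Ex (2 * Real.cos θ) (Dw S w n) eta0 (XG θ (qw S w n) (Dw S w n) (S.l * n)
    fun z => θ * cms (fb χp νp S.bp ρ) (1 / n) (z - ow w) - dlt (qw S w n l) θ z)

/-- The even indices of the polygon. -/
def Evl (S : CA.Dat) (w : Bool) (n l : ℕ) : Prop :=
  0 < l ∧ l < S.l * n ∧ Even ((qw S w n l).1 + (qw S w n l).2)

/-- The even indices at distance at least `r n / 2` of the base point. -/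
def Okl (S : CA.Dat) (w : Bool) (n : ℕ) (r : ℝ) (l : ℕ) : Prop :=
  Evl S w n l ∧ r * n ≤ 2 * (nm (qw S w n l - qw S w n 0) : ℝ)

/-- **The input on the side of the base point**. -/
def PSide (θ : ℝ) (P : Measure Cfg) (χp : ℂ → ℝ) (S : CA.Dat) (νp : ℂ) (rp : ℝ) (w : Bool) : Prop :=
  ∃ K0 : ℝ, ∀ K : ℝ, K0 ≤ K →
    (∃ τ : ℝ, 0 < τ ∧ ∀ ρ : ℝ, 0 < ρ → ρ ≤ τ * rp → ∀ j : Fin 4,
      (∀ z : ℤ × ℤ, pt ((rk j).t z) = Complex.I * conj νp * pt z) → ∀ᶠ n : ℕ in atTop,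
        Bq' θ K ((rk j).t (qw S w n 0)) (rN n ρ)
          ((rk j).F fun z => θ * cms (fb χp νp S.bp ρ) (1 / n) (z - ow w))) ∧
    ∃ c C α τ : ℝ, 0 < c ∧ 0 < C ∧ 0 < α ∧ 0 < τ ∧ ∀ r ρ : ℝ, 0 < r → 0 < ρ →
      ρ ≤ τ * min rp r → ∀ᶠ n : ℕ in atTop, ∀ l l' : ℕ, Okl S w n r l → Okl S w n r l' →
        c ≤ Wl θ S w χp νp ρ n l * Nf θ K P (rN n ρ) ∧
        Wl θ S w χp νp ρ n l * Nf θ K P (rN n ρ) ≤ C ∧
        |Wl θ S w χp νp ρ n l - Wl θ S w χp νp ρ n l'| ≤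
          C * (ρ / min rp r) ^ α * Wl θ S w χp νp ρ n l

/-- The far even index. -/
def Mxl (S : CA.Dat) (w : Bool) (n l : ℕ) : Prop :=
  Evl S w n l ∧ ∀ l', Evl S w n l' → nm (qw S w n l' - qw S w n 0) ≤ nm (qw S w n l - qw S w n 0)

theorem exists_mxl {S : CA.Dat} {w : Bool} {n l : ℕ} (h : Evl S w n l) : ∃ l', Mxl S w n l' := by
  classical
  obtain ⟨l', h1, h2⟩ := ((range (S.l * n)).filter (Evl S w n)).exists_max_image
    (fun l => nm (qw S w n l - qw S w n 0)) ⟨l, by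
      rw [mem_filter, mem_range]; exact ⟨h.2.1, h⟩⟩
  rw [mem_filter] at h1
  refine ⟨l', h1.2, fun l₂ h3 => h2 l₂ ?_⟩
  rw [mem_filter, mem_range]
  exact ⟨h3.2.1, h3⟩

/-- The normalisation `t`. -/
noncomputable def tW (θ : ℝ) (S : CA.Dat) (w : Bool) (χp : ℂ → ℝ) (νp : ℂ) (ρ : ℝ) (n : ℕ) : ℝ :=
  open Classical in
  if h : ∃ l, Mxl S w n l ∧ 0 < Wl θ S w χp νp ρ n l then Wl θ S w χp νp ρ n (Classical.choose h)
  else 1

theorem tW_pos (θ : ℝ) (S : CA.Dat) (w : Bool) (χp : ℂ → ℝ) (νp : ℂ) (ρ : ℝ) (n : ℕ) :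
    0 < tW θ S w χp νp ρ n := by
  unfold tW
  split_ifs with h
  · exact (Classical.choose_spec h).2
  · exact one_pos

/-- The base site and the flat point. -/
theorem far_w {S : CA.Dat} {w : Bool} {n l : ℕ} (hn : 0 < n) {c : ℂ} {r : ℝ}
    (hb : S.bp ∉ Metric.ball c r) (h : ‖pt (qw S w n l) - pt (ow w) - n * c‖ ≤ 3) :
    r * n ≤ 2 * (nm (qw S w n l - qw S w n 0) : ℝ) + 5 := by
  obtain ⟨h1, h2⟩ := H980.ND.near_bp S n
  have hn' : (0 : ℝ) < n := by exact_mod_cast hn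
  rw [Metric.mem_ball, dist_eq_norm, not_lt] at hb
  have e0 : qw S w n 0 = S.b n + ow w := by
    show qS S n 0 + ow w = _
    rw [H825.Q.qS_zero S hn]
  have h3 : ‖(n : ℂ) * S.bp - pt (S.b n)‖ ≤ 2 := by
    refine (Complex.norm_le_abs_re_add_abs_im _).trans ?_
    have e1 : ((n : ℂ) * S.bp - pt (S.b n)).re = -(((S.b n).1 : ℝ) - S.bp.re * n) := by
      simp [pt]; ring
    have e2 : ((n : ℂ) * S.bp - pt (S.b n)).im = -(((S.b n).2 : ℝ) - S.bp.im * n) := by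
      simp [pt]; ring
    rw [e1, e2, abs_neg, abs_neg]
    linarith
  have h4 : ‖pt (S.b n) + pt (ow w) - pt (qw S w n l)‖ ≤
      2 * (nm (qw S w n l - qw S w n 0) : ℝ) := by
    refine (Complex.norm_le_abs_re_add_abs_im _).trans ?_
    rw [e0]
    have h5 := (H135.nm_le_iff (qw S w n l - (S.b n + ow w)) _).1 le_rfl
    set m := nm (qw S w n l - (S.b n + ow w)) with hm
    simp only [Prod.fst_sub, Prod.snd_sub, Prod.fst_add, Prod.snd_add] at h5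
    obtain ⟨⟨a1, a2⟩, a3, a4⟩ := h5
    have b1 : (((qw S w n l).1 : ℝ) - ((S.b n).1 + (ow w).1)) ≤ m := by exact_mod_cast a1
    have b2 : (-(m : ℝ)) ≤ (((qw S w n l).1 : ℝ) - ((S.b n).1 + (ow w).1)) := by exact_mod_cast a2
    have b3 : (((qw S w n l).2 : ℝ) - ((S.b n).2 + (ow w).2)) ≤ m := by exact_mod_cast a3
    have b4 : (-(m : ℝ)) ≤ (((qw S w n l).2 : ℝ) - ((S.b n).2 + (ow w).2)) := by exact_mod_cast a4
    have c1 : |(pt (S.b n) + pt (ow w) - pt (qw S w n l)).re| ≤ m := by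
      have e1 : (pt (S.b n) + pt (ow w) - pt (qw S w n l)).re =
        -((((qw S w n l).1 : ℝ) - ((S.b n).1 + (ow w).1))) := by simp [pt]
      rw [e1, abs_le]
      constructor <;> linarith
    have c2 : |(pt (S.b n) + pt (ow w) - pt (qw S w n l)).im| ≤ m := by
      have e1 : (pt (S.b n) + pt (ow w) - pt (qw S w n l)).im =
        -((((qw S w n l).2 : ℝ) - ((S.b n).2 + (ow w).2))) := by simp [pt]
      rw [e1, abs_le]
      constructor <;> linarith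
    linarith
  have h5 : r * n ≤ ‖(n : ℂ) * (S.bp - c)‖ := by
    rw [norm_mul, Complex.norm_natCast, mul_comm]
    exact mul_le_mul_of_nonneg_left hb hn'.le
  have e3 : (n : ℂ) * (S.bp - c) = ((n : ℂ) * S.bp - pt (S.b n)) +
      (pt (S.b n) + pt (ow w) - pt (qw S w n l)) + (pt (qw S w n l) - pt (ow w) - n * c) := by ring
  rw [e3] at h5
  have h6 := norm_add₃_le (a := ((n : ℂ) * S.bp - pt (S.b n)))
    (b := (pt (S.b n) + pt (ow w) - pt (qw S w n l))) (c := (pt (qw S w n l) - pt (ow w) - n * c))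
  linarith

/-- Arithmetic. -/
theorem num_loc {V V' z W t ε a b d : ℝ} (hε : ε ≤ 1) (hz : 0 < z) (hW : 0 < W)
    (ha : a ≤ ε / 6) (hb : b ≤ ε / 6) (hd : d ≤ ε / 6) (h1 : |V - V'| ≤ d * (z * W))
    (h2 : |V' - z * W| ≤ a * (z * W)) (h3 : |W - t| ≤ b * W) : |V - t * z| ≤ ε * (t * z) := by
  have hzW : 0 < z * W := by positivity
  have k1 : |V - V'| ≤ ε / 6 * (z * W) := h1.trans (mul_le_mul_of_nonneg_right hd hzW.le)
  have k2 : |V' - z * W| ≤ ε / 6 * (z * W) := h2.trans (mul_le_mul_of_nonneg_right ha hzW.le)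
  have k3 : |W - t| ≤ ε / 6 * W := h3.trans (mul_le_mul_of_nonneg_right hb hW.le)
  have hε0 : 0 ≤ ε := by
    by_contra hneg
    have h4 := (abs_nonneg _).trans k3
    push Not at hneg
    nlinarith
  rw [abs_le] at k1 k2 k3
  have k4 : z * W ≤ 2 * (t * z) := by nlinarith
  have k5 : z * (W - t) ≤ ε / 6 * (z * W) := by nlinarith
  have k6 : -(ε / 6 * (z * W)) ≤ z * (W - t) := by nlinarith
  have k7 : ε / 2 * (z * W) ≤ ε * (t * z) := by nlinarith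
  rw [abs_le]
  constructor <;> nlinarith

theorem small_th {C α δ m : ℝ} (hα : 0 < α) (hδ : 0 < δ) :
    ∀ᶠ th in 𝓝[>] (0 : ℝ), C * (m * th) ^ α ≤ δ := by
  have h1 : ContinuousAt (fun th : ℝ => C * (m * th) ^ α) 0 :=
    continuousAt_const.mul (ContinuousAt.rpow_const (by fun_prop) (Or.inr hα.le))
  have h2 : (fun th : ℝ => C * (m * th) ^ α) 0 = 0 := by
    simp only [mul_zero]
    rw [Real.zero_rpow hα.ne', mul_zero]
  have h3 : Tendsto (fun th : ℝ => C * (m * th) ^ α) (𝓝[>] (0 : ℝ)) (𝓝 0) := by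
    have h4 := h1.tendsto
    have h5 : C * (m * (0 : ℝ)) ^ α = 0 := h2
    rw [h5] at h4
    exact h4.mono_left nhdsWithin_le_nhds
  exact (h3.eventually_lt_const hδ).mono fun _ h => h.le

/-- Arithmetic. -/
theorem num_fin {V V' z W t ε b C1 x Nc Np cz cw c3 X : ℝ} (hε : ε ≤ 1) (hx : 0 < x)
    (hNc : 0 < Nc) (hNp : 0 < Np) (hcz : 0 < cz) (hcw : 0 < cw)
    (hV : |V - V'| ≤ C1 / x) (hU : |V' - z * W| ≤ X * (Nc / Np)) (hz : cz * Nc ≤ z)
    (hW : cw ≤ W * Np) (hr : c3 ≤ Nc / Np) (h4 : 6 * C1 ≤ ε * (cz * cw * c3) * x)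
    (hX : X ≤ ε / 6 * (cz * cw)) (hb : b ≤ ε / 6) (h3 : |W - t| ≤ b * W) :
    |V - t * z| ≤ ε * (t * z) := by
  have hz0 : 0 < z := lt_of_lt_of_le (by positivity) hz
  have hW0 : 0 < W := by
    by_contra hneg
    push Not at hneg
    nlinarith
  have hzW : 0 < z * W := by positivity
  have key : cz * cw * (Nc / Np) ≤ z * W := by
    rw [mul_div_assoc', div_le_iff₀ hNp]
    calc cz * cw * Nc = cz * Nc * cw := by ring
      _ ≤ z * (W * Np) := mul_le_mul hz hW hcw.le hz0.le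
      _ = z * W * Np := by ring
  have hrp : 0 < Nc / Np := by positivity
  have hε0 : 0 ≤ ε := by
    have h5 := (abs_nonneg _).trans h3
    have h6 : 0 ≤ b := by
      by_contra hneg
      push Not at hneg
      nlinarith
    linarith
  refine num_loc (V' := V') (ε := ε) (a := ε / 6) (b := b) (d := ε / 6) hε hz0 hW0 le_rfl hb le_rfl
    ?_ ?_ h3
  · refine hV.trans ?_
    rw [div_le_iff₀ hx]
    have h5 : cz * cw * c3 ≤ z * W := (mul_le_mul_of_nonneg_left hr (by positivity)).trans key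
    have h6 : ε / 6 * (cz * cw * c3) * x ≤ ε / 6 * (z * W) * x :=
      mul_le_mul_of_nonneg_right (mul_le_mul_of_nonneg_left h5 (by linarith)) hx.le
    linarith
  · refine hU.trans ?_
    calc X * (Nc / Np) ≤ ε / 6 * (cz * cw) * (Nc / Np) := mul_le_mul_of_nonneg_right hX hrp.le
      _ = ε / 6 * (cz * cw * (Nc / Np)) := by ring
      _ ≤ ε / 6 * (z * W) := mul_le_mul_of_nonneg_left key (by linarith)

/-- The bridge of `uns_fix`. -/
def UnsF (θ : ℝ) (P : Measure Cfg) (K r0 : ℝ) (Λ : ℤ) (α C : ℝ) : Prop :=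
  ∀ (n : ℕ) (q : ZMod n → ℤ × ℤ) (D : Finset (ℤ × ℤ)), IsPolygon q → Encloses q D →
    ∀ (j jp : Fin 4) (l : ℕ) (he : Even ((-(q l)).1 + (-(q l)).2)) (rc R rp : ℤ)
      (f0 fp : ℤ × ℤ → ℝ), l ≤ n → r0 ≤ rc → r0 ≤ rp → Λ * rc ≤ R → R ≤ rc ^ 2 →
      FltQ ((Mc j (-(q l)) he).S D) eta0 (0, 0) R false false →
      FltQ ((rk jp).S D) eta0 ((rk jp).t (q 0)) (2 * rp) false false →
      2 * rp + R + 3 ≤ nm (q 0 - q l) →
      Bq' θ K (0, 0) rc f0 → Bq' θ K ((rk jp).t (q 0)) rp ((rk jp).F fp) →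
      |Ex (2 * Real.cos θ) D eta0 (XG θ q D n (fun z => fp z - f0 ((Mc j (-(q l)) he).t z))) -
        zS θ (0, 0) rc f0 *
          Ex (2 * Real.cos θ) D eta0 (XG θ q D n (fun z => fp z - dlt (q l) θ z))| ≤
        C * ((rc : ℝ) / R) ^ α * (Nf θ K P rc / Nf θ K P rp)

/-- The bridge for the enlargements. -/
theorem uns_n {S : CA.Dat} {θ : ℝ} {P : Measure Cfg} {K r0 : ℝ} {Λ : ℤ} {α C : ℝ} (hΛ : 1 ≤ Λ)
    (hα : 0 < α) (hC : 0 < C) (huns : UnsF θ P K r0 Λ α C) (w : Bool) {χp : ℂ → ℝ} {νp : ℂ}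
    {χ : ℂ → ℝ} {ρ rp e r th : ℝ} (hr : 0 < r) (hrp : 0 < rp) (hth : 0 < th) (e5 : th ≤ 1 / 48)
    (e6 : th ≤ 1 / (48 * Λ)) (hρp : ρ ≤ th * rp) (hρr : ρ ≤ th * r) (her : e ≤ th * r) (he : 0 < e)
    {n : ℕ} (hn0 : 0 < n) (b13 : r0 ≤ n * e) (b14 : 1 ≤ n * e) (b21 : r0 ≤ n * ρ) (b22 : 1 ≤ n * ρ)
    (b3 : 96 ≤ n * r) (b4 : r ≤ n * (8 * e ^ 2)) {j jp : Fin 4} {l : ℕ}
    (hel : Even ((-(qw S w n l)).1 + (-(qw S w n l)).2)) (hll : l < S.l * n)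
    (hflt : ∀ R : ℤ, 1 ≤ R → 4 * (R : ℝ) ≤ r * n →
        FltQ ((Mc j (-(qw S w n l)) hel).S (Dw S w n)) eta0 (0, 0) R false false)
    (hwp : ∀ R : ℤ, 1 ≤ R → 4 * (R : ℝ) ≤ rp * n →
      FltQ ((rk jp).S (Dw S w n)) eta0 ((rk jp).t (qw S w n 0)) R false false)
    (hfar : r * n ≤ 2 * (nm (qw S w n l - qw S w n 0) : ℝ) + 5)
    (hf0 : Bq' θ K (0, 0) (rN n e) fun w => θ * F0 χ (n * e) w)
    (hbpn : Bq' θ K ((rk jp).t (qw S w n 0)) (rN n ρ)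
          ((rk jp).F fun z => θ * cms (fb χp νp S.bp ρ) (1 / n) (z - ow w))) :
    |Ex (2 * Real.cos θ) (Dw S w n) eta0 (XG θ (qw S w n) (Dw S w n) (S.l * n)
          fun z => θ * cms (fb χp νp S.bp ρ) (1 / n) (z - ow w) -
            θ * F0 χ (n * e) ((Mc j (-(qw S w n l)) hel).t z)) -
        zN θ χ n e * Wl θ S w χp νp ρ n l| ≤
      C * (48 * th) ^ α * (Nf θ K P (rN n e) / Nf θ K P (rN n ρ)) := by
  have hn : (0 : ℝ) < n := by exact_mod_cast hn0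
  have hΛ' : (1 : ℝ) ≤ Λ := by exact_mod_cast hΛ
  obtain ⟨c1, c2⟩ := rN_bd b14
  obtain ⟨d1, d2⟩ := rN_bd b22
  -- the window
  obtain ⟨R, hRd⟩ : ∃ R : ℤ, R = ⌊(n : ℝ) * r / 8⌋ := ⟨_, rfl⟩
  have hR1 : (R : ℝ) ≤ n * r / 8 := by rw [hRd]; exact Int.floor_le _
  have hR2 : (n : ℝ) * r / 16 ≤ R := by
    have := Int.lt_floor_add_one ((n : ℝ) * r / 8)
    rw [← hRd] at this
    linarith
  have hner : (n : ℝ) * e ≤ th * (n * r) := by
    calc (n : ℝ) * e ≤ n * (th * r) := mul_le_mul_of_nonneg_left her hn.le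
      _ = th * (n * r) := by ring
  have hnρr : (n : ℝ) * ρ ≤ th * (n * r) := by
    calc (n : ℝ) * ρ ≤ n * (th * r) := mul_le_mul_of_nonneg_left hρr hn.le
      _ = th * (n * r) := by ring
  have hnρp : (n : ℝ) * ρ ≤ th * (n * rp) := by
    calc (n : ℝ) * ρ ≤ n * (th * rp) := mul_le_mul_of_nonneg_left hρp hn.le
      _ = th * (n * rp) := by ring
  have hnr : 0 < (n : ℝ) * r := by positivity
  have hnrp : 0 < (n : ℝ) * rp := by positivity
  have f1 : th * (n * r) ≤ 1 / 48 * (n * r) := mul_le_mul_of_nonneg_right e5 hnr.le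
  have f2 : th * (n * rp) ≤ 1 / 48 * (n * rp) := mul_le_mul_of_nonneg_right e5 hnrp.le
  have f3 : th * (n * r) ≤ 1 / (48 * Λ) * (n * r) := mul_le_mul_of_nonneg_right e6 hnr.le
  have hR0 : 0 < (R : ℝ) := by linarith
  have hc0 : (0 : ℝ) < rN n e := by linarith
  have g1 : Λ * rN n e ≤ R := by
    have h9 : (Λ : ℝ) * rN n e ≤ R := by
      have h10 : (Λ : ℝ) * rN n e ≤ Λ * (3 * (1 / (48 * Λ) * (n * r))) :=
        mul_le_mul_of_nonneg_left (by linarith) (by linarith)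
      have h11 : (Λ : ℝ) * (3 * (1 / (48 * Λ) * (n * r))) = n * r / 16 := by
        have : (Λ : ℝ) ≠ 0 := by positivity
        field_simp
        norm_num
      linarith
    exact_mod_cast h9
  have g2 : R ≤ (rN n e) ^ 2 := by
    have h9 : (R : ℝ) ≤ (rN n e : ℝ) ^ 2 := by
      have h10 : ((n : ℝ) * e) ^ 2 ≤ (rN n e : ℝ) ^ 2 :=
        pow_le_pow_left₀ (by positivity) (by linarith) 2
      have h11 : (n : ℝ) * r ≤ n * (n * (8 * e ^ 2)) := mul_le_mul_of_nonneg_left b4 hn.le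
      have h12 : (n : ℝ) * (n * (8 * e ^ 2)) = 8 * (n * e) ^ 2 := by ring
      linarith
    exact_mod_cast h9
  have g3 : 1 ≤ R := by
    have h9 : (1 : ℝ) ≤ R := by linarith
    exact_mod_cast h9
  have g4 : 4 * (R : ℝ) ≤ r * n := by linarith
  have g5 : 1 ≤ 2 * rN n ρ := by
    have h9 : (1 : ℝ) ≤ 2 * rN n ρ := by linarith
    exact_mod_cast h9
  have g6 : 4 * ((2 * rN n ρ : ℤ) : ℝ) ≤ rp * n := by
    push_cast
    linarith
  have g7 : 2 * rN n ρ + R + 3 ≤ nm (qw S w n 0 - qw S w n l) := by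
    have h9 : 2 * (rN n ρ : ℝ) + R + 3 ≤ nm (qw S w n 0 - qw S w n l) := by
      rw [H365.nm_comm]
      linarith
    exact_mod_cast h9
  have hunsn := huns (S.l * n) (qw S w n) (Dw S w n) (poly_w S w hn0) (encl_w S w hn0) j jp l hel
    (rN n e) R (rN n ρ) (fun z => θ * F0 χ (n * e) z)
    (fun z => θ * cms (fb χp νp S.bp ρ) (1 / n) (z - ow w)) hll.le (by linarith) (by linarith) g1 g2
    (hflt R g3 g4) (hwp (2 * rN n ρ) g5 g6) g7 hf0 hbpn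
  refine hunsn.trans (mul_le_mul_of_nonneg_right (mul_le_mul_of_nonneg_left
    (Real.rpow_le_rpow (by positivity) ?_ hα.le) hC.le) ?_)
  · rw [div_le_iff₀ hR0]
    have h9 : 48 * th * (n * r / 16) ≤ 48 * th * R := mul_le_mul_of_nonneg_left hR2 (by positivity)
    linarith
  · exact (div_pos (QB.Nf_pos _ _ _ _) (QB.Nf_pos _ _ _ _)).le

/-- The normalisation, one lattice. -/
theorem t_n {S : CA.Dat} {θ : ℝ} {w : Bool} {χp : ℂ → ℝ} {νp : ℂ} {ρ r c C N b : ℝ} {n l : ℕ}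
    (hN : 0 < N) (hc : 0 < c)
    (hW : ∀ l l' : ℕ, Okl S w n (r / 2) l → Okl S w n (r / 2) l' →
        c ≤ Wl θ S w χp νp ρ n l * N ∧ Wl θ S w χp νp ρ n l * N ≤ C ∧
        |Wl θ S w χp νp ρ n l - Wl θ S w χp νp ρ n l'| ≤ b * Wl θ S w χp νp ρ n l)
    (b3 : 96 ≤ n * r) (hEv : Evl S w n l)
    (hfar : r * n ≤ 2 * (nm (qw S w n l - qw S w n 0) : ℝ) + 5) :
    c ≤ Wl θ S w χp νp ρ n l * N ∧
      |Wl θ S w χp νp ρ n l - tW θ S w χp νp ρ n| ≤ b * Wl θ S w χp νp ρ n l := by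
  have hOk : ∀ l', Mxl S w n l' → Okl S w n (r / 2) l' := by
    intro l' h'
    refine ⟨h'.1, ?_⟩
    have h6 : (nm (qw S w n l - qw S w n 0) : ℝ) ≤ nm (qw S w n l' - qw S w n 0) := by
      exact_mod_cast h'.2 l hEv
    linarith
  have hOk1 : Okl S w n (r / 2) l := ⟨hEv, by linarith⟩
  refine ⟨(hW l l hOk1 hOk1).1, ?_⟩
  obtain ⟨l₁, hl₁, ht⟩ : ∃ l₁, Mxl S w n l₁ ∧ tW θ S w χp νp ρ n = Wl θ S w χp νp ρ n l₁ := by
    obtain ⟨l', h'⟩ := exists_mxl hEv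
    have h7 := (hW l' l' (hOk l' h') (hOk l' h')).1
    have hW0 : 0 < Wl θ S w χp νp ρ n l' := by
      by_contra hneg
      push Not at hneg
      have := mul_nonneg (neg_nonneg.2 hneg) hN.le
      linarith
    have hex : ∃ l, Mxl S w n l ∧ 0 < Wl θ S w χp νp ρ n l := ⟨l', h', hW0⟩
    refine ⟨Classical.choose hex, (Classical.choose_spec hex).1, ?_⟩
    unfold tW
    rw [dif_pos hex]
  rw [ht]
  exact (hW l l₁ hOk1 (hOk l₁ hl₁)).2.2

/-- The choice of the small constant. -/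
theorem exists_th {δ ε C Cw α αw τ1 τ2 : ℝ} {Λ : ℤ} (hΛ : 1 ≤ Λ) (hδ : 0 < δ) (hε : 0 < ε)
    (hα : 0 < α) (hαw : 0 < αw) (hτ1 : 0 < τ1) (hτ2 : 0 < τ2) :
    ∃ th : ℝ, 0 < th ∧ C * (48 * th) ^ α ≤ δ ∧
      Cw * (2 * th) ^ αw ≤ ε / 6 ∧ th ≤ τ1 ∧ th ≤ τ2 / 2 ∧ th ≤ 1 / 48 ∧ th ≤ 1 / (48 * Λ) := by
  have hΛ' : (1 : ℝ) ≤ Λ := by exact_mod_cast hΛ
  have h2 : ∀ x : ℝ, 0 < x → ∀ᶠ th in 𝓝[>] (0 : ℝ), th ≤ x := fun x hx => by
    filter_upwards [Ioo_mem_nhdsGT hx] with th hth using hth.2.le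
  have h3 : ∀ᶠ th in 𝓝[>] (0 : ℝ), 0 < th := by
    filter_upwards [Ioo_mem_nhdsGT one_pos] with th hth using hth.1
  exact (h3.and ((small_th hα hδ).and ((small_th hαw (by positivity)).and ((h2 _ hτ1).and
    ((h2 _ (by positivity)).and ((h2 _ (by norm_num)).and (h2 _ (by positivity)))))))).exists

/-- **The charge `- θ` at a flat point is invisible**, free (`w = false`) and wired (`w = true`)
family. -/
theorem locZ {S : CA.Dat} {θ β : ℝ} (h0 : 0 < θ) (h1 : θ ≤ Real.pi / 3)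
    (hβ : Real.cos (θ / 2 + β) = Real.sin θ) (hR : RSW (2 * Real.cos θ)) {P : Measure Cfg}
    (hP : IsLim (2 * Real.cos θ) P) (hU : S_unsM θ P) (w : Bool)
    {L : Filter ℕ} (hL : L ≤ atTop) (hc : L.IsCountablyGenerated) {η : ℕ → Cfg}
    (hη : ∀ᶠ n in L, Dob (η n) (S.D n) (qS S n) (kS S (bcw w) n))
    {χp : ℂ → ℝ} (hχp : Shp Complex.I χp) {νp : ℂ} {rp : ℝ} (hFp : Flat S.P S.bp νp rp)
    (hps : PSide θ P χp S νp rp w) {χ : ℂ → ℝ} (hχ : Shp Complex.I χ) :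
    LocZ θ ((bdG S θ β (bcw w) (bcw_in w S.l) L hL hc η hη).famB h0 h1 hβ) χp νp rp χ
      (zN θ χ) := by
  refine ⟨tW θ S w χp νp, fun ρ n => tW_pos θ S w χp νp ρ n, fun ε₀ hε₀ => ?_⟩
  obtain ⟨ε, hε, hε1, hεε⟩ : ∃ ε : ℝ, 0 < ε ∧ ε ≤ 1 ∧ ε ≤ ε₀ :=
    ⟨min ε₀ 1, by positivity, min_le_right _ _, min_le_left _ _⟩
  obtain ⟨Kp, hKp⟩ := hps
  obtain ⟨Kf, hKf1, hKf⟩ := bq_F0 hχ h0
  obtain ⟨Kz, hKz1, hKz⟩ := zN_bds h0 h1 hR hP hχ
  obtain ⟨K, hK1, hK2, hK3⟩ : ∃ K : ℝ, Kp ≤ K ∧ Kf ≤ K ∧ Kz ≤ K :=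
    ⟨max Kp (max Kf Kz), le_max_left _ _, (le_max_left _ _).trans (le_max_right _ _),
      (le_max_right _ _).trans (le_max_right _ _)⟩
  have hK : 1 ≤ K := hKf1.trans hK2
  obtain ⟨⟨τ1, hτ1, hbp⟩, cw, Cw, αw, τ2, hcw, hCw, hαw, hτ2, hW⟩ := hKp K hK1
  obtain ⟨cz, Cz, rz, hcz, hCz, hzb⟩ := hKz K hK3
  have hf0 := hKf K hK2
  obtain ⟨r0, Λ, α, C, hr0, hΛ, hα, hC, huns⟩ : ∃ (r0 : ℝ) (Λ : ℤ) (α C : ℝ), 1 ≤ r0 ∧ 1 ≤ Λ ∧
    0 < α ∧ 0 < C ∧ UnsF θ P K r0 Λ α C := uns_fix hU hK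
  have hδ : 0 < ε / 6 * (cz * cw) := by positivity
  obtain ⟨th, hth0, e1, e2, e3, e4, e5, e6⟩ := exists_th (C := C) (Cw := Cw) hΛ hδ hε hα hαw hτ1 hτ2
  refine ⟨th, hth0, fun ρ hρ hρp c ν r hF hb hρr e he her => ?_⟩
  have hrp := hFp.pos
  have hr := hF.pos
  obtain ⟨j, hj, hwc⟩ := H980.ND.win_c S hF hb
  obtain ⟨jp, hjp, hwp⟩ := H980.ND.win_p S hFp
  have hthr : th * r ≤ 1 / 48 * r := mul_le_mul_of_nonneg_right e5 hr.le
  have hthp : th * rp ≤ 1 / 48 * rp := mul_le_mul_of_nonneg_right e5 hrp.le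
  have her16 : 16 * e ≤ r := by linarith
  have hρrp : ρ < rp := by linarith
  obtain ⟨C1, hC1, hrep⟩ := rep_c h0 h1 hβ hR w hL hc hη hχ hχp hFp hρ hρrp hF he her16 hj
  obtain ⟨c3, hc3, hrat⟩ := nf_ratio (P := P) h0 h1 hR hP hK he hρ
  have hm1 : th * rp ≤ τ2 / 2 * rp := mul_le_mul_of_nonneg_right e4 hrp.le
  have hm2 : th * r ≤ τ2 / 2 * r := mul_le_mul_of_nonneg_right e4 hr.le
  have hm3 : 0 < τ2 * rp := by positivity
  have hmin : ρ ≤ τ2 * min rp (r / 2) := by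
    have a1 : ρ ≤ τ2 * rp := by linarith
    have a2 : ρ ≤ τ2 * (r / 2) := by linarith
    rcases min_choice rp (r / 2) with h | h <;> rw [h] <;> assumption
  have hmin0 : 0 < min rp (r / 2) := by positivity
  have hbb : Cw * (ρ / min rp (r / 2)) ^ αw ≤ ε / 6 := by
    refine le_trans (mul_le_mul_of_nonneg_left (Real.rpow_le_rpow (by positivity) ?_ hαw.le)
      hCw.le) e2
    rw [div_le_iff₀ hmin0]
    have a3 : 0 < th * rp := by positivity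
    rcases min_choice rp (r / 2) with h | h <;> rw [h] <;> linarith
  have hWn := hW (r / 2) ρ (by positivity) hρ hmin
  have hbpn := hbp ρ hρ (hρp.trans (mul_le_mul_of_nonneg_right e3 hrp.le)) jp hjp
  have big : ∀ (a x : ℝ), 0 < a → ∀ᶠ n : ℕ in atTop, x ≤ (n : ℝ) * a := fun a x ha =>
    (tendsto_natCast_atTop_atTop.atTop_mul_const ha).eventually_ge_atTop _
  filter_upwards [hrep, hL (hwc w), hL (hwp w), hL hrat, hL hWn, hL hbpn, hL (eventually_gt_atTop 0),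
    hL (big e (8 * K) he), hL (big e rz he), hL (big e r0 he), hL (big e 1 he), hL (big ρ r0 hρ),
    hL (big ρ 1 hρ), hL (big r 96 hr), hL (big (8 * e ^ 2) r (by positivity)),
    hL (big (ε * (cz * cw * c3)) (6 * C1) (by positivity))] with n hrep hwc hwp hrat hWn hbpn hn0
      b11 b12 b13 b14 b21 b22 b3 b4 b5
  have hn : (0 : ℝ) < n := by exact_mod_cast hn0
  obtain ⟨l, hel, hl0, hll, hnear, hflt⟩ := hwc
  have hfar := far_w hn0 hb hnear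
  have hEv : Evl S w n l := by
    refine ⟨hl0, hll, ?_⟩
    have h5 := hel.neg
    have e0 : -((-(qw S w n l)).1 + (-(qw S w n l)).2) = (qw S w n l).1 + (qw S w n l).2 := by
      simp only [Prod.fst_neg, Prod.snd_neg]; ring
    rwa [e0] at h5
  have hNp : 0 < Nf θ K P (rN n ρ) := QB.Nf_pos _ _ _ _
  have hNc : 0 < Nf θ K P (rN n e) := QB.Nf_pos _ _ _ _
  obtain ⟨g1, g2⟩ := t_n hNp hcw hWn b3 hEv hfar
  have hrepn := hrep l hel hnear hflt
  have hunsn := uns_n hΛ hα hC huns w hr hrp hth0 e5 e6 hρp hρr her he hn0 b13 b14 b21 b22 b3 b4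
    hel hll hflt hwp hfar (hf0 n e b11) hbpn
  have hfin := num_fin hε1 hn hNc hNp hcz hcw hrepn hunsn
    (hzb n e b12).1 g1 hrat (by linarith) e1 hbb g2
  refine hfin.trans (mul_le_mul_of_nonneg_right hεε ?_)
  have h7 := tW_pos θ S w χp νp ρ n
  have h8 : 0 < zN θ χ n e := lt_of_lt_of_le (by positivity) (hzb n e b12).1
  positivity

/-- **[Q-ND] (Q3) + (Q5)** for the free and the wired family of a lattice polygon, any outside
configurations. -/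
theorem ndz_of {S : CA.Dat} {θ β : ℝ} (h0 : 0 < θ) (h1 : θ ≤ Real.pi / 3)
    (hβ : Real.cos (θ / 2 + β) = Real.sin θ) (hR : RSW (2 * Real.cos θ)) {P : Measure Cfg}
    (hP : IsLim (2 * Real.cos θ) P) (hU : S_unsM θ P)
    {L : Filter ℕ} (hL : L ≤ atTop) (hc : L.IsCountablyGenerated) {η η' : ℕ → Cfg}
    (hη : ∀ᶠ n in L, Dob (η n) (S.D n) (qS S n) (kS S .free n))
    (hη' : ∀ᶠ n in L, Dob (η' n) (S.D n) (qS S n) (kS S .wired n))
    {χp : ℂ → ℝ} (hχp : Shp Complex.I χp) {νp : ℂ} {rp : ℝ} (hFp : Flat S.P S.bp νp rp)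
    (hps : ∀ w, PSide θ P χp S νp rp w) :
    NDz θ ((bdG S θ β .free trivial L hL hc η hη).famB h0 h1 hβ)
      ((bdG S θ β .wired trivial L hL hc η' hη').famB h0 h1 hβ) νp rp χp (zN θ) :=
  fun _ hχ => ⟨locZ h0 h1 hβ hR hP hU false hL hc hη hχp hFp (hps false) hχ,
    locZ h0 h1 hβ hR hP hU true hL hc hη' hχp hFp (hps true) hχ⟩

end Vale.Agent.P167.H411.Q
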