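import Vale.Agent.P167.H411.Q.Kind
import Vale.Agent.P167.H411.Q.CDefs

/-!
# P167, general `q`, block Q-ND (CONT): the movements

The movement `Mc j a` (translation by the even vector `a`, then rotation by `j` right angles).
-/

namespace Vale.Agent.P167.H411.Q

open Finset Vale.Agent.P167 Vale.Agent.P167.BR Vale.Agent.P167.FK
open Vale.Agent.P167.H135 (Mov rk tra)
open Vale.Agent.P167.H562.QM (FltQ)
open Vale.Agent.P167.QB (Bq')
open Vale.Agent.P167.H562.MAJ (core mem_core)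

theorem rk_cases {p : Fin 4 → Prop} (h0 : p 0) (h1 : p 1) (h2 : p 2) (h3 : p 3) (j : Fin 4) : p j := by
  fin_cases j <;> assumption

theorem rk_t_add (j : Fin 4) (z u : ℤ × ℤ) : (rk j).t (z + u) = (rk j).t z + (rk j).t u :=
  H135.rk_add j z u

theorem rk_s_add (j : Fin 4) (v u : ℤ × ℤ) : (rk j).s (v + u) = (rk j).s v + (rk j).t u := by
  revert j
  refine rk_cases ?_ ?_ ?_ ?_
  · rw [H135.rk0_s, H135.rk0_s, H135.rk0_t]
  · rw [H135.rk1_s, H135.rk1_s, H135.rk1_t]; ext <;> simp <;> ring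
  · rw [H135.rk2_s, H135.rk2_s, H135.rk2_t]; ext <;> simp <;> ring
  · rw [H135.rk3_s, H135.rk3_s, H135.rk3_t]; ext <;> simp; ring

theorem rk_rk_t (i j : Fin 4) (z : ℤ × ℤ) : (rk i).t ((rk j).t z) = (rk (j + i)).t z := by
  obtain ⟨x, y⟩ := z
  revert i j
  refine rk_cases ?_ ?_ ?_ ?_ <;> refine rk_cases ?_ ?_ ?_ ?_ <;>
    simp only [H135.rk0_t, H135.rk1_t, H135.rk2_t, H135.rk3_t, neg_neg, zero_add, add_zero,
      show (1 : Fin 4) + 1 = 2 from rfl, show (1 : Fin 4) + 2 = 3 from rfl,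
      show (1 : Fin 4) + 3 = 0 from rfl, show (2 : Fin 4) + 1 = 3 from rfl,
      show (2 : Fin 4) + 2 = 0 from rfl, show (2 : Fin 4) + 3 = 1 from rfl,
      show (3 : Fin 4) + 1 = 0 from rfl, show (3 : Fin 4) + 2 = 1 from rfl,
      show (3 : Fin 4) + 3 = 2 from rfl]

theorem rk_rk_s (i j : Fin 4) (z : ℤ × ℤ) : (rk i).s ((rk j).s z) = (rk (j + i)).s z := by
  obtain ⟨x, y⟩ := z
  revert i j
  refine rk_cases ?_ ?_ ?_ ?_ <;> refine rk_cases ?_ ?_ ?_ ?_ <;>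
    simp only [H135.rk0_s, H135.rk1_s, H135.rk2_s, H135.rk3_s, neg_neg, zero_add, add_zero,
      show (1 : Fin 4) + 1 = 2 from rfl, show (1 : Fin 4) + 2 = 3 from rfl,
      show (1 : Fin 4) + 3 = 0 from rfl, show (2 : Fin 4) + 1 = 3 from rfl,
      show (2 : Fin 4) + 2 = 0 from rfl, show (2 : Fin 4) + 3 = 1 from rfl,
      show (3 : Fin 4) + 1 = 0 from rfl, show (3 : Fin 4) + 2 = 1 from rfl,
      show (3 : Fin 4) + 3 = 2 from rfl] <;> ext <;> simp

/-- The movement: first the translation by `a`, then the rotation. -/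
noncomputable def Mc (j : Fin 4) (a : ℤ × ℤ) (ha : Even (a.1 + a.2)) : Mov := (tra a ha).trans (rk j)

section

variable {i j : Fin 4} {a : ℤ × ℤ} (ha : Even (a.1 + a.2)) {D : Finset (ℤ × ℤ)}

theorem Mc_t (z : ℤ × ℤ) : (Mc j a ha).t z = (rk j).t (z + a) := rfl

theorem Mc_s (v : ℤ × ℤ) : (Mc j a ha).s v = (rk j).s (v + a) := rfl

theorem rk_Mc_t (z : ℤ × ℤ) : (rk i).t ((Mc j a ha).t z) = (rk (j + i)).t z + (rk (j + i)).t a := by
  rw [Mc_t, rk_rk_t, rk_t_add]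

theorem rk_Mc_s (v : ℤ × ℤ) : (rk i).s ((Mc j a ha).s v) = (rk (j + i)).s v + (rk (j + i)).t a := by
  rw [Mc_s, rk_rk_s, rk_s_add]

theorem c_eta0 (M : Mov) : M.c eta0 = eta0 := rfl

/-- The domain in the two frames. -/
theorem mem_rk_Mc {v : ℤ × ℤ} : v ∈ (rk i).S ((Mc j a ha).S D) ↔
    v - (rk (j + i)).t a ∈ (rk (j + i)).S D := by
  obtain ⟨u, rfl⟩ := (rk i).s.surjective v
  obtain ⟨u, rfl⟩ := (Mc j a ha).s.surjective u
  rw [Mov.mem_S, Mov.mem_S, rk_Mc_s, add_sub_cancel_right, Mov.mem_S]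

theorem fltQ_rk {b : ℤ × ℤ} {R : ℤ} (h : FltQ ((rk (j + i)).S D) eta0 ((rk (j + i)).t b) R false false) :
    FltQ ((rk i).S ((Mc j a ha).S D)) ((rk i).c eta0) ((rk i).t ((Mc j a ha).t b)) R false false where
  dom v hv := by
    rw [mem_rk_Mc, h.dom _ (by
      rw [rk_Mc_t] at hv
      have e : v - (rk (j + i)).t a - (rk (j + i)).t b = v - ((rk (j + i)).t b + (rk (j + i)).t a) := by
        abel
      rwa [e]), rk_Mc_t]
    simp only [Prod.snd_sub, Prod.snd_add]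
    omega
  out v _ _ := by
    rw [c_eta0]
    simp [eta0]

theorem rk_F (f : ℤ × ℤ → ℝ) (z : ℤ × ℤ) :
    (rk i).F ((Mc j a ha).F f) z = (rk (j + i)).F f (z - (rk (j + i)).t a) := by
  obtain ⟨u, rfl⟩ := (rk i).t.surjective z
  obtain ⟨u, rfl⟩ := (Mc j a ha).t.surjective u
  unfold Mov.F
  rw [Equiv.symm_apply_apply, Equiv.symm_apply_apply, rk_Mc_t, add_sub_cancel_right,
    Equiv.symm_apply_apply]

/-- Translation of an admissible bump. -/
theorem bq_tr {θ K : ℝ} {b u : ℤ × ℤ} {r : ℤ} {f g : ℤ × ℤ → ℝ} (h : Bq' θ K b r f)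
    (hg : ∀ z, g z = f (z - u)) : Bq' θ K (b + u) r g := by
  have e : g = fun z => f ((Equiv.subRight u) z) := funext hg
  refine ⟨fun z => by rw [hg]; exact h.nonneg _, fun z => by rw [hg]; exact h.le _, fun z hz => ?_, ?_⟩
  · rw [hg] at hz
    have h1 := h.supp _ hz
    rw [mem_sites] at h1 ⊢
    obtain ⟨v, hv, h2, h3⟩ := h1
    rw [mem_core] at hv
    refine ⟨v + u, ?_, ?_, ?_⟩
    · rw [mem_core]
      simp only [Prod.fst_add, Prod.snd_add]
      omega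
    · simp only [Prod.fst_sub, Prod.fst_add] at h2 ⊢
      omega
    · simp only [Prod.snd_sub, Prod.snd_add] at h3 ⊢
      omega
  · rw [e, finsum_comp_equiv (Equiv.subRight u) (f := f)]
    exact h.sum

theorem bq_rk {θ K : ℝ} {b : ℤ × ℤ} {r : ℤ} {f : ℤ × ℤ → ℝ}
    (h : Bq' θ K ((rk (j + i)).t b) r ((rk (j + i)).F f)) :
    Bq' θ K ((rk i).t ((Mc j a ha).t b)) r ((rk i).F ((Mc j a ha).F f)) := by
  rw [rk_Mc_t]
  exact bq_tr h fun z => rk_F ha f z

end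

end Vale.Agent.P167.H411.Q
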