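import Vale.Agent.P167.H411.Q.Fin

/-!
# P167, general `q`: output of the block Q-ID (calculus, [Q-CALC])

For flat points `c = ψ(x_c)`, `d = ψ(x_d)` of the free arc,
`log V^Dob_n(- μ φ_{c,η} + μ φ_{d,η'}) = log z(n,η) - log z(n,η') + h (log η' + J / 2)
  + e log (x_c / x_d) + h log (D / |x_d - x_c|) + O(ε)`,
`e = μ / π`, `h = 2 μ² / (π (π - μ))`, `D = 1 / |ψ'(x_d)|`.
-/

open Set Metric Filter Topology MeasureTheory Bornology
open scoped ComplexConjugate ContDiff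

namespace Vale.Agent.P167.H411.Q

open Vale.Agent.P153.R2.R1 Vale.Agent.P167.H411.B7
open Vale.Agent.P167.BVP (Flat Test lpot npot)
open Vale.Agent.P167.CA (Dat Pair)
open Vale.Agent.P167.CAQ (Fam Arc PotLim)

theorem flat_le {P : Set ℂ} {q ν : ℂ} {r r' : ℝ} (hF : Flat P q ν r) (h0 : 0 < r') (h : r' ≤ r) :
    Flat P q ν r' :=
  ⟨hF.norm, h0, fun z hz => hF.mem z (ball_subset_ball h hz)⟩

/-- The arithmetic of the output. -/
theorem alg_out {μ s l UD UF Uc Ud Ecc Ecd Edd Ecp Edp Epp lc ld zc zd t Lc Ld Lcd Ldd e₀ e₁ e₂ e₃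
    e₄ e₅ : ℝ} (hμ : 0 < μ) (hs : 0 < s)
    (h1 : |l - μ * UD + s / 2 * μ ^ 2 * (Ecc - 2 * Ecd + Edd)| ≤ e₀)
    (h2 : |UD - UF - 1 / Real.pi * (lc - ld)| ≤ e₀)
    (h3 : UF = Uc - Ud)
    (h4 : |μ * Uc - s / 2 * μ ^ 2 * (Ecc - 2 * Ecp + Epp) - (t + zc)| ≤ 3 * e₀)
    (h5 : |μ * Ud - s / 2 * μ ^ 2 * (Edd - 2 * Edp + Epp) - (t + zd)| ≤ 3 * e₀)
    (h6 : |Ecp - Edp| ≤ e₁) (h7 : |Ecd + 1 / Real.pi * Lcd| ≤ e₂)
    (h8 : |Edd + 1 / (2 * Real.pi) * Ldd| ≤ e₃) (h9 : |lc - Lc| ≤ e₄) (h10 : |ld - Ld| ≤ e₅) :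
    |l - (zc - zd + μ / Real.pi * (Lc - Ld) +
      s * μ ^ 2 / Real.pi * (Ldd / 2 - Lcd))| ≤
      (7 + μ) * e₀ + s * μ ^ 2 * (e₁ + e₂ + e₃) + μ / Real.pi * (e₄ + e₅) := by
  have hπ := Real.pi_pos
  subst h3
  have e : l - (zc - zd + μ / Real.pi * (Lc - Ld) + s * μ ^ 2 / Real.pi * (Ldd / 2 - Lcd)) =
      (l - μ * UD + s / 2 * μ ^ 2 * (Ecc - 2 * Ecd + Edd)) +
      μ * (UD - (Uc - Ud) - 1 / Real.pi * (lc - ld)) +
      (μ * Uc - s / 2 * μ ^ 2 * (Ecc - 2 * Ecp + Epp) - (t + zc)) -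
      (μ * Ud - s / 2 * μ ^ 2 * (Edd - 2 * Edp + Epp) - (t + zd)) -
      s * μ ^ 2 * (Ecp - Edp) + s * μ ^ 2 * (Ecd + 1 / Real.pi * Lcd) -
      s * μ ^ 2 * (Edd + 1 / (2 * Real.pi) * Ldd) + μ / Real.pi * (lc - Lc) -
      μ / Real.pi * (ld - Ld) := by
    field_simp
    ring
  have hA : 0 < s * μ ^ 2 := by positivity
  have hB : 0 < μ / Real.pi := by positivity
  have k2 : |μ * (UD - (Uc - Ud) - 1 / Real.pi * (lc - ld))| ≤ μ * e₀ := by
    rw [abs_mul, abs_of_pos hμ]; exact mul_le_mul_of_nonneg_left h2 hμ.le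
  have k6 : |s * μ ^ 2 * (Ecp - Edp)| ≤ s * μ ^ 2 * e₁ := by
    rw [abs_mul, abs_of_pos hA]; exact mul_le_mul_of_nonneg_left h6 hA.le
  have k7 : |s * μ ^ 2 * (Ecd + 1 / Real.pi * Lcd)| ≤ s * μ ^ 2 * e₂ := by
    rw [abs_mul, abs_of_pos hA]; exact mul_le_mul_of_nonneg_left h7 hA.le
  have k8 : |s * μ ^ 2 * (Edd + 1 / (2 * Real.pi) * Ldd)| ≤ s * μ ^ 2 * e₃ := by
    rw [abs_mul, abs_of_pos hA]; exact mul_le_mul_of_nonneg_left h8 hA.le
  have k9 : |μ / Real.pi * (lc - Lc)| ≤ μ / Real.pi * e₄ := by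
    rw [abs_mul, abs_of_pos hB]; exact mul_le_mul_of_nonneg_left h9 hB.le
  have k10 : |μ / Real.pi * (ld - Ld)| ≤ μ / Real.pi * e₅ := by
    rw [abs_mul, abs_of_pos hB]; exact mul_le_mul_of_nonneg_left h10 hB.le
  rw [e]
  generalize l - μ * UD + s / 2 * μ ^ 2 * (Ecc - 2 * Ecd + Edd) = a1 at *
  generalize μ * (UD - (Uc - Ud) - 1 / Real.pi * (lc - ld)) = a2 at *
  generalize μ * Uc - s / 2 * μ ^ 2 * (Ecc - 2 * Ecp + Epp) - (t + zc) = a3 at *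
  generalize μ * Ud - s / 2 * μ ^ 2 * (Edd - 2 * Edp + Epp) - (t + zd) = a4 at *
  generalize s * μ ^ 2 * (Ecp - Edp) = a5 at *
  generalize s * μ ^ 2 * (Ecd + 1 / Real.pi * Lcd) = a6 at *
  generalize s * μ ^ 2 * (Edd + 1 / (2 * Real.pi) * Ldd) = a7 at *
  generalize μ / Real.pi * (lc - Lc) = a8 at *
  generalize μ / Real.pi * (ld - Ld) = a9 at *
  rw [abs_le] at h1 k2 h4 h5 k6 k7 k8 k9 k10 ⊢
  obtain ⟨h11, h12⟩ := h1
  obtain ⟨k21, k22⟩ := k2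
  obtain ⟨h41, h42⟩ := h4
  obtain ⟨h51, h52⟩ := h5
  obtain ⟨k61, k62⟩ := k6
  obtain ⟨k71, k72⟩ := k7
  obtain ⟨k81, k82⟩ := k8
  obtain ⟨k91, k92⟩ := k9
  obtain ⟨k101, k102⟩ := k10
  constructor <;> linarith

/-- Two flat marks. -/
structure Marks (S : Dat) (a : ℂ) (ψ : ℂ → ℂ) (c νc : ℂ) (rc : ℝ) (d νd : ℂ) (rd : ℝ) (xc xd : ℝ)
    (d' : ℂ) : Prop where
  flatC : Flat S.P c νc rc
  flatD : Flat S.P d νd rd
  pC : S.bp ∉ ball c rc
  pD : S.bp ∉ ball d rd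
  aC : a ∉ ball c rc
  aD : a ∉ ball d rd
  cD : c ∉ ball d rd
  dC : d ∉ ball c rc
  xC : ψ xc = c
  xD : ψ xd = d
  der : HasDerivWithinAt ψ d' {z | 0 ≤ z.im} xd

variable {S : Dat} {a : ℂ} {ψ : ℂ → ℂ} {c νc : ℂ} {rc : ℝ} {d νd : ℂ} {rd : ℝ} {xc xd : ℝ} {d' : ℂ}

theorem Marks.distC (hM : Marks S a ψ c νc rc d νd rd xc xd d') : rc ≤ dist c S.bp := by
  have := hM.pC
  rw [mem_ball, not_lt, dist_comm] at this
  exact this

theorem Marks.distD (hM : Marks S a ψ c νc rc d νd rd xc xd d') : rd ≤ dist d S.bp := by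
  have := hM.pD
  rw [mem_ball, not_lt, dist_comm] at this
  exact this

/-- The bumps at the marks are far from the base point. -/
theorem far_bp {P : Set ℂ} {q p : ℂ} {η r r' : ℝ} {φ : ℂ → ℝ} (hφ : Bp P q η φ)
    (hd : r ≤ dist q p) (hη : η ≤ r / 2) (hr : r' ≤ r / 2) : tsupport φ ⊆ P \ ball p r' := by
  intro z hz
  obtain ⟨h1, h2⟩ := hφ.sub hz
  refine ⟨h1, fun hb => ?_⟩
  rw [mem_closedBall] at h2
  rw [mem_ball] at hb
  have h3 := dist_triangle q z p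
  rw [dist_comm q z] at h3
  linarith

/-- The mutual energies with a bump at the base point. -/
theorem en_p_close (h : IsU ψ S.P a S.bp) (hinj : InjOn ψ {z | 0 ≤ z.im})
    (hne : ∀ z : ℂ, 0 ≤ z.im → ψ z ≠ S.bp) {ν : ℂ} {r ρ : ℝ} {φ φ' φp : ℂ → ℝ} {q q' : ℂ} {η η' : ℝ}
    (hF : Flat S.P S.bp ν r) (ha : a ∉ ball S.bp r) (hρ : ρ ≤ r / 8400) (hφp : Bp S.P S.bp ρ φp)
    (hφ : Bp S.P q η φ) (hφ' : Bp S.P q' η' φ') (hs : tsupport φ ⊆ S.P \ ball S.bp r)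
    (hs' : tsupport φ' ⊆ S.P \ ball S.bp r) :
    |CA.en (ginv ψ) φ φp - CA.en (ginv ψ) φ' φp| ≤ 26 * (ρ / r) := by
  have h1 : |CA.en (ginv ψ) φ φp + 1 / (2 * Real.pi) * ((∫ z, φ z) * lg ψ φp)| ≤
      13 * (ρ / r) * ∫ z, |φ z| := en_hp h hinj hne hF ha hρ hφp hφ.test hs
  have h2 : |CA.en (ginv ψ) φ' φp + 1 / (2 * Real.pi) * ((∫ z, φ' z) * lg ψ φp)| ≤
      13 * (ρ / r) * ∫ z, |φ' z| := en_hp h hinj hne hF ha hρ hφp hφ'.test hs'
  rw [hφ.mass, hφ.abs] at h1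
  rw [hφ'.mass, hφ'.abs] at h2
  rw [abs_le] at h1 h2 ⊢
  constructor <;> linarith [h1.1, h1.2, h2.1, h2.2]

/-- **Output**: the functional of the Dobrushin polygon with the charges `- μ` at `c`, `+ μ` at `d`. -/
theorem out_log {μ : ℝ} {FD FF FW : Fam S} {νa νp : ℂ} {ra rp : ℝ}
    (hT : Tri μ S FD FF FW a νa ra νp rp) (cD : FD.CORE) (cF : FF.CORE)
    {χp χ : ℂ → ℝ} (hχp : Shp Complex.I χp) (hχ : Shp Complex.I χ) {z : ℕ → ℝ → ℝ}
    (hz : LocZ μ FF χp νp rp χ z)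
    (h : IsU ψ S.P a S.bp) (hinj : InjOn ψ {z | 0 ≤ z.im})
    (hne : ∀ z : ℂ, 0 ≤ z.im → ψ z ≠ S.bp)
    (hid : ∀ f, S.FF f → Tendsto (fun n : ℕ => FD.U n f - FF.U n f) FD.L
      (𝓝 (1 / Real.pi * ∫ z, f z * Real.log ‖ginv ψ z‖)))
    (hM : Marks S a ψ c νc rc d νd rd xc xd d') {ε : ℝ} (hε : 0 < ε) :
    ∃ θ > 0, ∀ η η' : ℝ, 0 < η → η ≤ θ → 0 < η' → η' ≤ θ → ∀ᶠ n : ℕ in FD.L,
      0 < FD.V n (fun w => -μ * fb χ νc c η w + μ * fb χ νd d η' w) ∧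
      |Real.log (FD.V n (fun w => -μ * fb χ νc c η w + μ * fb χ νd d η' w)) -
        (Real.log (z n η) - Real.log (z n η') +
          μ / Real.pi * (Real.log |xc| - Real.log |xd|) +
          2 / (Real.pi - μ) * μ ^ 2 / Real.pi *
            ((-2 * Real.log ‖d'‖ + (2 * Real.log η' + JJ 0 Complex.I χ χ)) / 2 -
              Real.log |xc - xd|))| ≤ ε := by
  have hμ := hT.mu0
  have hμ1 := hT.mu1
  have hπ := Real.pi_pos
  have hs0 : 0 < 2 / (Real.pi - μ) := by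
    have : 0 < Real.pi - μ := by linarith
    positivity
  set s : ℝ := 2 / (Real.pi - μ) with hs
  have hP := pair_of_isU h hinj
  have hg := ginv_conf h hinj
  have hrc := hM.flatC.pos
  have hrd := hM.flatD.pos
  have hrp := hT.flatP.pos
  set A : ℝ := s * μ ^ 2 with hA
  have hA0 : 0 < A := by positivity
  set e₀ : ℝ := min (1 / 2) (ε / (4 * (7 + μ))) with he₀
  have he₀0 : 0 < e₀ := by positivity
  have he₀1 : (7 + μ) * e₀ ≤ ε / 4 := by
    have : e₀ ≤ ε / (4 * (7 + μ)) := min_le_right _ _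
    rw [le_div_iff₀ (by positivity)] at this
    linarith
  obtain ⟨t, ht, hloc⟩ := hz
  obtain ⟨θ₁, hθ₁, hloc⟩ := hloc e₀ he₀0
  -- the radius at `p`
  set r : ℝ := min rp (min (rc / 2) (rd / 2)) with hr
  have hr0 : 0 < r := by positivity
  have hr1 : r ≤ rp := min_le_left _ _
  have hr2 : r ≤ rc / 2 := (min_le_right _ _).trans (min_le_left _ _)
  have hr3 : r ≤ rd / 2 := (min_le_right _ _).trans (min_le_right _ _)
  have hFp := flat_le hT.flatP hr0 hr1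
  have hap : a ∉ ball S.bp r := fun hx => hT.offP (ball_subset_ball hr1 hx)
  -- the scale at `p`
  set ρ : ℝ := min (θ₁ * r) (min (r / 8400) (ε * r / (104 * A))) with hρ
  have hρ0 : 0 < ρ := by positivity
  have hρ1 : ρ ≤ θ₁ * r := min_le_left _ _
  have hρ2 : ρ ≤ r / 8400 := (min_le_right _ _).trans (min_le_left _ _)
  have hρ3 : A * (26 * (ρ / r)) ≤ ε / 4 := by
    have h1 : ρ ≤ ε * r / (104 * A) := (min_le_right _ _).trans (min_le_right _ _)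
    rw [le_div_iff₀ (by positivity)] at h1
    rw [mul_div_assoc', mul_div_assoc', div_le_iff₀ hr0]
    linarith
  have hρr : ρ < r := by linarith
  have hφp := fb_bp hχp hFp hρ0 hρr
  -- the scales at the marks
  set θ : ℝ := min (min (θ₁ * rc) (θ₁ * rd)) (min (min (rc / 8400) (rd / 8400))
    (min (ε * rc / (4 * (A * 13 + μ / Real.pi * 40)))
      (ε * rd / (4 * (A * 2713 + μ / Real.pi * 40))))) with hθ
  have hθ0 : 0 < θ := by positivity
  have i1 : θ ≤ θ₁ * rc := (min_le_left _ _).trans (min_le_left _ _)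
  have i2 : θ ≤ θ₁ * rd := (min_le_left _ _).trans (min_le_right _ _)
  have i3 : θ ≤ rc / 8400 := (min_le_right _ _).trans ((min_le_left _ _).trans (min_le_left _ _))
  have i4 : θ ≤ rd / 8400 := (min_le_right _ _).trans ((min_le_left _ _).trans (min_le_right _ _))
  have i5 : θ ≤ ε * rc / (4 * (A * 13 + μ / Real.pi * 40)) :=
    (min_le_right _ _).trans ((min_le_right _ _).trans (min_le_left _ _))
  have i6 : θ ≤ ε * rd / (4 * (A * 2713 + μ / Real.pi * 40)) :=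
    (min_le_right _ _).trans ((min_le_right _ _).trans (min_le_right _ _))
  clear_value θ ρ r e₀ A
  refine ⟨θ, hθ0, fun η η' hη hηθ hη' hη'θ => ?_⟩
  have j1 : η ≤ rc / 8400 := hηθ.trans i3
  have j2 : η' ≤ rd / 8400 := hη'θ.trans i4
  have hφ := fb_bp hχ hM.flatC hη (by linarith)
  have hφ' := fb_bp hχ hM.flatD hη' (by linarith)
  have hJ := JJ_fb hχ (c := d) hM.flatD.norm hη'
  have a1 := hloc ρ hρ0 (hρ1.trans (mul_le_mul_of_nonneg_left hr1 hθ₁.le)) c νc rc hM.flatC hM.pC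
    (hρ1.trans (mul_le_mul_of_nonneg_left (by linarith) hθ₁.le)) η hη (hηθ.trans i1)
  have a2 := hloc ρ hρ0 (hρ1.trans (mul_le_mul_of_nonneg_left hr1 hθ₁.le)) d νd rd hM.flatD hM.pD
    (hρ1.trans (mul_le_mul_of_nonneg_left (by linarith) hθ₁.le)) η' hη' (hη'θ.trans i2)
  generalize fb χ νc c η = φ at *
  generalize fb χ νd d η' = φ' at *
  generalize fb χp νp S.bp ρ = φp at *
  have hff : S.FF fun z => φ z - φ' z := ff_of hφ.test hφ'.test (by rw [hφ.mass, hφ'.mass])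
  have hfc : S.FF fun z => φ z - φp z := ff_of hφ.test hφp.test (by rw [hφ.mass, hφp.mass])
  have hfd : S.FF fun z => φ' z - φp z := ff_of hφ'.test hφp.test (by rw [hφ'.mass, hφp.mass])
  have e1 : (fun w => -μ * φ w + μ * φp w) = fun w => -μ * (φ w - φp w) := by funext w; ring
  have e2 : (fun w => -μ * φ' w + μ * φp w) = fun w => -μ * (φ' w - φp w) := by funext w; ring
  have e3 : (fun w => -μ * φ w + μ * φ' w) = fun w => -μ * (φ w - φ' w) := by funext w; ring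
  rw [e1] at a1
  rw [e2] at a2
  rw [e3]
  have b1 := U_of_loc cF hP hfc he₀0 (by rw [he₀]; exact min_le_left _ _) a1
  have b2 := U_of_loc cF hP hfd he₀0 (by rw [he₀]; exact min_le_left _ _) a2
  rw [hT.LF, hT.sF] at b1 b2
  have hf' := CA.FF.smul hff (-μ)
  have c1 := (log_V cD hP hf').eventually (Metric.ball_mem_nhds 0 he₀0)
  obtain ⟨k, K, hk, c2⟩ := CAQ.V_bounds cD hP hf'
  have c3 := (hid _ hff).eventually (Metric.ball_mem_nhds _ he₀0)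
  -- energies
  have hlin : ∀ (F : Fam S) (n : ℕ) {f k : ℂ → ℝ}, Test S.P f → Test S.P k →
      F.U n (fun z => f z - k z) = F.U n f - F.U n k := fun F n f k hf hk =>
    CAQ.U_sub F n (integrable_test hf) (integrable_test hk)
  have g1 := en_diff hg hφ.test hφp.test
  have g2 := en_diff hg hφ'.test hφp.test
  have g3 := en_diff hg hφ.test hφ'.test
  have g4 := en_p_close h hinj hne hFp hap hρ2 hφp hφ hφ'
    (far_bp hφ hM.distC (by linarith) hr2) (far_bp hφ' hM.distD (by linarith) hr3)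
  have g5 : |CA.en (ginv ψ) φ φ' + 1 / Real.pi * Real.log ‖ginv ψ c - ginv ψ d‖| ≤
      13 * (η / rc + η' / rd) := en_ab h hinj hM.flatC hM.flatD hM.pC hM.pD hM.dC hM.cD j1 j2 hφ hφ'
  have g6 : |CA.en (ginv ψ) φ' φ' + 1 / (2 * Real.pi) * (-2 * Real.log ‖d'‖ + JJ d νd φ' φ')| ≤
      2700 * (η' / rd) := en_bb h hinj hM.flatD hM.pD j2 hφ' hφ' hM.xD hM.der
  have g7 := ll_c h hinj hM.flatC hM.pC hM.aC j1 hφ
  have g8 := ll_c h hinj hM.flatD hM.pD hM.aD j2 hφ'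
  have xc' : ginv ψ c = xc := by rw [← hM.xC]; exact ginv_apply hinj (by simp)
  have xd' : ginv ψ d = xd := by rw [← hM.xD]; exact ginv_apply hinj (by simp)
  rw [xc', xd', ← Complex.ofReal_sub, Complex.norm_real, Real.norm_eq_abs] at g5
  rw [xc', Complex.norm_real, Real.norm_eq_abs] at g7
  rw [xd', Complex.norm_real, Real.norm_eq_abs] at g8
  rw [hJ] at g6
  have g9 : ∫ z, (φ z - φ' z) * Real.log ‖ginv ψ z‖ = ll ψ φ - ll ψ φ' := by
    unfold ll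
    rw [← integral_sub (int_ll h hinj hφ.test) (int_ll h hinj hφ'.test)]
    refine integral_congr_ae (Eventually.of_forall fun z => ?_)
    simp only
    ring
  rw [g9] at c3
  filter_upwards [b1, b2, c1, c2, c3] with n hb1 hb2 hc1 hc2 hc3
  obtain ⟨p1, q1⟩ := hb1
  obtain ⟨p2, q2⟩ := hb2
  refine ⟨hk.trans_le hc2.1, ?_⟩
  have z1 : z n η ≠ 0 := fun h0 => by rw [h0, mul_zero] at p1; exact lt_irrefl _ p1
  have z2 : z n η' ≠ 0 := fun h0 => by rw [h0, mul_zero] at p2; exact lt_irrefl _ p2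
  rw [Real.log_mul (ht ρ n).ne' z1, hlin FF n hφ.test hφp.test, g1] at q1
  rw [Real.log_mul (ht ρ n).ne' z2, hlin FF n hφ'.test hφp.test, g2] at q2
  rw [dist_zero_right, Real.norm_eq_abs, CAQ.U_smul, CA.en_smul, g3, hT.sD] at hc1
  rw [Real.dist_eq] at hc3
  have k1 := alg_out (l := Real.log (FD.V n fun w => -μ * (φ w - φ' w)))
    (UD := FD.U n fun z => φ z - φ' z) (UF := FF.U n fun z => φ z - φ' z)
    (Uc := FF.U n φ - FF.U n φp) (Ud := FF.U n φ' - FF.U n φp)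
    (t := Real.log (t ρ n)) (zc := Real.log (z n η)) (zd := Real.log (z n η')) (e₀ := e₀) hμ hs0
    (by
      have e : Real.log (FD.V n fun w => -μ * (φ w - φ' w)) - μ * FD.U n (fun z => φ z - φ' z) +
          s / 2 * μ ^ 2 * (CA.en (ginv ψ) φ φ - 2 * CA.en (ginv ψ) φ φ' + CA.en (ginv ψ) φ' φ') =
          Real.log (FD.V n fun w => -μ * (φ w - φ' w)) + -μ * FD.U n (fun z => φ z - φ' z) +
          s / 2 * ((-μ) ^ 2 *
            (CA.en (ginv ψ) φ φ - 2 * CA.en (ginv ψ) φ φ' + CA.en (ginv ψ) φ' φ')) := by ring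
      rw [e]; exact hc1.le)
    hc3.le (by rw [hlin FF n hφ.test hφ'.test]; ring) q1 q2 g4 g5 g6 g7 g8
  rw [← hA] at k1
  refine k1.trans ?_
  have w0 : 0 < μ / Real.pi := by positivity
  have w1 : (A * 13 + μ / Real.pi * 40) * (η / rc) ≤ ε / 4 := by
    have h1 := hηθ.trans i5
    rw [le_div_iff₀ (by positivity)] at h1
    rw [mul_div_assoc', div_le_iff₀ hrc]
    linarith
  have w2 : (A * 2713 + μ / Real.pi * 40) * (η' / rd) ≤ ε / 4 := by
    have h1 := hη'θ.trans i6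
    rw [le_div_iff₀ (by positivity)] at h1
    rw [mul_div_assoc', div_le_iff₀ hrd]
    linarith
  have w3 : (7 + μ) * e₀ + A * (26 * (ρ / r) + 13 * (η / rc + η' / rd) + 2700 * (η' / rd)) +
      μ / Real.pi * (40 * (η / rc) + 40 * (η' / rd)) = (7 + μ) * e₀ + A * (26 * (ρ / r)) +
      (A * 13 + μ / Real.pi * 40) * (η / rc) + (A * 2713 + μ / Real.pi * 40) * (η' / rd) := by ring
  rw [w3]
  linarith

end Vale.Agent.P167.H411.Q
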