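import Vale.Agent.P167.H411.Q.Out2

/-!
# P167, general `q`: the power law of the charge `μ` at a flat free point ([BETA-G])

From the two-sided bound for the charge `- μ` (no power) and the core of the family, the charge `μ`
has the exact power `η ^ hQ μ`, `hQ μ = 2 μ² / (π (π - μ))`, up to constants.
-/

open Set Metric Filter Topology MeasureTheory Bornology
open scoped ComplexConjugate ContDiff

namespace Vale.Agent.P167.H411.Q

open Vale.Agent.P153.R2.R1 Vale.Agent.P167.H411.B7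
open Vale.Agent.P167.BVP (Flat Test lpot npot)
open Vale.Agent.P167.CA (Dat Pair)
open Vale.Agent.P167.CAQ (Fam)

variable {S : Dat} {ψ : ℂ → ℂ} {a p : ℂ}

/-- Growth of the energy of `φ_{a,η} - h`. -/
theorem en_growth (h : IsU ψ S.P a p) (hinj : InjOn ψ {z | 0 ≤ z.im}) {ν : ℂ} {r : ℝ}
    (hF : Flat S.P a ν r) (hp : p ∉ ball a r) {χ h₀ : ℂ → ℝ} (hχ : Shp Complex.I χ)
    (hh : Test S.P h₀) :
    ∃ M η₀ : ℝ, 0 < η₀ ∧ ∀ η : ℝ, 0 < η → η < η₀ →
      |CA.en (ginv ψ) (fun z => fb χ ν a η z - h₀ z) (fun z => fb χ ν a η z - h₀ z) +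
        1 / Real.pi * Real.log η| ≤ M := by
  obtain ⟨G, hX⟩ := exists_ext h hinj hF hp
  have hg := ginv_conf h hinj
  have hr := hF.pos
  have h0 : ginv ψ a = ((0 : ℝ) : ℂ) := by
    rw [← h.zero, Complex.ofReal_zero]; exact ginv_apply hinj (by simp)
  have hd := hX.hasDeriv h hinj hF hp
  rw [h0] at hd
  set d : ℂ := (deriv G a)⁻¹ with hd_def
  have hψ0 : ψ ((0 : ℝ) : ℂ) = a := by rw [Complex.ofReal_zero, h.zero]
  obtain ⟨M, δ, hδ, hM⟩ := npot_near h hinj hF hp hh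
  set J₁ : ℝ := JJ 0 Complex.I χ χ with hJ₁
  set eh : ℝ := CA.en (ginv ψ) h₀ h₀ with heh
  refine ⟨(|Real.log ‖d‖| + |J₁| + 1) + 2 * |M| + |eh|, min δ (r / 8400),
    lt_min hδ (by positivity), fun η hη hηlt => ?_⟩
  have e2 : η < δ := hηlt.trans_le (min_le_left _ _)
  have e3 : η ≤ r / 8400 := hηlt.le.trans (min_le_right _ _)
  have e3' : η < r := by linarith
  have hφ := fb_bp hχ hF hη e3'
  set φ := fb χ ν a η with hφd
  have hηr : 8400 * (η / r) ≤ 1 := by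
    rw [mul_div_assoc', div_le_one hr]; linarith
  have k2 := en_bb h hinj hF hp e3 hφ hφ hψ0 hd
  rw [JJ_fb hχ hF.norm hη] at k2
  have k3 := en_near hφ (f := h₀) e2 hM
  have k7 : |CA.en (ginv ψ) φ φ + 1 / Real.pi * Real.log η| ≤ |Real.log ‖d‖| + |J₁| + 1 := by
    have hk2 : |CA.en (ginv ψ) φ φ + 1 / (2 * Real.pi) * (-2 * Real.log ‖d‖ +
      (2 * Real.log η + J₁))| ≤ 2700 * (η / r) := k2
    have e : CA.en (ginv ψ) φ φ + 1 / Real.pi * Real.log η = (CA.en (ginv ψ) φ φ +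
      1 / (2 * Real.pi) * (-2 * Real.log ‖d‖ + (2 * Real.log η + J₁))) +
        (1 / Real.pi * Real.log ‖d‖ - 1 / (2 * Real.pi) * J₁) := by
      have := Real.pi_ne_zero
      field_simp
      ring
    rw [e]
    refine (abs_add_le _ _).trans ?_
    have a1 := abs_sub (1 / Real.pi * Real.log ‖d‖) (1 / (2 * Real.pi) * J₁)
    rw [abs_mul, abs_mul] at a1
    have p1 : |1 / Real.pi| ≤ 1 := by
      rw [abs_of_pos (by positivity), div_le_one Real.pi_pos]; linarith [Real.pi_gt_three]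
    have p2 : |1 / (2 * Real.pi)| ≤ 1 := by
      rw [abs_of_pos (by positivity), div_le_one (by positivity)]; linarith [Real.pi_gt_three]
    have a2 := mul_le_mul_of_nonneg_right p1 (abs_nonneg (Real.log ‖d‖))
    have a3 := mul_le_mul_of_nonneg_right p2 (abs_nonneg J₁)
    have a4 : 2700 * (η / r) ≤ 1 := by
      have : 0 ≤ η / r := by positivity
      linarith
    linarith
  rw [en_diff hg hφ.test hh]
  have e : CA.en (ginv ψ) φ φ - 2 * CA.en (ginv ψ) φ h₀ + CA.en (ginv ψ) h₀ h₀ +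
      1 / Real.pi * Real.log η = (CA.en (ginv ψ) φ φ + 1 / Real.pi * Real.log η) -
      2 * CA.en (ginv ψ) φ h₀ + eh := by ring
  rw [e]
  have b3 : |2 * CA.en (ginv ψ) φ h₀| ≤ 2 * |M| := by
    rw [abs_mul, abs_two]
    linarith [k3.trans (le_abs_self M)]
  have b5 := le_abs_self eh
  have b6 := neg_abs_le eh
  rw [abs_le] at b3 k7 ⊢
  constructor <;> linarith [k7.1, k7.2, b3.1, b3.2]

/-- **[BETA-G]** The power law of the charge `μ`. -/
theorem pow_of_bd {μ : ℝ} {F : Fam S} (hμ0 : 0 < μ) (hμ1 : μ ≤ Real.pi / 3) (cF : F.CORE)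
    (hs : F.s = 2 / (Real.pi - μ)) {νa : ℂ} {ra : ℝ} (h : IsU ψ S.P a S.bp)
    (hinj : InjOn ψ {z | 0 ≤ z.im}) (hF : Flat S.P a νa ra) (hp : S.bp ∉ ball a ra)
    {χ h₀ : ℂ → ℝ} {N : ℕ → ℝ → ℝ} (hχ : Shp Complex.I χ) (hh : Test S.P h₀) (hm : ∫ w, h₀ w = 1)
    (hbd : BdA (-μ) F χ νa a h₀ N) :
    ∃ c C η₀ : ℝ, 0 < c ∧ 0 < η₀ ∧ ∀ η : ℝ, 0 < η → η < η₀ → ∀ᶠ n : ℕ in F.L,
      c * η ^ (hQ μ) ≤ VN μ F χ νa a h₀ N n η ∧ VN μ F χ νa a h₀ N n η ≤ C * η ^ (hQ μ) := by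
  obtain ⟨M, η₁, hη₁, hen⟩ := en_growth h hinj hF hp hχ hh
  obtain ⟨c₃, C₃, η₃, hc₃, hη₃, b3⟩ := hbd
  have hP := pair_of_isU h hinj
  have hπ := Real.pi_pos
  have hπμ : 0 < Real.pi - μ := by linarith
  have hs0 : 0 < F.s := by rw [hs]; positivity
  set B : ℝ := |Real.log c₃| + |Real.log C₃| + 2 + F.s * μ ^ 2 * |M| with hB
  refine ⟨Real.exp (-B), Real.exp B, min (min η₁ η₃) (min ra 1), Real.exp_pos _,
    lt_min (lt_min hη₁ hη₃) (lt_min hF.pos one_pos), fun η hη hηlt => ?_⟩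
  have f1 : η < η₁ := hηlt.trans_le ((min_le_left _ _).trans (min_le_left _ _))
  have f3 : η < η₃ := hηlt.trans_le ((min_le_left _ _).trans (min_le_right _ _))
  have f4 : η < ra := hηlt.trans_le ((min_le_right _ _).trans (min_le_left _ _))
  have hφ := fb_bp hχ hF hη f4
  have hf : S.FF fun z => fb χ νa a η z - h₀ z := ff_of hφ.test hh (by rw [hφ.mass, hm])
  have he := hen η hη f1
  set E := CA.en (ginv ψ) (fun z => fb χ νa a η z - h₀ z) (fun z => fb χ νa a η z - h₀ z) with hE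
  have c1 := log_VN cF hP hf μ N
  have c2 := log_VN cF hP hf (-μ) N
  filter_upwards [c1, c2, b3 η hη f3] with n ⟨p1, q1⟩ ⟨p2, q2⟩ r
  have s3 := Real.log_le_log hc₃ r.1
  have s4 := Real.log_le_log p2 r.2
  have s5 := neg_abs_le (Real.log c₃)
  have s6 := le_abs_self (Real.log C₃)
  rw [abs_le] at q1 q2
  have hexp : F.s * μ ^ 2 * (1 / Real.pi) = hQ μ := by
    rw [hs]
    unfold hQ
    have h1 := hπ.ne'
    have h2 := hπμ.ne'
    field_simp
  have hM := mul_le_mul_of_nonneg_left (he.trans (le_abs_self M))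
    (show 0 ≤ F.s * μ ^ 2 by positivity)
  have hM' : |F.s * μ ^ 2 * E + hQ μ * Real.log η| ≤ F.s * μ ^ 2 * |M| := by
    have e : F.s * μ ^ 2 * E + hQ μ * Real.log η =
        F.s * μ ^ 2 * (E + 1 / Real.pi * Real.log η) := by rw [← hexp]; ring
    rw [e, abs_mul, abs_of_nonneg (show 0 ≤ F.s * μ ^ 2 by positivity)]
    exact hM
  rw [abs_le] at hM'
  have key : |Real.log (VN μ F χ νa a h₀ N n η) - hQ μ * Real.log η| ≤ B := by
    rw [abs_le, hB]
    constructor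
    · nlinarith [q1.1, q1.2, q2.1, q2.2, hM'.1, hM'.2, abs_nonneg (Real.log c₃),
        abs_nonneg (Real.log C₃)]
    · nlinarith [q1.1, q1.2, q2.1, q2.2, hM'.1, hM'.2, abs_nonneg (Real.log c₃),
        abs_nonneg (Real.log C₃)]
  rw [abs_le] at key
  have hrp : η ^ (hQ μ) = Real.exp (hQ μ * Real.log η) := by
    rw [Real.rpow_def_of_pos hη]; ring_nf
  rw [hrp, ← Real.exp_add, ← Real.exp_add]
  constructor
  · calc Real.exp (-B + hQ μ * Real.log η) ≤ Real.exp (Real.log (VN μ F χ νa a h₀ N n η)) :=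
          Real.exp_le_exp.2 (by linarith [key.1])
      _ = _ := Real.exp_log p1
  · calc VN μ F χ νa a h₀ N n η = Real.exp (Real.log (VN μ F χ νa a h₀ N n η)) :=
          (Real.exp_log p1).symm
      _ ≤ _ := Real.exp_le_exp.2 (by linarith [key.2])

end Vale.Agent.P167.H411.Q
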