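import Vale.Agent.P167.H411.Q.Growth

/-!
# P167, general `q`: global reflections, and growth conditions from the imaginary part
-/

open Set Metric Filter Topology InnerProductSpace Complex MeasureTheory
open scoped ComplexConjugate

namespace Vale.Agent.P167.H411.Q

open Vale.Agent.P167.BVP

/-- The odd reflection of `v - t₀`. -/
theorem odd_glob {v : ℂ → ℝ} {K : Finset ℝ} {t₀ : ℝ} (hh : ∀ z : ℂ, 0 < z.im → HarmonicAt v z)
    (hd : ∀ x : ℝ, x ∉ K → Tendsto v (𝓝[{z : ℂ | 0 < z.im}] (x : ℂ)) (𝓝 t₀)) :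
    ∃ w : ℂ → ℝ, (∀ z ∉ K.image (fun x : ℝ => (x : ℂ)), HarmonicAt w z) ∧
      (∀ z : ℂ, 0 < z.im → w z = v z - t₀) ∧ ∀ z : ℂ, z.im < 0 → w z = -(v (conj z) - t₀) := by
  classical
  set w : ℂ → ℝ := fun z => if 0 < z.im then v z - t₀ else if z.im < 0 then -(v (conj z) - t₀)
    else 0 with hw
  have hwpos : ∀ z : ℂ, 0 < z.im → w z = v z - t₀ := fun z hz => by simp [hw, hz]
  have hwneg : ∀ z : ℂ, z.im < 0 → w z = -(v (conj z) - t₀) := fun z hz => by
    simp [hw, hz, not_lt.mpr hz.le]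
  have hw0 : ∀ z : ℂ, z.im = 0 → w z = 0 := fun z hz => by simp [hw, hz]
  have hodd : ∀ z : ℂ, w (conj z) = - w z := by
    intro z
    rcases lt_trichotomy z.im 0 with h | h | h
    · rw [hwneg z h, hwpos (conj z) (by simpa using h)]; ring
    · rw [hw0 z h, hw0 (conj z) (by simpa using h)]; ring
    · rw [hwpos z h, hwneg (conj z) (by simpa using h), Complex.conj_conj]
  have hharm : ∀ z : ℂ, z.im ≠ 0 → HarmonicAt w z := by
    intro z hz
    rcases lt_or_gt_of_ne hz with h | h
    · have h1 : HarmonicAt v (conj z) := hh _ (by simpa using h)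
      have h3 : HarmonicAt (fun y => v (conj y)) z := harmonicAt_conj h1
      have h4 : HarmonicAt (fun y => -(v (conj y) - t₀)) z :=
        harmonicAt_neg' (harmonicAt_sub' h3 (harmonicAt_const t₀ z))
      refine (harmonicAt_congr_nhds ?_).2 h4
      have h2 : ∀ᶠ y : ℂ in 𝓝 z, y.im < 0 :=
        (isOpen_lt Complex.continuous_im continuous_const).mem_nhds h
      filter_upwards [h2] with y hy using hwneg y hy
    · have h4 : HarmonicAt (fun y => v y - t₀) z :=
        harmonicAt_sub' (hh z h) (harmonicAt_const t₀ z)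
      refine (harmonicAt_congr_nhds ?_).2 h4
      have h2 : ∀ᶠ y : ℂ in 𝓝 z, 0 < y.im :=
        (isOpen_lt continuous_const Complex.continuous_im).mem_nhds h
      filter_upwards [h2] with y hy using hwpos y hy
  have hcreal : ∀ x : ℝ, x ∉ K → ContinuousAt w (x : ℂ) := by
    intro x hx
    have h1 := hd x hx
    rw [ContinuousAt, hw0 (x : ℂ) (by simp), Metric.tendsto_nhds]
    intro ε hε
    have h2 : ∀ᶠ z in 𝓝 (x : ℂ), 0 < z.im → |v z - t₀| < ε := by
      have h3 := (Metric.tendsto_nhds.1 h1) ε hε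
      rw [eventually_nhdsWithin_iff] at h3
      filter_upwards [h3] with z hz h0
      exact hz h0
    have h2' := (conj_tendsto x).eventually h2
    filter_upwards [h2, h2'] with z a1 a2
    rw [Real.dist_eq, sub_zero]
    rcases lt_trichotomy z.im 0 with h | h | h
    · rw [hwneg z h, abs_neg]
      exact a2 (by simpa using h)
    · rw [hw0 z h, abs_zero]; exact hε
    · rw [hwpos z h]; exact a1 h
  set K' : Finset ℂ := K.image (fun x : ℝ => (x : ℂ)) with hK'
  have hmemK' : ∀ x : ℝ, (x : ℂ) ∈ K' ↔ x ∈ K := by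
    intro x
    rw [hK', Finset.mem_image]
    constructor
    · rintro ⟨y, hy, hyx⟩
      rwa [← Complex.ofReal_injective hyx]
    · intro hx; exact ⟨x, hx, rfl⟩
  have hwh : ∀ z ∉ K', HarmonicAt w z := by
    intro z hz
    by_cases h : z.im = 0
    · have hzr : z = (z.re : ℂ) := by apply Complex.ext <;> simp [h]
      rw [hzr] at hz ⊢
      rw [hmemK'] at hz
      set x := z.re with hx
      have hKo : ∀ᶠ t : ℝ in 𝓝 x, t ∉ (K : Set ℝ) :=
        K.finite_toSet.isClosed.isOpen_compl.mem_nhds (by simpa using hz)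
      obtain ⟨ρ, hρ, hρK⟩ := Metric.eventually_nhds_iff_ball.1 hKo
      have hρ2 : 0 < ρ / 2 := by linarith
      have hfre : ∀ y : ℂ, y ∈ closedBall (0 : ℂ) (ρ / 2) → (y + x).im = 0 →
          ((y + x).re) ∉ K := by
        intro y hy _
        have := hρK (y + x).re (by
          rw [mem_ball, Real.dist_eq]
          simp only [add_re, ofReal_re, add_sub_cancel_right]
          rw [mem_closedBall_zero_iff] at hy
          have := Complex.abs_re_le_norm y
          linarith)
        simpa using this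
      have hcont : ContinuousOn (fun y => w (y + x)) (closedBall 0 (ρ / 2)) := by
        intro y hy
        have h1 : ContinuousAt w (y + x) := by
          by_cases h0 : (y + x).im = 0
          · have e : y + x = (((y + x).re : ℝ) : ℂ) := by apply Complex.ext <;> simp [h0]
            have h0' : y.im = 0 := by simpa using h0
            rw [e]
            exact hcreal _ (hfre y hy h0)
          · exact (hharm _ h0).1.continuousAt
        exact (h1.comp (f := fun y : ℂ => y + x) (by fun_prop)).continuousWithinAt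
      have han : ∀ z a : ℂ, AnalyticAt ℂ (fun w : ℂ => w + a) z := fun z a =>
        analyticAt_id.add analyticAt_const
      have h1 := odd_refl hρ2 hcont (fun y hy => by
        have hy' : 0 < y.im := hy.2
        exact harmonicAt_comp (g := fun w : ℂ => w + (x : ℂ)) (v := w)
          (hharm (y + x) (by simp; exact hy'.ne')) (han y _)) (fun y _ => by
        have := hodd (y + x)
        simpa using this)
      have h2 := harmonicAt_comp (g := fun w : ℂ => w + (-(x : ℂ))) (w := (x : ℂ))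
        (v := fun z => w (z + x)) (by simpa using h1 0 (mem_ball_self hρ2)) (han _ _)
      refine (harmonicAt_congr_nhds (Eventually.of_forall fun y => ?_)).1 h2
      simp
    · exact hharm z h
  exact ⟨w, hwh, hwpos, hwneg⟩

/-- The even reflection. -/
theorem even_glob {v : ℂ → ℝ} {K : Finset ℝ} (hh : ∀ z : ℂ, 0 < z.im → HarmonicAt v z)
    (he : ∀ x : ℝ, x ∉ K → EvenExt v x) :
    ∃ w : ℂ → ℝ, (∀ z ∉ K.image (fun x : ℝ => (x : ℂ)), HarmonicAt w z) ∧
      (∀ z : ℂ, 0 < z.im → w z = v z) ∧ ∀ z : ℂ, z.im < 0 → w z = v (conj z) := by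
  classical
  choose! u hu1 hu2 hu3 using he
  -- the even extension
  set w : ℂ → ℝ := fun z => if 0 < z.im then v z else if z.im < 0 then v (conj z)
    else u z.re z with hw
  have hwpos : ∀ z : ℂ, 0 < z.im → w z = v z := fun z hz => by simp [hw, hz]
  have hwneg : ∀ z : ℂ, z.im < 0 → w z = v (conj z) := fun z hz => by
    simp [hw, hz, not_lt.mpr hz.le]
  have hw0 : ∀ x : ℝ, w x = u x x := fun x => by simp [hw]
  -- two local extensions agree at nearby real points
  have hwu : ∀ x : ℝ, x ∉ K → ∀ᶠ z in 𝓝 (x : ℂ), w z = u x z := by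
    intro x hx
    have hcont : ∀ᶠ z in 𝓝 (x : ℂ), HarmonicAt (u x) z := (hu1 x hx).eventually
    have hKev : ∀ᶠ z : ℂ in 𝓝 (x : ℂ), z.re ∉ K := by
      have h1 : ∀ᶠ t : ℝ in 𝓝 x, t ∉ (K : Set ℝ) :=
        K.finite_toSet.isClosed.isOpen_compl.mem_nhds (by simpa using hx)
      have h2 : Tendsto (fun z : ℂ => z.re) (𝓝 (x : ℂ)) (𝓝 x) := by
        have := Complex.continuous_re.tendsto (x : ℂ); rwa [ofReal_re] at this
      exact (h2.eventually h1).mono fun z hz => by simpa using hz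
    have h3 := hu3 x hx
    have h3' := (conj_tendsto x).eventually h3
    have h2 := hu2 x hx
    have h4 : ∀ᶠ z in 𝓝 (x : ℂ), ∀ᶠ y in 𝓝 z, 0 < y.im → v y = u x y := h3.eventually_nhds
    filter_upwards [h3, h3', h2, hcont, hKev, h4] with z a1 a2 a3 a4 a5 a6
    rcases lt_trichotomy z.im 0 with h | h | h
    · rw [hwneg z h, a2 (by simpa using h), a3]
    · have hz : z = (z.re : ℂ) := by apply Complex.ext <;> simp [h]
      rw [hz, hw0]
      -- both are limits of `v`
      have := upper_neBot z.re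
      have b1 : Tendsto v (𝓝[{y : ℂ | 0 < y.im}] (z.re : ℂ)) (𝓝 (u z.re z.re)) := by
        have c1 : ContinuousAt (u z.re) (z.re : ℂ) := (hu1 z.re a5).1.continuousAt
        refine (c1.tendsto.mono_left nhdsWithin_le_nhds).congr' ?_
        filter_upwards [nhdsWithin_le_nhds (hu3 z.re a5), self_mem_nhdsWithin] with y hy1 hy2
        exact (hy1 hy2).symm
      have b2 : Tendsto v (𝓝[{y : ℂ | 0 < y.im}] (z.re : ℂ)) (𝓝 (u x z.re)) := by
        rw [hz] at a4 a6
        have c1 : ContinuousAt (u x) (z.re : ℂ) := a4.1.continuousAt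
        refine (c1.tendsto.mono_left nhdsWithin_le_nhds).congr' ?_
        filter_upwards [nhdsWithin_le_nhds a6, self_mem_nhdsWithin] with y hy1 hy2
        exact (hy1 hy2).symm
      exact tendsto_nhds_unique b1 b2
    · rw [hwpos z h, a1 h]
  set K' : Finset ℂ := K.image (fun x : ℝ => (x : ℂ)) with hK'
  have hmemK' : ∀ x : ℝ, (x : ℂ) ∈ K' ↔ x ∈ K := by
    intro x
    rw [hK', Finset.mem_image]
    constructor
    · rintro ⟨y, hy, hyx⟩
      rwa [← Complex.ofReal_injective hyx]
    · intro hx; exact ⟨x, hx, rfl⟩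
  have hwh : ∀ z ∉ K', HarmonicAt w z := by
    intro z hz
    rcases lt_trichotomy z.im 0 with h | h | h
    · have h1 : HarmonicAt v (conj z) := hh _ (by simpa using h)
      refine (harmonicAt_congr_nhds ?_).2 (harmonicAt_conj h1)
      have h2 : ∀ᶠ y : ℂ in 𝓝 z, y.im < 0 :=
        (isOpen_lt Complex.continuous_im continuous_const).mem_nhds h
      filter_upwards [h2] with y hy using hwneg y hy
    · have hzr : z = (z.re : ℂ) := by apply Complex.ext <;> simp [h]
      rw [hzr] at hz ⊢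
      rw [hmemK'] at hz
      exact (harmonicAt_congr_nhds (hwu z.re hz)).2 (hu1 z.re hz)
    · refine (harmonicAt_congr_nhds ?_).2 (hh z h)
      have h2 : ∀ᶠ y : ℂ in 𝓝 z, 0 < y.im :=
        (isOpen_lt continuous_const Complex.continuous_im).mem_nhds h
      filter_upwards [h2] with y hy using hwpos y hy
  exact ⟨w, hwh, hwpos, hwneg⟩

/-- Growth of a function in the half-plane. -/
def HLog (v : ℂ → ℝ) (C : ℝ) : Prop :=
  ∀ z : ℂ, 0 < z.im → |v z| ≤ C * (1 + |Real.log z.im| + Real.log (1 + ‖z‖))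

theorem HLog.imLog_even {v w : ℂ → ℝ} {C : ℝ} (h : HLog v C) (h1 : ∀ z : ℂ, 0 < z.im → w z = v z)
    (h2 : ∀ z : ℂ, z.im < 0 → w z = v (conj z)) : ImLog w C := by
  intro z hz
  rcases lt_or_gt_of_ne hz with h0 | h0
  · rw [h2 z h0, abs_of_neg h0]
    have := h (conj z) (by simpa using h0)
    rwa [conj_im, norm_conj] at this
  · rw [h1 z h0, abs_of_pos h0]
    exact h z h0

theorem HLog.imLog_odd {v w : ℂ → ℝ} {C t₀ : ℝ} (h : HLog v C)
    (h1 : ∀ z : ℂ, 0 < z.im → w z = v z - t₀)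
    (h2 : ∀ z : ℂ, z.im < 0 → w z = -(v (conj z) - t₀)) : ImLog w (C + |t₀|) := by
  have key : ∀ s a b : ℝ, |s| ≤ C * (1 + |a| + Real.log (1 + |b|)) →
      |s - t₀| ≤ (C + |t₀|) * (1 + |a| + Real.log (1 + |b|)) := by
    intro s a b hs
    have h3 := abs_sub s t₀
    have h4 : 0 ≤ Real.log (1 + |b|) := Real.log_nonneg (by linarith [abs_nonneg b])
    have h5 : |t₀| * 1 ≤ |t₀| * (1 + |a| + Real.log (1 + |b|)) :=
      mul_le_mul_of_nonneg_left (by linarith [abs_nonneg a]) (abs_nonneg _)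
    rw [add_mul]
    linarith
  intro z hz
  have hb : ‖z‖ = |‖z‖| := (abs_of_nonneg (norm_nonneg _)).symm
  rcases lt_or_gt_of_ne hz with h0 | h0
  · rw [h2 z h0, abs_of_neg h0, abs_neg, hb]
    refine key _ _ _ ?_
    rw [← hb]
    have := h (conj z) (by simpa using h0)
    rwa [conj_im, norm_conj] at this
  · rw [h1 z h0, abs_of_pos h0, hb]
    refine key _ _ _ ?_
    rw [← hb]
    exact h z h0

/-- **Constant boundary values**, with growth in the imaginary part. -/
theorem half_dir_im {v : ℂ → ℝ} {K : Finset ℝ} {t₀ C : ℝ} (hh : ∀ z : ℂ, 0 < z.im → HarmonicAt v z)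
    (hd : ∀ x : ℝ, x ∉ K → Tendsto v (𝓝[{z : ℂ | 0 < z.im}] (x : ℂ)) (𝓝 t₀))
    (hC : HLog v C) (hC0 : 0 ≤ C) : ∀ z : ℂ, 0 < z.im → v z = t₀ := by
  obtain ⟨w, hw, h1, h2⟩ := odd_glob hh hd
  have hi := hC.imLog_odd h1 h2
  have hC' : 0 ≤ C + |t₀| := by positivity
  have hvw : ∀ z : ℂ, 0 < z.im → |v z| ≤ |w z| + |t₀| := by
    intro z hz
    have : v z = w z + t₀ := by rw [h1 z hz]; ring
    rw [this]
    exact abs_add_le _ _
  refine half_dir hh hd ?_ ?_
  · intro x _
    obtain ⟨D, hD⟩ := logAt_of_im hw hi hC' (ofReal_im x)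
    refine ⟨|D| + |t₀|, ?_⟩
    rw [eventually_nhdsWithin_iff] at hD
    filter_upwards [hD] with z hz hz0
    have hzx : z ∈ ({(x : ℂ)}ᶜ : Set ℂ) := by
      intro h
      rw [mem_singleton_iff.1 h, ofReal_im] at hz0
      exact lt_irrefl _ hz0
    have a1 := hz hzx
    have a2 := hvw z hz0
    have a3 := le_abs_self D
    have a4 := abs_nonneg (Real.log ‖z - x‖)
    have a5 := abs_nonneg t₀
    nlinarith
  · obtain ⟨D, R, hD⟩ := logInf_of_im hw hi hC'
    refine ⟨|D| + |t₀|, max R 1, fun z hz0 hz => ?_⟩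
    have a1 := hD z ((le_max_left _ _).trans hz)
    have a2 := hvw z hz0
    have a3 := le_abs_self D
    have a4 : 0 ≤ Real.log ‖z‖ := Real.log_nonneg ((le_max_right _ _).trans hz)
    have a5 := abs_nonneg t₀
    nlinarith

/-- Logarithmic growth of functions with even extensions. -/
theorem growth_even {v : ℂ → ℝ} {K : Finset ℝ} {C : ℝ} (hh : ∀ z : ℂ, 0 < z.im → HarmonicAt v z)
    (he : ∀ x : ℝ, x ∉ K → EvenExt v x) (hC : HLog v C) (hC0 : 0 ≤ C) :
    (∀ x ∈ K, ∃ C : ℝ, ∀ᶠ z in 𝓝 (x : ℂ), 0 < z.im → |v z| ≤ C * (1 + |Real.log ‖z - x‖|)) ∧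
    ∃ C R : ℝ, ∀ z : ℂ, 0 < z.im → R ≤ ‖z‖ → |v z| ≤ C * (1 + Real.log ‖z‖) := by
  obtain ⟨w, hw, h1, h2⟩ := even_glob hh he
  have hi := hC.imLog_even h1 h2
  refine ⟨fun x _ => ?_, ?_⟩
  · obtain ⟨D, hD⟩ := logAt_of_im hw hi hC0 (ofReal_im x)
    refine ⟨D, ?_⟩
    rw [eventually_nhdsWithin_iff] at hD
    filter_upwards [hD] with z hz hz0
    have hzx : z ∈ ({(x : ℂ)}ᶜ : Set ℂ) := by
      intro h
      rw [mem_singleton_iff.1 h, ofReal_im] at hz0
      exact lt_irrefl _ hz0
    rw [← h1 z hz0]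
    exact hz hzx
  · obtain ⟨D, R, hD⟩ := logInf_of_im hw hi hC0
    refine ⟨D, R, fun z hz0 hz => ?_⟩
    rw [← h1 z hz0]
    exact hD z hz

end Vale.Agent.P167.H411.Q
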