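import Vale.Agent.P167.H411.Q.Fix
import Vale.Agent.P167.H411.Q.Zn
import Vale.Agent.P167.H208.SH.Shift
import Vale.Agent.P167.H411.Q.LStep

/-!
# P167, general `q`, block Q-ND (CONT): replacement of the bump by the lattice bump
-/

namespace Vale.Agent.P167.H411.Q

open Finset Filter Topology MeasureTheory Vale.Agent.P167 Vale.Agent.P167.BR Vale.Agent.P167.FK
open scoped ComplexConjugate
open Vale.Agent.P167.E6 (IsPolygon Encloses pt)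
open Vale.Agent.P167.H135 (Mov rk tra)
open Vale.Agent.P167.H562.QM (FltQ)
open Vale.Agent.P167.QB (XG zS Nf Bq' dlt)
open Vale.Agent.P167.H825.Q (Bc qS kS bdG)
open Vale.Agent.P167.H718 (Dob)
open Vale.Agent.P167.CA (cms)
open Vale.Agent.P167.H436 (ero mem_ero)
open Vale.Agent.P167.H208.SH (F0 shp_bd shp_lip shp_supp F0_nonneg F0_le F0_supp F0_sum cms_cmp)
open Vale.Agent.P167.H411.B7 (Shp)
open Vale.Agent.P167.BVP (Flat Test)

/-- The support of the moved lattice bump. -/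
theorem supp_ero {S : CA.Dat} {w : Bool} {n : ℕ} {j : Fin 4} {a : ℤ × ℤ} (ha : Even (a.1 + a.2))
    {R k A : ℤ} (hk : 0 ≤ k) (hF : FltQ ((Mc j a ha).S (Dw S w n)) eta0 (0, 0) R false false)
    (hA : A + k + 1 ≤ R) {z : ℤ × ℤ} {u : ℤ × ℤ} (hu : (Mc j a ha).t (z + ow w) = u)
    (h1 : |u.1| ≤ A) (h2 : k + 1 ≤ u.2) (h3 : u.2 ≤ A) : z ∈ sites (ero S.Q n k) := by
  rw [mem_sites]
  refine ⟨z, (mem_ero hk).2 fun i' j' a1 a2 a3 a4 => ?_, Or.inl rfl, Or.inl rfl⟩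
  show (i', j') ∈ S.D n
  have e0 : (i', j') = z + ((i' - z.1, j' - z.2) : ℤ × ℤ) := by
    ext <;> simp
  set δ : ℤ × ℤ := (i' - z.1, j' - z.2) with hδ
  have hδk : nm δ ≤ k := by
    rw [H365.nm_le', hδ]
    simp only
    omega
  have hmem : (i', j') + ow w ∈ Dw S w n := by
    rw [← Mov.mem_S (M := Mc j a ha)]
    have e1 : (Mc j a ha).s ((i', j') + ow w) = (rk j).s (z + ow w + a) + (rk j).t δ := by
      rw [Mc_s, e0, ← rk_s_add]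
      congr 1
      abel
    have hu' : (rk j).t (z + ow w + a) = u := hu
    obtain ⟨g1, g2⟩ := H135.rk_s_t j (z + ow w + a)
    rw [hu'] at g1 g2
    have g3 : nm ((rk j).t δ) ≤ k := by rw [H135.nm_rk]; exact hδk
    rw [H365.nm_le'] at g3
    rw [abs_le] at g1 g2 h1
    rw [hF.dom]
    · rw [e1]
      simp only [Prod.snd_add]
      omega
    · rw [H365.nm_le', e1]
      simp only [Prod.snd_sub, Prod.fst_sub, Prod.snd_add, Prod.fst_add]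
      omega
  rw [mem_Dw, add_sub_cancel_right] at hmem
  exact hmem

theorem fsum_cms {S : CA.Dat} {f : ℂ → ℝ} (hf : Test S.P f) {n : ℕ} (hn : 0 < n) :
    ∑ᶠ z, cms f (1 / n) z = ∫ x, f x := by
  have hsup : Function.support (cms f (1 / n)) ⊆ (sites (S.D n) : Set (ℤ × ℤ)) := by
    intro z hz
    obtain ⟨x, hx, hfx⟩ := H542.Dt.cms_ne hz
    rw [CA.mem_cl] at hx
    rw [← hx]
    exact CA.cs_mem hn (CA.Test.mem hf hfx)
  rw [finsum_eq_sum_of_support_subset _ hsup]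
  have := CA.sum_cms hn (CA.Test.integrable hf) (fun x hx => CA.Test.mem hf hx) fun _ => 1
  simp only [mul_one] at this
  exact this

theorem fin_cms {S : CA.Dat} {f : ℂ → ℝ} (hf : Test S.P f) {n : ℕ} (hn : 0 < n) :
    (Function.support (cms f (1 / n))).Finite := by
  refine (sites (S.D n)).finite_toSet.subset ?_
  intro z hz
  obtain ⟨x, hx, hfx⟩ := H542.Dt.cms_ne hz
  rw [CA.mem_cl] at hx
  rw [← hx]
  exact CA.cs_mem hn (CA.Test.mem hf hfx)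

theorem fin_F0 {χ : ℂ → ℝ} (h : Shp Complex.I χ) {r : ℝ} (hr : 0 < r) :
    (Function.support (F0 χ r)).Finite := by
  obtain ⟨d, hd0, hd⟩ := shp_supp h
  obtain ⟨N, hN⟩ : ∃ N : ℤ, r + 1 ≤ N := ⟨⌈r + 1⌉, Int.le_ceil _⟩
  refine ((Finset.Icc (-N) N ×ˢ Finset.Icc (-N) N : Finset (ℤ × ℤ))).finite_toSet.subset ?_
  intro w hw
  obtain ⟨h1, h2, h3⟩ := F0_supp hd hr hw
  rw [abs_le] at h1
  have h4 : 0 ≤ d * r := by positivity
  rw [Finset.mem_coe, Finset.mem_product, Finset.mem_Icc, Finset.mem_Icc]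
  refine ⟨⟨?_, ?_⟩, ?_, ?_⟩
  · have : (-N : ℝ) ≤ w.1 := by linarith
    exact_mod_cast this
  · have : (w.1 : ℝ) ≤ N := by linarith
    exact_mod_cast this
  · have : (-N : ℝ) ≤ w.2 := by linarith
    exact_mod_cast this
  · have : (w.2 : ℝ) ≤ N := by linarith
    exact_mod_cast this

/-- The sum of a bump minus the moved lattice bump. -/
theorem fsum_G {S : CA.Dat} {f : ℂ → ℝ} (hf : Test S.P f) (hf1 : ∫ x, f x = 1) {χ : ℂ → ℝ}
    (h : Shp Complex.I χ) {r : ℝ} (hr : 0 < r) {n : ℕ} (hn : 0 < n) (θ : ℝ) (e : ℤ × ℤ ≃ ℤ × ℤ) :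
    ∑ᶠ z, (θ * cms f (1 / n) z - θ * F0 χ r (e z)) = 0 := by
  have e1 : ∑ᶠ z, θ * F0 χ r (e z) = θ := by
    rw [finsum_comp_equiv e (f := fun z => θ * F0 χ r z), ← mul_finsum, F0_sum h hr, mul_one]
  rw [finsum_sub_distrib]
  · rw [e1, ← mul_finsum, fsum_cms hf hn, hf1, mul_one, sub_self]
  · refine (fin_cms hf hn).subset fun z hz => ?_
    exact right_ne_zero_of_mul hz
  · refine ((fin_F0 h hr).preimage e.injective.injOn).subset fun z hz => ?_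
    exact right_ne_zero_of_mul hz

theorem two_bd {θ a b A B C x : ℝ} (h0 : 0 < θ) (hx : 0 < x) (ha : |a| ≤ A / x) (hb : |b| ≤ B / x)
    (hC : θ * (A + B) ≤ C) : |θ * a - θ * b| ≤ C / x := by
  refine (abs_sub _ _).trans ?_
  rw [abs_mul, abs_mul, abs_of_pos h0, ← mul_add]
  have h1 : |a| + |b| ≤ (A + B) / x := by rw [add_div]; exact add_le_add ha hb
  calc θ * (|a| + |b|) ≤ θ * ((A + B) / x) := mul_le_mul_of_nonneg_left h1 h0.le
    _ = θ * (A + B) / x := by ring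
    _ ≤ C / x := div_le_div_of_nonneg_right hC hx.le

/-- The two charges are close. -/
theorem cmp_FG {χ : ℂ → ℝ} (hχ : Shp Complex.I χ) {Lc : ℝ} (hLc0 : 0 ≤ Lc)
    (hLc : ∀ u v, |χ u - χ v| ≤ Lc * ‖u - v‖) {θ : ℝ} (h0 : 0 < θ) {c ν : ℂ} (hν : ‖ν‖ = 1) {e : ℝ}
    (he : 0 < e) {j : Fin 4} (hj : ∀ z : ℤ × ℤ, pt ((rk j).t z) = Complex.I * conj ν * pt z)
    {n : ℕ} (hn0 : 0 < n) {o b : ℤ × ℤ} (hl : Even ((-b).1 + (-b).2))
    (hnear : ‖pt b - pt o - n * c‖ ≤ 3) {x Cm : ℝ} (hCm : 0 < Cm) (z : ℤ × ℤ) :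
    |(x - θ * cms (fb χ ν c e) (1 / n) z) - (x - θ * F0 χ (n * e) ((Mc j (-b) hl).t (z + o)))| ≤
      θ * (Lc * 7) / e ^ 3 / Cm / n * (Cm / (n : ℝ) ^ 2) := by
  have hn : (0 : ℝ) < n := by exact_mod_cast hn0
  have h5 : ‖Complex.I * conj ν * (pt z - n * c) - pt ((Mc j (-b) hl).t (z + o))‖ ≤ 3 := by
    have e1 : (Mc j (-b) hl).t (z + o) = (rk j).t (z + o + -b) := rfl
    rw [e1, hj, ← mul_sub, norm_mul, norm_mul, Complex.norm_I, RCLike.norm_conj, hν, one_mul, one_mul]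
    have e2 : pt z - n * c - pt (z + o + -b) = pt b - pt o - n * c := by
      apply Complex.ext
      · simp [E6.pt]; ring
      · simp [E6.pt]; ring
    rw [e2]
    exact hnear
  have h6 := cms_cmp hχ.smooth.continuous hχ.compact hLc hLc0 hν he hn0 h5
  have e3 : (x - θ * cms (fb χ ν c e) (1 / n) z) - (x - θ * F0 χ (n * e) ((Mc j (-b) hl).t (z + o))) =
      -(θ * (cms (fb χ ν c e) (1 / n) z - F0 χ (n * e) ((Mc j (-b) hl).t (z + o)))) := by ring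
  rw [e3, abs_neg, abs_mul, abs_of_pos h0]
  refine (mul_le_mul_of_nonneg_left h6 h0.le).trans (le_of_eq ?_)
  field_simp
  ring

theorem tst_smul {U : Set ℂ} {f : ℂ → ℝ} (hf : Test U f) (m : ℝ) : Test U fun z => m * f z :=
  ⟨contDiff_const.mul hf.1, hf.2.1.mul_left, (tsupport_mul_subset_right).trans hf.2.2⟩

/-- The charge is neutral. -/
theorem sum_F {S : CA.Dat} {f g : ℂ → ℝ} (hf : Test S.P f) (hg : Test S.P g) (hf1 : ∫ x, f x = 1)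
    (hg1 : ∫ x, g x = 1) (θ : ℝ) {n : ℕ} (hn : 0 < n) :
    ∑ᶠ z, cms (fun z => -θ * f z + θ * g z) (1 / n) z = 0 := by
  rw [fsum_cms (CA.Test.add' (tst_smul hf (-θ)) (tst_smul hg θ)) hn,
    integral_add ((CA.Test.integrable hf).const_mul _) ((CA.Test.integrable hg).const_mul _),
    integral_const_mul, integral_const_mul, hf1, hg1]
  ring

theorem cms_two {S : CA.Dat} {f g : ℂ → ℝ} (hf : Test S.P f) (hg : Test S.P g) (θ : ℝ) (n : ℕ)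
    (z : ℤ × ℤ) : cms (fun z => -θ * f z + θ * g z) (1 / n) z =
      θ * cms g (1 / n) z - θ * cms f (1 / n) z := by
  rw [CA.cms_add ((CA.Test.integrable hf).const_mul _)
      ((CA.Test.integrable hg).const_mul _), CA.cms_smul, CA.cms_smul]
  ring

theorem ne_two {θ a b : ℝ} (h : θ * a - θ * b ≠ 0) (ha : a = 0) : b ≠ 0 := by
  intro hb
  exact h (by rw [ha, hb]; ring)

/-- The support of the moved lattice bump. -/
theorem supp_G {S : CA.Dat} {w : Bool} {χ : ℂ → ℝ} {d : ℝ} (hd0 : 0 < d)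
    (hd : ∀ u, χ u ≠ 0 → ‖u‖ ≤ 1 ∧ d ≤ u.im) {e κ r : ℝ} (he : 0 < e) (her : 16 * e ≤ r)
    (hκ : 0 < κ) (k3 : κ ≤ d * e / 2) (k4 : κ ≤ e) {j : Fin 4} {n : ℕ} (hn0 : 0 < n)
    (t2 : 2 / (d * e) ≤ (n : ℝ)) (t3 : 2 / e ≤ (n : ℝ)) {a : ℤ × ℤ} (hl : Even (a.1 + a.2))
    (hflt : ∀ R : ℤ, 1 ≤ R → 4 * (R : ℝ) ≤ r * n →
        FltQ ((Mc j a hl).S (Dw S w n)) eta0 (0, 0) R false false) {z : ℤ × ℤ}
    (hz : F0 χ (n * e) ((Mc j a hl).t (z + ow w)) ≠ 0) : z ∈ sites (ero S.Q n ⌊κ * n⌋) := by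
  have hn : (0 : ℝ) < n := by exact_mod_cast hn0
  have hn1 : (1 : ℝ) ≤ n := by exact_mod_cast hn0
  rw [div_le_iff₀ (by positivity)] at t2 t3
  have hκ0 : 0 ≤ ⌊κ * n⌋ := Int.floor_nonneg.2 (by positivity)
  have hκn := Int.floor_le (κ * n)
  have hne : 0 < (n : ℝ) * e := by positivity
  obtain ⟨g1, g2, g3⟩ := F0_supp hd hne hz
  have e1 := Int.le_ceil ((n : ℝ) * e)
  have e2 := Int.ceil_lt_add_one ((n : ℝ) * e)
  have m1 : κ * n ≤ d * e / 2 * n := mul_le_mul_of_nonneg_right k3 hn.le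
  have m2 : κ * n ≤ e * n := mul_le_mul_of_nonneg_right k4 hn.le
  have m3 : 16 * e * n ≤ r * n := mul_le_mul_of_nonneg_right her hn.le
  refine supp_ero hl (R := ⌈(n : ℝ) * e⌉ + 1 + ⌊κ * n⌋ + 1) (A := ⌈(n : ℝ) * e⌉ + 1) hκ0
    (hflt _ ?_ ?_) le_rfl rfl ?_ ?_ ?_
  · have : 0 ≤ ⌈(n : ℝ) * e⌉ := Int.ceil_nonneg hne.le
    omega
  · push_cast
    linarith
  · have : (|((Mc j a hl).t (z + ow w)).1| : ℝ) ≤ ⌈(n : ℝ) * e⌉ + 1 := by linarith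
    exact_mod_cast this
  · have : ((⌊κ * n⌋ : ℤ) : ℝ) + 1 ≤ ((Mc j a hl).t (z + ow w)).2 := by linarith
    exact_mod_cast this
  · have : (((Mc j a hl).t (z + ow w)).2 : ℝ) ≤ ⌈(n : ℝ) * e⌉ + 1 := by linarith
    exact_mod_cast this

/-- **Replacement of the bump** at the flat point by the lattice bump in the frame. -/
theorem rep_c {S : CA.Dat} {θ β : ℝ} (h0 : 0 < θ) (h1 : θ ≤ Real.pi / 3)
    (hβ : Real.cos (θ / 2 + β) = Real.sin θ) (hR : RSW (2 * Real.cos θ)) (w : Bool)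
    {L : Filter ℕ} (hL : L ≤ atTop) (hc : L.IsCountablyGenerated) {η : ℕ → Cfg}
    (hη : ∀ᶠ n in L, Dob (η n) (S.D n) (qS S n) (kS S (bcw w) n))
    {χ χp : ℂ → ℝ} (hχ : Shp Complex.I χ) (hχp : Shp Complex.I χp) {νp : ℂ} {rp : ℝ}
    (hFp : Flat S.P S.bp νp rp) {ρ : ℝ} (hρ : 0 < ρ) (hρr : ρ < rp)
    {c ν : ℂ} {r : ℝ} (hF : Flat S.P c ν r) {e : ℝ} (he : 0 < e) (her : 16 * e ≤ r) {j : Fin 4}
    (hj : ∀ z : ℤ × ℤ, pt ((rk j).t z) = Complex.I * conj ν * pt z) :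
    ∃ C : ℝ, 0 < C ∧ ∀ᶠ n : ℕ in L, ∀ (l : ℕ)
      (hl : Even ((-(qw S w n l)).1 + (-(qw S w n l)).2)),
      ‖pt (qw S w n l) - pt (ow w) - n * c‖ ≤ 3 →
      (∀ R : ℤ, 1 ≤ R → 4 * (R : ℝ) ≤ r * n →
        FltQ ((Mc j (-(qw S w n l)) hl).S (Dw S w n)) eta0 (0, 0) R false false) →
      |((bdG S θ β (bcw w) (bcw_in w S.l) L hL hc η hη).famB h0 h1 hβ).V n
          (fun z => -θ * fb χ ν c e z + θ * fb χp νp S.bp ρ z) -
        Ex (2 * Real.cos θ) (Dw S w n) eta0 (XG θ (qw S w n) (Dw S w n) (S.l * n)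
          fun z => θ * cms (fb χp νp S.bp ρ) (1 / n) (z - ow w) -
            θ * F0 χ (n * e) ((Mc j (-(qw S w n l)) hl).t z))| ≤ C / n := by
  have hr0 := hF.pos
  have hbc := fb_bp hχ hF he (by linarith)
  have hbp := fb_bp hχp hFp hρ hρr
  obtain ⟨κ1, hκ1, hs1⟩ := H542.Dt.exists_supp S hbc.test
  obtain ⟨κ2, hκ2, hs2⟩ := H542.Dt.exists_supp S hbp.test
  obtain ⟨M1, hM1, hb1⟩ := H542.Dt.exists_bd hbc.test
  obtain ⟨M2, hM2, hb2⟩ := H542.Dt.exists_bd hbp.test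
  obtain ⟨B, hB0, hB⟩ := shp_bd hχ
  obtain ⟨d, hd0, hd⟩ := shp_supp hχ
  obtain ⟨Lc, hLc0, hLc⟩ := shp_lip hχ
  obtain ⟨κ, hκ, k1, k2, k3, k4⟩ : ∃ κ : ℝ, 0 < κ ∧ κ ≤ κ1 ∧ κ ≤ κ2 ∧ κ ≤ d * e / 2 ∧ κ ≤ e :=
    ⟨min (min κ1 κ2) (min (d * e / 2) e), by positivity,
      (min_le_left _ _).trans (min_le_left _ _), (min_le_left _ _).trans (min_le_right _ _),
      (min_le_right _ _).trans (min_le_left _ _), (min_le_right _ _).trans (min_le_right _ _)⟩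
  obtain ⟨Cm, hCm⟩ : ∃ Cm : ℝ, Cm = θ * (M1 + M2 + B / e ^ 2) + 1 := ⟨_, rfl⟩
  have hCm0 : 0 < Cm := by rw [hCm]; positivity
  have hCmA : θ * (M2 + M1) ≤ Cm := by
    rw [hCm]
    have : 0 ≤ θ * (B / e ^ 2) := by positivity
    nlinarith
  have hCmB : θ * (M2 + B / e ^ 2) ≤ Cm := by
    rw [hCm]
    have : 0 ≤ θ * M1 := by positivity
    nlinarith
  set X := bdG S θ β (bcw w) (bcw_in w S.l) L hL hc η hη with hX
  obtain ⟨C0, hC0, hsh⟩ := H208.SH.shift X h0 h1 hβ hR hκ hCm0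
  have hXL : X.L = L := rfl
  rw [hXL] at hsh
  obtain ⟨E, hE⟩ : ∃ E : ℝ, E = θ * (Lc * 7) / e ^ 3 / Cm := ⟨_, rfl⟩
  have hE0 : 0 ≤ E := by rw [hE]; positivity
  refine ⟨C0 * E + 1, by positivity, ?_⟩
  have t1 : ∀ᶠ n : ℕ in atTop, E ≤ (n : ℝ) := tendsto_natCast_atTop_atTop.eventually_ge_atTop _
  have t2 : ∀ᶠ n : ℕ in atTop, 2 / (d * e) ≤ (n : ℝ) :=
    tendsto_natCast_atTop_atTop.eventually_ge_atTop _
  have t3 : ∀ᶠ n : ℕ in atTop, 2 / e ≤ (n : ℝ) := tendsto_natCast_atTop_atTop.eventually_ge_atTop _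
  filter_upwards [hsh, hL hs1, hL hs2, hL t1, hL t2, hL t3, hL (eventually_gt_atTop 0),
    V_kind (β := β) S w h0 h1 hL hη] with n hsh hs1 hs2 t1 t2 t3 hn0 hV l hl hnear hflt
  have hn : (0 : ℝ) < n := by exact_mod_cast hn0
  have hn1 : (1 : ℝ) ≤ n := by exact_mod_cast hn0
  have hκ0 : 0 ≤ ⌊κ * n⌋ := Int.floor_nonneg.2 (by positivity)
  have hκ1' : (⌊κ * n⌋ : ℝ) ≤ κ1 * n :=
    (Int.floor_le (κ * n)).trans (mul_le_mul_of_nonneg_right k1 hn.le)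
  have hκ2' : (⌊κ * n⌋ : ℝ) ≤ κ2 * n :=
    (Int.floor_le (κ * n)).trans (mul_le_mul_of_nonneg_right k2 hn.le)
  -- the lattice functions
  set M := Mc j (-(qw S w n l)) hl with hM
  obtain ⟨F, hFd⟩ : ∃ F : ℤ × ℤ → ℝ, F = cms (fun z => -θ * fb χ ν c e z + θ * fb χp νp S.bp ρ z)
    (1 / n) := ⟨_, rfl⟩
  have hF' : ∀ z, F z = θ * cms (fb χp νp S.bp ρ) (1 / n) z - θ * cms (fb χ ν c e) (1 / n) z := by
    intro z
    rw [hFd]
    exact cms_two hbc.test hbp.test θ n z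
  obtain ⟨G, hG⟩ : ∃ G : ℤ × ℤ → ℝ, G = fun z => θ * cms (fb χp νp S.bp ρ) (1 / n) z -
    θ * F0 χ (n * e) (M.t (z + ow w)) := ⟨_, rfl⟩
  have hne : 0 < (n : ℝ) * e := by positivity
  have hGs : ∀ z, F0 χ (n * e) (M.t (z + ow w)) ≠ 0 → z ∈ sites (ero S.Q n ⌊κ * n⌋) := fun z hz =>
    supp_G hd0 hd he her hκ k3 k4 hn0 t2 t3 hl hflt hz
  have c1 : ∀ z, |cms (fb χ ν c e) (1 / n) z| ≤ M1 / (n : ℝ) ^ 2 := H542.Dt.cms_abs_le hb1 hn0
  have c2 : ∀ z, |cms (fb χp νp S.bp ρ) (1 / n) z| ≤ M2 / (n : ℝ) ^ 2 := H542.Dt.cms_abs_le hb2 hn0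
  have c3 : ∀ z, |F0 χ (n * e) z| ≤ B / e ^ 2 / (n : ℝ) ^ 2 := by
    intro z
    refine (F0_le hB hne z).trans (le_of_eq ?_)
    rw [mul_pow, mul_comm, div_div]
  have hn2 : (0 : ℝ) < (n : ℝ) ^ 2 := by positivity
  have key := hsh F G ?_ ?_ ?_ ?_ ?_ ?_ (E / n) (by positivity) ?_ ?_
  · have e1 : ((X.famB h0 h1 hβ).V n (fun z => -θ * fb χ ν c e z + θ * fb χp νp S.bp ρ z)) =
        Ex (2 * Real.cos θ) (S.D n) (X.η n) (QX.XB θ β (X.q n) (S.D n) (X.k n) F) := by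
      rw [hFd]
      exact H542.Q.BD.famB_V X h0 h1 hβ n _
    have e2 : Ex (2 * Real.cos θ) (S.D n) (X.η n) (QX.XB θ β (X.q n) (S.D n) (X.k n) G) =
        Ex (2 * Real.cos θ) (Dw S w n) eta0 (XG θ (qw S w n) (Dw S w n) (S.l * n)
          fun z => θ * cms (fb χp νp S.bp ρ) (1 / n) (z - ow w) - θ * F0 χ (n * e) (M.t z)) := by
      refine (hV G).trans ?_
      rw [hG]
      simp only [sub_add_cancel]
    rw [e1, ← e2]
    refine key.trans ?_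
    rw [← mul_div_assoc]
    exact div_le_div_of_nonneg_right (by linarith) hn.le
  · intro z hz
    rw [hF'] at hz
    by_cases h5 : cms (fb χp νp S.bp ρ) (1 / n) z = 0
    · exact hs1 _ hκ0 hκ1' z (ne_two hz h5)
    · exact hs2 _ hκ0 hκ2' z h5
  · intro z hz
    rw [hG] at hz
    by_cases h5 : cms (fb χp νp S.bp ρ) (1 / n) z = 0
    · exact hGs z (ne_two hz h5)
    · exact hs2 _ hκ0 hκ2' z h5
  · intro z
    rw [hF']
    exact two_bd h0 hn2 (c2 z) (c1 z) hCmA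
  · intro z
    rw [hG]
    exact two_bd h0 hn2 (c2 z) (c3 _) hCmB
  · rw [hFd]
    exact sum_F hbc.test hbp.test hbc.mass hbp.mass θ hn0
  · rw [hG]
    exact fsum_G hbp.test hbp.mass hχ hne hn0 θ ((Equiv.addRight (ow w)).trans M.t)
  · rw [div_le_one hn]
    exact t1
  · intro z
    rw [hF', hG, hE]
    exact cmp_FG hχ hLc0 hLc h0 hF.norm he hj hn0 hl hnear hCm0 z

end Vale.Agent.P167.H411.Q
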