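import Vale.Agent.P167.H760.Q.Tr
import Vale.Agent.P167.QX.Stag
import Vale.Agent.P167.H718.Par3
import Vale.Agent.P167.QB.Defs

/-!
# P167, general `q`: the symmetries of the lattice act on the polygons and on the functionals `XB`

`Frm T r` : the symmetry `T` of helper760 turns the directions by `r`. For a frame which preserves the
colours (`T.o = false`) the functional `XB` of the polygon `T ∘ q` is the functional of `q`; for a frame
which exchanges the colours the functional of the wired polygon `T ∘ q` is the functional of the free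
polygon `q`.
-/

namespace Vale.Agent.P167.H411.Q.Sym

open Finset Vale.Agent.P167 Vale.Agent.P167.BR Vale.Agent.P167.FK
open Vale.Agent.P145.FB (PStep)
open Vale.Agent.P167.E6 (IsPolygon Encloses dir face)
open Vale.Agent.P167.H760 (Tr Co)
open Vale.Agent.P167.H718 (IsXY IsCl Cl Dob OutC)
open Vale.Agent.P167.QX (wB XB lo hi)

/-- The frame turns the directions by `r₀`. -/
structure Frm (T : Tr) (r₀ : Fin 4) : Prop where
  dir : ∀ z r, T.S (z + dir r) = T.S z + dir (r + r₀)
  face : ∀ v r, T.Q (face v r) = face (T.S v) (r + r₀)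
  ce : ∀ v r, T.E (ce v r) = ce (T.S v) (r + r₀)
  par : ∀ z, Even ((T.S z).1 + (T.S z).2) ↔ (Even (z.1 + z.2) ↔ T.o = false)

theorem frm_one : Frm Tr.one 0 where
  dir z r := by rw [add_zero]; rfl
  face v r := by rw [add_zero]; rfl
  ce v r := by rw [add_zero]; rfl
  par z := by
    show Even (z.1 + z.2) ↔ (Even (z.1 + z.2) ↔ false = false)
    simp

theorem frm_rot : Frm Tr.rot 1 where
  dir z r := by
    show Tr.rS (z + E6.dir r) = Tr.rS z + E6.dir (r + 1)
    rw [Tr.rS_apply, Tr.rS_apply]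
    fin_cases r <;> ext <;> simp [E6.dir] <;> ring
  face v r := by
    show Tr.rQ (E6.face v r) = E6.face (Tr.rS v) (r + 1)
    rw [Tr.rQ_apply, Tr.rS_apply]
    fin_cases r <;> ext <;> simp [E6.face] <;> ring
  ce v r := by
    show Tr.rE (ce v r) = BR.ce (Tr.rS v) (r + 1)
    rw [Tr.rS_apply]
    fin_cases r
    · show Tr.rE (Sum.inr (v.1, v.2 - 1)) = Sum.inl (-v.2 - 1, v.1)
      rw [Tr.rE_r]
      congr 2
      ring
    · show Tr.rE (Sum.inl (v.1 - 1, v.2)) = Sum.inr (-v.2 - 1, v.1 - 1)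
      rw [Tr.rE_l]
    · show Tr.rE (Sum.inr (v.1 - 1, v.2 - 1)) = Sum.inl (-v.2 - 1, v.1 - 1)
      rw [Tr.rE_r]
      congr 2
      ring
    · show Tr.rE (Sum.inl (v.1 - 1, v.2 - 1)) = Sum.inr (-v.2, v.1 - 1)
      rw [Tr.rE_l]
      congr 2
      ring
  par z := by
    show Even (-z.2 + z.1) ↔ (Even (z.1 + z.2) ↔ false = false)
    simp only [iff_true]
    rw [Int.even_iff, Int.even_iff]; omega

theorem frm_tr (a : ℤ × ℤ) : Frm (Tr.tr a) 0 where
  dir z r := by
    rw [add_zero]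
    show z + E6.dir r + a = z + a + E6.dir r
    ring
  face v r := by
    rw [add_zero]
    show E6.face v r + a = E6.face (v + a) r
    unfold E6.face
    ring
  ce v r := by
    rw [add_zero]
    show H135.shE a (BR.ce v r) = BR.ce (v + a) r
    exact (H718.ce_add v a r).symm
  par z := by
    show Even ((z.1 + a.1) + (z.2 + a.2)) ↔ (Even (z.1 + z.2) ↔ (!decide (Even (a.1 + a.2))) = false)
    simp only [Bool.not_eq_false', decide_eq_true_eq]
    simp only [Int.even_iff]; omega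

theorem Frm.comp {A B : Tr} {r s : Fin 4} (hA : Frm A r) (hB : Frm B s) : Frm (A.comp B) (r + s) where
  dir z t := by
    show B.S (A.S (z + E6.dir t)) = B.S (A.S z) + E6.dir (t + (r + s))
    rw [hA.dir, hB.dir, add_assoc]
  face v t := by
    show B.Q (A.Q (E6.face v t)) = E6.face (B.S (A.S v)) (t + (r + s))
    rw [hA.face, hB.face, add_assoc]
  ce v t := by
    show B.E (A.E (BR.ce v t)) = BR.ce (B.S (A.S v)) (t + (r + s))
    rw [hA.ce, hB.ce, add_assoc]
  par z := by
    show Even ((B.S (A.S z)).1 + (B.S (A.S z)).2) ↔ (Even (z.1 + z.2) ↔ xor A.o B.o = false)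
    rw [hB.par, hA.par]
    cases A.o <;> cases B.o <;> simp

theorem frm_rp (r : Fin 4) : Frm (Tr.rp r) r := by
  fin_cases r
  · exact frm_one
  · exact frm_rot
  · exact frm_rot.comp frm_rot
  · exact (frm_rot.comp frm_rot).comp frm_rot

theorem frm_fr (a : ℤ × ℤ) (r : Fin 4) : Frm (Tr.fr a r) r := by
  have h := (frm_rp r).comp (frm_tr a)
  rw [add_zero] at h
  exact h

theorem fr_o {a : ℤ × ℤ} (r : Fin 4) (ha : Even (a.1 + a.2)) : (Tr.fr a r).o = false := by
  have h := (frm_fr a r).par 0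
  rw [Tr.fr_S] at h
  simp only [Prod.fst_zero, Prod.snd_zero, zero_smul, add_zero] at h
  exact (h.1 ha).1 (by simp)

theorem fr_o' {a : ℤ × ℤ} (r : Fin 4) (ha : ¬ Even (a.1 + a.2)) : (Tr.fr a r).o = true := by
  have h := (frm_fr a r).par 0
  rw [Tr.fr_S] at h
  simp only [Prod.fst_zero, Prod.snd_zero, zero_smul, add_zero] at h
  by_contra hcon
  rw [Bool.not_eq_true] at hcon
  exact ha (h.2 ⟨fun _ => hcon, fun _ => by simp⟩)

section

variable {T : Tr} {r₀ : Fin 4} (hT : Frm T r₀) {n k : ℕ} {q : ZMod n → ℤ × ℤ}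
  {D : Finset (ℤ × ℤ)} {ω η : Cfg} {A : Finset Ed}
include hT

/-! ### The polygon -/

theorem poly_T (hq : IsPolygon q) : IsPolygon fun i => T.S (q i) := by
  refine ⟨hq.1, fun i j h => hq.2.1 (T.S.injective h), fun i => ?_⟩
  obtain ⟨r, hr⟩ := hq.2.2 i
  refine ⟨r + r₀, ?_⟩
  show T.S (q (i + 1)) = T.S (q i) + dir (r + r₀)
  rw [hr, hT.dir]

theorem encl_T (hD : Encloses q D) : Encloses (fun i => T.S (q i)) (T.im D) := by
  intro v r
  obtain ⟨v, rfl⟩ := T.S.surjective v
  obtain ⟨s, rfl⟩ : ∃ s, r = s + r₀ := ⟨r - r₀, (sub_add_cancel r r₀).symm⟩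
  have e : s + r₀ - 1 = (s - 1) + r₀ := by abel
  rw [e, ← hT.face, ← hT.face, T.mem_im, T.mem_im, ← hD v s]
  constructor
  · rintro ⟨i, h1, h2⟩
    refine ⟨i, T.S.injective h1, T.S.injective ?_⟩
    rw [hT.dir]
    exact h2
  · rintro ⟨i, h1, h2⟩
    refine ⟨i, congrArg T.S h1, ?_⟩
    show T.S (q (i + 1)) = _
    rw [h2, hT.dir]

theorem be_T (hq : IsPolygon q) (i : ZMod n) : be (fun i => T.S (q i)) i = T.E (be q i) := by
  have h1 : E2.ro q i + r₀ = E2.ro (fun i => T.S (q i)) i := by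
    apply E2.ro_unique (poly_T hT hq)
    rw [← hT.dir, ← E2.ro_spec hq i]
  unfold be
  rw [← h1, hT.ce]

theorem mem_be (hq : IsPolygon q) (i : ZMod n) :
    be (fun i => T.S (q i)) i ∈ T.imE A ↔ be q i ∈ A := by
  rw [be_T hT hq, T.mem_imE]

theorem lo_T (hq : IsPolygon q) : lo (fun i => T.S (q i)) (T.imE A) = lo q A := by
  unfold lo
  simp only [mem_be hT hq]

theorem hi_T (hq : IsPolygon q) : hi (fun i => T.S (q i)) (T.imE A) = hi q A := by
  unfold hi
  simp only [mem_be hT hq]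

theorem isXY_T (hq : IsPolygon q) {x y : ℕ} :
    IsXY (fun i => T.S (q i)) (T.imE A) x y ↔ if T.o then IsXY q A y x else IsXY q A x y := by
  unfold IsXY
  rw [mem_be hT hq, mem_be hT hq, hT.par, hT.par]
  rcases T.o with _ | _
  · simp
  · simp
    tauto

theorem isCl_T (hq : IsPolygon q) (hA : A ∈ pcs ω D) (ho : T.o = false) :
    IsCl (T.im D) (fun i => T.S (q i)) k (T.imE A) ↔ IsCl D q k A := by
  unfold IsCl
  rw [T.isLpT hA]
  simp only [isXY_T hT hq, ho]
  rfl

theorem isCl_T' (hq : IsPolygon q) (hA : A ∈ pcs ω D) (ho : T.o = true) :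
    IsCl (T.im D) (fun i => T.S (q i)) 0 (T.imE A) ↔ IsCl D q n A := by
  unfold IsCl
  rw [T.isLpT hA]
  simp only [isXY_T hT hq, ho, if_true]
  refine or_congr Iff.rfl ⟨?_, ?_⟩
  · rintro ⟨x, y, h1, h2⟩
    refine ⟨y, x, h1, ?_⟩
    unfold Cl at *
    have := h1.1
    have := h1.2.1
    omega
  · rintro ⟨x, y, h1, h2⟩
    refine ⟨y, x, h1, ?_⟩
    unfold Cl at *
    have := h1.1
    have := h1.2.1
    omega

theorem wB_T (θ β : ℝ) (hq : IsPolygon q) (hA : A ∈ pcs ω D) (ho : T.o = false) (t : ℝ) :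
    wB θ β (fun i => T.S (q i)) (T.im D) k (T.imE A) t = wB θ β q D k A t := by
  have h1 := T.isLpT hA
  have h2 := isCl_T (k := k) hT hq hA ho
  unfold wB
  rw [lo_T hT hq, hi_T hT hq]
  by_cases hl : IsLp D A
  · rw [if_pos hl, if_pos (h1.2 hl)]
  · rw [if_neg hl, if_neg (fun h => hl (h1.1 h))]
    by_cases hc : lo q A < k ∧ k ≤ hi q A
    · rw [if_pos hc, if_pos hc]
    · rw [if_neg hc, if_neg hc]
      by_cases hd : IsCl D q k A
      · rw [if_pos hd, if_pos (h2.2 hd)]
      · rw [if_neg hd, if_neg (fun h => hd (h2.1 h))]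

theorem wB_T' (θ β : ℝ) (hq : IsPolygon q) (hD : Encloses q D) (hA : A ∈ pcs ω D) (ho : T.o = true)
    (t : ℝ) :
    wB θ β (fun i => T.S (q i)) (T.im D) 0 (T.imE A) t = wB θ β q D n A t := by
  have e1 := T.isLpT hA
  have e2 := isCl_T' hT hq hA ho
  unfold wB
  rw [lo_T hT hq, hi_T hT hq]
  by_cases hl : IsLp D A
  · rw [if_pos hl, if_pos (e1.2 hl)]
  · rw [if_neg hl, if_neg (fun h => hl (e1.1 h))]
    have h1 : ¬ (lo q A < 0 ∧ 0 ≤ hi q A) := by omega
    have h2 : ¬ (lo q A < n ∧ n ≤ hi q A) := by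
      obtain ⟨x, y, hxy⟩ := QX.exists_xy hq hD hA hl
      have h3 := QX.hi_xy hq hD hA hxy
      have := hxy.1
      have := hxy.2.1
      omega
    rw [if_neg h1, if_neg h2]
    by_cases hd : IsCl D q n A
    · rw [if_pos hd, if_pos (e2.2 hd)]
    · rw [if_neg hd, if_neg (fun h => hd (e2.1 h))]

/-- **The functional in a frame.** -/
theorem XB_T (θ β : ℝ) (hq : IsPolygon q) (ho : T.o = false) (f : ℤ × ℤ → ℝ) :
    XB θ β (fun i => T.S (q i)) (T.im D) k f (T.C ω) = XB θ β q D k (fun z => f (T.S z)) ω := by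
  classical
  unfold QX.XB
  rw [T.pcsT, prod_image fun x _ y _ h => T.imE_inj h]
  refine prod_congr rfl fun A hA => ?_
  rw [T.massT, wB_T hT θ β hq hA ho]

/-- **The functional of the wired polygon** is the functional of the free polygon. -/
theorem XB_T' (θ β : ℝ) (hq : IsPolygon q) (hD : Encloses q D) (ho : T.o = true)
    (f : ℤ × ℤ → ℝ) :
    XB θ β (fun i => T.S (q i)) (T.im D) 0 f (T.C ω) = XB θ β q D n (fun z => f (T.S z)) ω := by
  classical
  unfold QX.XB
  rw [T.pcsT, prod_image fun x _ y _ h => T.imE_inj h]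
  refine prod_congr rfl fun A hA => ?_
  rw [T.massT, wB_T' hT θ β hq hD hA ho]

end

end Vale.Agent.P167.H411.Q.Sym
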