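import Vale.Agent.P167.H411.Q.LStep

/-!
# P167, general `q`, block Q-ID: the difference of the wired and the free potentials is constant
-/

open Set Metric Filter Topology MeasureTheory Bornology
open scoped ComplexConjugate ContDiff

namespace Vale.Agent.P167.H411.Q

open Vale.Agent.P153.R2.R1 Vale.Agent.P167.H411.B7
open Vale.Agent.P167.BVP (Flat Test lpot npot)
open Vale.Agent.P167.CA (Dat Pair)
open Vale.Agent.P167.CAQ (Fam Arc PotLim)

/-! ### Flat pieces -/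

theorem flat_foot {P : Set ℂ} {q ν : ℂ} {r : ℝ} (hF : Flat P q ν r) {c : ℂ} (hc : ‖c - q‖ < r / 2)
    (h0 : ((c - q) * conj ν).re = 0) : Flat P c ν (r / 2) where
  norm := hF.norm
  pos := by have := hF.pos; positivity
  mem z hz := by
    have h1 : z ∈ ball q r := by
      rw [mem_ball, dist_eq_norm] at hz ⊢
      have e : z - q = (z - c) + (c - q) := by ring
      rw [e]
      exact (norm_add_le _ _).trans_lt (by linarith)
    rw [hF.mem z h1]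
    have e : (z - q) * conj ν = (z - c) * conj ν + (c - q) * conj ν := by ring
    rw [e, Complex.add_re, h0, add_zero]

/-- The foot of a point near a flat side. -/
theorem exists_foot {P : Set ℂ} {q ν : ℂ} {r : ℝ} (hF : Flat P q ν r) {w : ℂ} (hw : w ∈ P)
    (hwq : ‖w - q‖ < r / 4) : ∃ (c : ℂ) (t : ℝ), 0 < t ∧ t ≤ ‖w - q‖ ∧ w = c + t * ν ∧
      Flat P c ν (r / 2) ∧ ball c (r / 2) ⊆ ball q r ∧ t ≤ infDist w Pᶜ := by
  have hr := hF.pos
  have hνν : ν * conj ν = 1 := norm_mul_conj hF.norm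
  set t : ℝ := ((w - q) * conj ν).re with ht
  have hwr : w ∈ ball q r := by rw [mem_ball, dist_eq_norm]; linarith
  have ht0 : 0 < t := (hF.mem w hwr).1 hw
  have htn : t ≤ ‖w - q‖ := by
    refine (Complex.re_le_norm _).trans ?_
    rw [norm_mul, RCLike.norm_conj, hF.norm, mul_one]
  set c : ℂ := w - t * ν with hc
  have e1 : (c - q) * conj ν = (w - q) * conj ν - t := by
    rw [hc]; linear_combination (-(t : ℂ)) * hνν
  have h0 : ((c - q) * conj ν).re = 0 := by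
    rw [e1, Complex.sub_re, Complex.ofReal_re, ← ht, sub_self]
  have hcq : ‖c - q‖ ≤ ‖w - q‖ := by
    have e2 : ‖c - q‖ = ‖(c - q) * conj ν‖ := by
      rw [norm_mul, RCLike.norm_conj, hF.norm, mul_one]
    have e3 : ‖w - q‖ = ‖(w - q) * conj ν‖ := by
      rw [norm_mul, RCLike.norm_conj, hF.norm, mul_one]
    rw [e2, e3, ← sq_le_sq₀ (norm_nonneg _) (norm_nonneg _), ← Complex.normSq_eq_norm_sq,
      ← Complex.normSq_eq_norm_sq, Complex.normSq_apply, Complex.normSq_apply, h0, e1,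
      Complex.sub_im, Complex.ofReal_im, sub_zero]
    nlinarith [mul_self_nonneg ((w - q) * conj ν).re]
  have hcr : ‖c - q‖ < r / 2 := by linarith
  have hball : ball c (r / 2) ⊆ ball q r := by
    intro z hz
    rw [mem_ball, dist_eq_norm] at hz ⊢
    have e : z - q = (z - c) + (c - q) := by ring
    rw [e]
    exact (norm_add_le _ _).trans_lt (by linarith)
  refine ⟨c, t, ht0, htn, by rw [hc]; ring, flat_foot hF hcr h0, hball, ?_⟩
  -- the disc of radius `t` around `w` is in `P`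
  have hsub : ball w t ⊆ P := by
    intro z hz
    rw [mem_ball, dist_eq_norm] at hz
    have h1 : z ∈ ball q r := by
      rw [mem_ball, dist_eq_norm]
      have e : z - q = (z - w) + (w - q) := by ring
      rw [e]
      exact (norm_add_le _ _).trans_lt (by linarith)
    rw [hF.mem z h1]
    have e : (z - q) * conj ν = (z - w) * conj ν + (w - q) * conj ν := by ring
    rw [e, Complex.add_re, ← ht]
    have h2 : |((z - w) * conj ν).re| < t := by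
      refine (Complex.abs_re_le_norm _).trans_lt ?_
      rwa [norm_mul, RCLike.norm_conj, hF.norm, mul_one]
    linarith [(abs_lt.1 h2).1]
  have hne : (Pᶜ).Nonempty := by
    refine ⟨q, fun hq => ?_⟩
    have := (hF.mem q (mem_ball_self hr)).1 hq
    simp at this
  refine (le_infDist hne).2 fun y hy => ?_
  by_contra hlt
  push Not at hlt
  exact hy (hsub (by rw [mem_ball, dist_comm]; exact hlt))

/-! ### Small shapes -/

theorem exists_small {κ : ℝ} (hκ : 0 < κ) (hκ1 : κ ≤ 1 / 4) :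
    ∃ χ : ℂ → ℝ, Shp Complex.I χ ∧ tsupport χ ⊆ closedBall (Complex.I / 2) κ := by
  set B : ContDiffBump (Complex.I / 2 : ℂ) := ⟨κ / 2, κ, by positivity, by linarith⟩ with hB
  refine ⟨B.normed volume, ⟨B.contDiff_normed, ?_, fun z => B.nonneg_normed z, B.integral_normed⟩,
    by rw [B.tsupport_normed_eq]⟩
  rw [B.tsupport_normed_eq]
  intro z hz
  have hz' : ‖z - Complex.I / 2‖ ≤ 1 / 4 := by
    have := mem_closedBall.1 hz
    rw [dist_eq_norm] at this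
    exact this.trans hκ1
  constructor
  · rw [mem_closedBall_zero_iff]
    have e : z = (z - Complex.I / 2) + Complex.I / 2 := by ring
    rw [e]
    refine (norm_add_le _ _).trans ?_
    rw [norm_div, Complex.norm_I]
    norm_num
    linarith
  · show 0 < (z * conj Complex.I).re
    have h1 := (Complex.abs_im_le_norm (z - Complex.I / 2)).trans hz'
    have h2 : (z - Complex.I / 2).im = z.im - 1 / 2 := by simp
    have h3 : (z * conj Complex.I).re = z.im := by simp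
    rw [h2, abs_le] at h1
    rw [h3]
    linarith [h1.1]

theorem fb_supp {χ : ℂ → ℝ} {κ : ℝ} (hs : tsupport χ ⊆ closedBall (Complex.I / 2) κ) {ν c : ℂ}
    (hν : ‖ν‖ = 1) {η : ℝ} (hη : 0 < η) {z : ℂ} (hz : z ∈ tsupport (fb χ ν c η)) :
    ‖z - (c + (η / 2 : ℝ) * ν)‖ ≤ κ * η := by
  have hη0 : (η : ℂ) ≠ 0 := by exact_mod_cast hη.ne'
  rw [fb_eq] at hz
  have h1 := tsupport_scb c hz
  have hcl : IsClosed {u : ℂ | Complex.I * conj ν * u ∈ tsupport χ} :=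
    (isClosed_tsupport χ).preimage (by fun_prop)
  have hsub : tsupport (rot χ ν) ⊆ {u : ℂ | Complex.I * conj ν * u ∈ tsupport χ} :=
    closure_minimal (fun z hz => subset_tsupport _ hz) hcl
  have h2 := hs (hsub h1)
  rw [mem_closedBall, dist_eq_norm] at h2
  have hνν : ν * conj ν = 1 := norm_mul_conj hν
  have e : Complex.I * conj ν * ((z - c) / η) - Complex.I / 2 =
      Complex.I * conj ν * ((z - (c + (η / 2 : ℝ) * ν)) / η) := by
    push_cast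
    field_simp
    linear_combination (η : ℂ) * hνν
  rw [e, norm_mul, norm_om hν, one_mul, norm_div, Complex.norm_real, Real.norm_of_nonneg hη.le,
    div_le_iff₀ hη] at h2
  exact h2

/-! ### Averages of the limits -/

variable {S : Dat} {K K' : Set ℂ} {Y Z : ℂ → ℝ}

theorem avg_pot (hK : Arc S K) (hY : PotLim S K Y) : ∃ C β : ℝ, 0 ≤ C ∧ 0 < β ∧
    ∀ (κ : ℝ), 0 < κ → κ ≤ 1 / 8 → ∀ (χ : ℂ → ℝ), Shp Complex.I χ →
      tsupport χ ⊆ closedBall (Complex.I / 2) κ → ∀ (c ν : ℂ) (r η : ℝ), Flat S.P c ν r → 0 < η →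
      η < r → η / 2 ≤ infDist (c + (η / 2 : ℝ) * ν) S.Pᶜ → c + (η / 2 : ℝ) * ν ∈ S.P →
      |(∫ z, fb χ ν c η z * Y z) - Y (c + (η / 2 : ℝ) * ν)| ≤ C * (2 * κ) ^ β := by
  obtain ⟨C, β, hC, hβ, hol⟩ := hY.hol
  refine ⟨C, β, hC, hβ, fun κ hκ hκ1 χ hχ hs c ν r η hF hη hηr hd hw => ?_⟩
  set w : ℂ := c + (η / 2 : ℝ) * ν with hwd
  have hφ := fb_bp hχ hF hη hηr
  have hYc : ContinuousOn Y S.P := hY.cont.mono fun z hz => ⟨CAQ.P_sub S hz, hK.notMem hz⟩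
  have hwK := hK.notMem hw
  have h2 : infDist w S.Pᶜ ≤ infDist w K :=
    infDist_le_infDist_of_subset (fun y hy' hyP => hK.notMem hyP hy') hK.ne
  have hpos := hK.pos hwK
  have h1 := avg_close hφ (u := Y) (v := fun _ => Y w) (ε := C * (2 * κ) ^ β)
    (integrable_mul_contOn (CAQ.isOpen_P S) hφ.test hYc)
    ((integrable_test hφ.test).mul_const _) (Eventually.of_forall fun z hz => by
      have hzP := (hφ.sub hz).1
      have h3 := fb_supp hs hF.norm hη hz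
      rw [← hwd, norm_sub_rev] at h3
      have h4 : ‖w - z‖ ≤ 2 * κ * infDist w K := by nlinarith
      have h5 : ‖w - z‖ < infDist w K / 2 := by nlinarith
      have h6 := hol w ⟨CAQ.P_sub S hw, hwK⟩ z ⟨CAQ.P_sub S hzP, hK.notMem hzP⟩ h5
      rw [abs_sub_comm] at h6
      refine h6.trans (mul_le_mul_of_nonneg_left ?_ hC)
      refine Real.rpow_le_rpow (by positivity) ?_ hβ.le
      rw [div_le_iff₀ hpos]
      exact h4)
  rw [integral_mul_const, hφ.mass, one_mul] at h1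
  exact h1

/-! ### From the invisible charge to the potentials -/

theorem abs_log_ratio {V T ε : ℝ} (hε0 : 0 < ε) (hε : ε ≤ 1 / 2) (hV : 0 < V)
    (h : |V - T| ≤ ε * T) : 0 < T ∧ |Real.log V - Real.log T| ≤ 2 * ε := by
  have hT : 0 < T := by
    by_contra hlt
    push Not at hlt
    have h1 : 0 ≤ ε * T := (abs_nonneg _).trans h
    rw [abs_le] at h
    nlinarith
  refine ⟨hT, ?_⟩
  have hT0 : (T : ℂ) ≠ 0 := by exact_mod_cast hT.ne'
  have h1 : ‖((V / T : ℝ) : ℂ) - 1‖ ≤ ε := by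
    have e : ((V / T : ℝ) : ℂ) - 1 = (((V - T) / T : ℝ) : ℂ) := by
      push_cast
      field_simp
    rw [e, Complex.norm_real, Real.norm_eq_abs, abs_div, abs_of_pos hT, div_le_iff₀ hT]
    exact h
  have h2 := abs_log_norm_le hε h1
  rwa [Complex.norm_real, Real.norm_of_nonneg (by positivity), Real.log_div hV.ne' hT.ne'] at h2

theorem U_of_loc {F : Fam S} (hcore : F.CORE) {ψ g : ℂ → ℂ} (hP : Pair S.P ψ g) {f : ℂ → ℝ}
    (hf : S.FF f) {μ ε : ℝ} (hε : 0 < ε) (hε1 : ε ≤ 1 / 2) {T : ℕ → ℝ}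
    (hb : ∀ᶠ n : ℕ in F.L, |F.V n (fun w => -μ * f w) - T n| ≤ ε * T n) :
    ∀ᶠ n : ℕ in F.L, 0 < T n ∧
      |μ * F.U n f - F.s / 2 * μ ^ 2 * CA.en g f f - Real.log (T n)| ≤ 3 * ε := by
  have hf' := CA.FF.smul hf (-μ)
  have h1 := (log_V hcore hP hf').eventually (Metric.ball_mem_nhds 0 hε)
  obtain ⟨c, C, hc, hbd⟩ := CAQ.V_bounds hcore hP hf'
  filter_upwards [hb, h1, hbd] with n hn h2 h3
  obtain ⟨hT, h4⟩ := abs_log_ratio hε hε1 (hc.trans_le h3.1) hn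
  refine ⟨hT, ?_⟩
  rw [dist_zero_right, Real.norm_eq_abs, CAQ.U_smul, CA.en_smul] at h2
  rw [abs_lt] at h2
  rw [abs_le] at h4 ⊢
  constructor <;> nlinarith [h2.1, h2.2, h4.1, h4.2]

theorem exists_kappa {C β ε : ℝ} (hβ : 0 < β) (hε : 0 < ε) :
    ∀ᶠ κ : ℝ in 𝓝[>] 0, C * (2 * κ) ^ β < ε := by
  have h1 : Tendsto (fun κ : ℝ => C * (2 * κ) ^ β) (𝓝 0) (𝓝 (C * (2 * 0) ^ β)) := by
    refine Tendsto.const_mul C ?_
    have : ContinuousAt (fun κ : ℝ => (2 * κ) ^ β) 0 :=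
      (continuousAt_const.mul continuousAt_id).rpow_const (Or.inr hβ.le)
    exact this
  rw [mul_zero, Real.zero_rpow hβ.ne', mul_zero] at h1
  exact nhdsWithin_le_nhds (h1.eventually (gt_mem_nhds hε))

/-- The invisible charge compares the free and the wired potentials. -/
theorem T_one {μ : ℝ} {FD FF FW : Fam S} {a νa νp : ℂ} {ra rp : ℝ}
    (hT : Tri μ S FD FF FW a νa ra νp rp) (cF : FF.CORE) (cW : FW.CORE) {ψ g : ℂ → ℂ}
    (hP : Pair S.P ψ g) {χp χ : ℂ → ℝ} (hχp : Shp Complex.I χp) (hχ : Shp Complex.I χ)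
    {z : ℕ → ℝ → ℝ} (hlF : LocZ μ FF χp νp rp χ z) (hlW : LocZ μ FW χp νp rp χ z)
    {ε : ℝ} (hε : 0 < ε) (hε1 : ε ≤ 1 / 2) :
    ∃ θ > 0, θ ≤ 1 / 2 ∧ ∀ ρ, 0 < ρ → ρ ≤ θ * rp → ∃ T : ℕ → ℝ, ∀ c ν r, Flat S.P c ν r →
      S.bp ∉ ball c r → ρ ≤ θ * r → ∀ η, 0 < η → η ≤ θ * r → ∀ᶠ n in FD.L,
        |μ * (FF.U n (fun z => fb χ ν c η z - fb χp νp S.bp ρ z) -
          FW.U n (fun z => fb χ ν c η z - fb χp νp S.bp ρ z)) - T n| ≤ 6 * ε := by
  obtain ⟨tF, htF, hlF⟩ := hlF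
  obtain ⟨tW, htW, hlW⟩ := hlW
  obtain ⟨θF, hθF, hF1⟩ := hlF ε hε
  obtain ⟨θW, hθW, hW1⟩ := hlW ε hε
  have hrp := hT.flatP.pos
  refine ⟨min (1 / 2) (min θF θW), by positivity, min_le_left _ _, fun ρ hρ hρ1 =>
    ⟨fun n => Real.log (tF ρ n) - Real.log (tW ρ n), fun c ν r hFc hcp hρr η hη hηr => ?_⟩⟩
  have hr := hFc.pos
  have e0 : min (1 / 2) (min θF θW) ≤ 1 / 2 := min_le_left _ _
  have e2 : min (1 / 2) (min θF θW) ≤ θF := (min_le_right _ _).trans (min_le_left _ _)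
  have e3 : min (1 / 2) (min θF θW) ≤ θW := (min_le_right _ _).trans (min_le_right _ _)
  have hρrp : ρ < rp := hρ1.trans_lt (by nlinarith)
  have hηr' : η < r := hηr.trans_lt (by nlinarith)
  have hφp := fb_bp hχp hT.flatP hρ hρrp
  have hφ := fb_bp hχ hFc hη hηr'
  have hf : S.FF fun z => fb χ ν c η z - fb χp νp S.bp ρ z :=
    ff_of hφ.test hφp.test (by rw [hφ.mass, hφp.mass])
  have e1 : (fun w => -μ * fb χ ν c η w + μ * fb χp νp S.bp ρ w) =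
      fun w => -μ * (fb χ ν c η w - fb χp νp S.bp ρ w) := by
    funext w; ring
  have a1 := hF1 ρ hρ (hρ1.trans (mul_le_mul_of_nonneg_right e2 hrp.le)) c ν r hFc hcp
    (hρr.trans (mul_le_mul_of_nonneg_right e2 hr.le)) η hη
    (hηr.trans (mul_le_mul_of_nonneg_right e2 hr.le))
  have a2 := hW1 ρ hρ (hρ1.trans (mul_le_mul_of_nonneg_right e3 hrp.le)) c ν r hFc hcp
    (hρr.trans (mul_le_mul_of_nonneg_right e3 hr.le)) η hη
    (hηr.trans (mul_le_mul_of_nonneg_right e3 hr.le))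
  rw [e1] at a1 a2
  have b1 := U_of_loc cF hP hf hε hε1 a1
  have b2 := U_of_loc cW hP hf hε hε1 a2
  rw [hT.LF, hT.sF] at b1
  rw [hT.LW, hT.sW] at b2
  filter_upwards [b1, b2] with n d1 d2
  obtain ⟨d3, d4⟩ := d1
  obtain ⟨d5, d6⟩ := d2
  have z0 : z n η ≠ 0 := fun h0 => by rw [h0, mul_zero] at d3; exact lt_irrefl _ d3
  rw [Real.log_mul (htF ρ n).ne' z0] at d4
  rw [Real.log_mul (htW ρ n).ne' z0] at d6
  rw [abs_le] at d4 d6 ⊢
  constructor <;> linarith [d4.1, d4.2, d6.1, d6.2]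

/-- Points near a flat boundary point carry a bump whose averages of `Y` and `Z` are close to the
values. -/
theorem T_point {C₁ β₁ C₂ β₂ κ ε : ℝ} {χ : ℂ → ℝ} (hk1 : C₁ * (2 * κ) ^ β₁ < ε)
    (hk2 : C₂ * (2 * κ) ^ β₂ < ε)
    (avY : ∀ (c ν : ℂ) (r η : ℝ), Flat S.P c ν r → 0 < η →
      η < r → η / 2 ≤ infDist (c + (η / 2 : ℝ) * ν) S.Pᶜ → c + (η / 2 : ℝ) * ν ∈ S.P →
      |(∫ z, fb χ ν c η z * Y z) - Y (c + (η / 2 : ℝ) * ν)| ≤ C₁ * (2 * κ) ^ β₁)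
    (avZ : ∀ (c ν : ℂ) (r η : ℝ), Flat S.P c ν r → 0 < η →
      η < r → η / 2 ≤ infDist (c + (η / 2 : ℝ) * ν) S.Pᶜ → c + (η / 2 : ℝ) * ν ∈ S.P →
      |(∫ z, fb χ ν c η z * Z z) - Z (c + (η / 2 : ℝ) * ν)| ≤ C₂ * (2 * κ) ^ β₂)
    {q ν : ℂ} {r : ℝ} (hF : Flat S.P q ν r) (hq : S.bp ∉ ball q r) {θ m : ℝ} (hθ : 0 < θ)
    (hθ1 : θ ≤ 1 / 2) (hm : 0 < m) (hmr : m ≤ r / 2) {w : ℂ} (hw : w ∈ S.P)
    (hwq : ‖w - q‖ < θ * m / 4) : ∃ (c : ℂ) (η : ℝ), Flat S.P c ν (r / 2) ∧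
      S.bp ∉ ball c (r / 2) ∧ 0 < η ∧ η ≤ θ * (r / 2) ∧
      |(∫ z, fb χ ν c η z * Y z) - Y w| ≤ ε ∧ |(∫ z, fb χ ν c η z * Z z) - Z w| ≤ ε := by
  have hr := hF.pos
  have h0 : θ * m ≤ 1 / 2 * (r / 2) := mul_le_mul hθ1 hmr hm.le (by norm_num)
  have h1 : θ * m ≤ θ * (r / 2) := mul_le_mul_of_nonneg_left hmr hθ.le
  have hwq4 : ‖w - q‖ < r / 4 := by linarith
  obtain ⟨c, t, ht, htw, hwc, hFc, hbc, htd⟩ := exists_foot hF hw hwq4
  have hη2 : 2 * t / 2 = t := by ring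
  have hwc' : w = c + (2 * t / 2 : ℝ) * ν := by rw [hη2]; exact hwc
  have hηr : 2 * t < r / 2 := by linarith
  refine ⟨c, 2 * t, hFc, fun hx => hq (hbc hx), by positivity, by linarith, ?_, ?_⟩
  · have c1 := avY c ν (r / 2) (2 * t) hFc (by positivity) hηr
      (by rw [← hwc', hη2]; exact htd) (by rw [← hwc']; exact hw)
    rw [← hwc'] at c1
    exact c1.trans hk1.le
  · have c1 := avZ c ν (r / 2) (2 * t) hFc (by positivity) hηr
      (by rw [← hwc', hη2]; exact htd) (by rw [← hwc']; exact hw)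
    rw [← hwc'] at c1
    exact c1.trans hk2.le

theorem T_lim {μ : ℝ} (hμ : 0 < μ) {FD FF FW : Fam S} (hK : Arc S K) (hK' : Arc S K')
    (hY : PotLim S K Y) (hZ : PotLim S K' Z)
    {U : Filter ℕ} [U.NeBot]
    (limY : ∀ f, S.FF f → Tendsto (fun n : ℕ => FD.U n f - FF.U n f) U (𝓝 (∫ z, f z * Y z)))
    (limZ : ∀ f, S.FF f → Tendsto (fun n : ℕ => FD.U n f - FW.U n f) U (𝓝 (∫ z, f z * Z z)))
    {φ φ' φp : ℂ → ℝ} (h : Test S.P φ) (h1 : ∫ z, φ z = 1) (h' : Test S.P φ')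
    (h1' : ∫ z, φ' z = 1) (hp : Test S.P φp) {T : ℕ → ℝ} {ε ε₁ : ℝ} (hε₁ : ε₁ ≤ μ * ε / 24)
    (b : ∀ᶠ n in U, |μ * (FF.U n (fun z => φ z - φp z) - FW.U n (fun z => φ z - φp z)) -
      T n| ≤ 6 * ε₁)
    (b' : ∀ᶠ n in U, |μ * (FF.U n (fun z => φ' z - φp z) - FW.U n (fun z => φ' z - φp z)) -
      T n| ≤ 6 * ε₁) :
    |((∫ z, φ z * Z z) - ∫ z, φ' z * Z z) - ((∫ z, φ z * Y z) - ∫ z, φ' z * Y z)| ≤ ε / 2 := by
  have hYc : ContinuousOn Y S.P := hY.cont.mono fun z hz => ⟨CAQ.P_sub S hz, hK.notMem hz⟩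
  have hZc : ContinuousOn Z S.P := hZ.cont.mono fun z hz => ⟨CAQ.P_sub S hz, hK'.notMem hz⟩
  have hlin : ∀ (F : Fam S) (n : ℕ) {f k : ℂ → ℝ}, Test S.P f → Test S.P k →
      F.U n (fun z => f z - k z) = F.U n f - F.U n k := fun F n f k hf hk =>
    CAQ.U_sub F n (integrable_test hf) (integrable_test hk)
  have hff : S.FF fun z => φ z - φ' z := ff_of h h' (by rw [h1, h1'])
  have lim := (limZ _ hff).sub (limY _ hff)
  have hle : |μ * ((∫ z, (φ z - φ' z) * Z z) - ∫ z, (φ z - φ' z) * Y z)| ≤ 12 * ε₁ := by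
    refine le_of_tendsto (lim.const_mul μ).abs ?_
    filter_upwards [b, b'] with n g1 g2
    rw [hlin FF n h hp, hlin FW n h hp] at g1
    rw [hlin FF n h' hp, hlin FW n h' hp] at g2
    rw [hlin FD n h h', hlin FF n h h', hlin FW n h h']
    rw [abs_le] at g1 g2 ⊢
    constructor <;> linarith [g1.1, g1.2, g2.1, g2.2]
  have hsplit : ∀ {W : ℂ → ℝ}, ContinuousOn W S.P →
      ∫ z, (φ z - φ' z) * W z = (∫ z, φ z * W z) - ∫ z, φ' z * W z := by
    intro W hW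
    rw [← integral_sub (integrable_mul_contOn (CAQ.isOpen_P S) h hW)
      (integrable_mul_contOn (CAQ.isOpen_P S) h' hW)]
    refine integral_congr_ae (Eventually.of_forall fun z => ?_)
    simp only
    ring
  rw [hsplit hZc, hsplit hYc, abs_mul, abs_of_pos hμ] at hle
  refine le_of_mul_le_mul_left (hle.trans ?_) hμ
  linarith

/-- **`Y - Z` is almost constant near any two flat boundary points.** -/
theorem T_hyp {μ : ℝ} {FD FF FW : Fam S} {a νa νp : ℂ} {ra rp : ℝ}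
    (hT : Tri μ S FD FF FW a νa ra νp rp) (cF : FF.CORE) (cW : FW.CORE) {χp : ℂ → ℝ}
    (hχp : Shp Complex.I χp) {zz : (ℂ → ℝ) → ℕ → ℝ → ℝ} (hz : NDz μ FF FW νp rp χp zz)
    {ψ g : ℂ → ℂ} (hP : Pair S.P ψ g)
    (hK : Arc S K) (hK' : Arc S K') (hY : PotLim S K Y) (hZ : PotLim S K' Z)
    {U : Filter ℕ} [U.NeBot] (hU : U ≤ FD.L)
    (limY : ∀ f, S.FF f → Tendsto (fun n : ℕ => FD.U n f - FF.U n f) U (𝓝 (∫ z, f z * Y z)))
    (limZ : ∀ f, S.FF f → Tendsto (fun n : ℕ => FD.U n f - FW.U n f) U (𝓝 (∫ z, f z * Z z)))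
    {q q' ν ν' : ℂ} {r r' : ℝ} (hF : Flat S.P q ν r) (hF' : Flat S.P q' ν' r')
    (hq : S.bp ∉ ball q r) (hq' : S.bp ∉ ball q' r') {ε : ℝ} (hε : 0 < ε) :
    ∃ δ > 0, ∀ w ∈ S.P, ∀ w' ∈ S.P, ‖w - q‖ < δ → ‖w' - q'‖ < δ →
      |(Y w - Z w) - (Y w' - Z w')| ≤ ε := by
  have hμ := hT.mu0
  obtain ⟨C₁, β₁, -, hβ₁, avY⟩ := avg_pot hK hY
  obtain ⟨C₂, β₂, -, hβ₂, avZ⟩ := avg_pot hK' hZ
  have k1 : ∀ᶠ κ : ℝ in 𝓝[>] 0, κ < 1 / 8 :=
    nhdsWithin_le_nhds (gt_mem_nhds (show (0 : ℝ) < 1 / 8 by norm_num))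
  have k2 : ∀ᶠ κ : ℝ in 𝓝[>] 0, 0 < κ := self_mem_nhdsWithin
  obtain ⟨κ, hk1, hk2, hk3, hk4⟩ := ((exists_kappa (C := C₁) hβ₁ (ε := ε / 8) (by positivity)).and
    ((exists_kappa (C := C₂) hβ₂ (ε := ε / 8) (by positivity)).and (k1.and k2))).exists
  obtain ⟨χ, hχ, hs⟩ := exists_small hk4 (by linarith)
  obtain ⟨hlF, hlW⟩ := hz χ hχ
  have hε₁0 : 0 < min (1 / 2) (μ * ε / 24) := by positivity
  obtain ⟨θ, hθ0, hθ1, one⟩ := T_one hT cF cW hP hχp hχ hlF hlW hε₁0 (min_le_left _ _)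
  have hr := hF.pos
  have hr' := hF'.pos
  have hrp := hT.flatP.pos
  have hm0 : 0 < min rp (min (r / 2) (r' / 2)) := by positivity
  have hm1 : min rp (min (r / 2) (r' / 2)) ≤ rp := min_le_left _ _
  have hm2 : min rp (min (r / 2) (r' / 2)) ≤ r / 2 := (min_le_right _ _).trans (min_le_left _ _)
  have hm3 : min rp (min (r / 2) (r' / 2)) ≤ r' / 2 :=
    (min_le_right _ _).trans (min_le_right _ _)
  generalize min rp (min (r / 2) (r' / 2)) = m at hm0 hm1 hm2 hm3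
  have hρ0 : 0 < θ * m := by positivity
  have hρ1 : θ * m ≤ θ * rp := mul_le_mul_of_nonneg_left hm1 hθ0.le
  have hρrp : θ * m < rp := hρ1.trans_lt (by nlinarith)
  have hφp := fb_bp hχp hT.flatP hρ0 hρrp
  obtain ⟨T, hTT⟩ := one (θ * m) hρ0 hρ1
  refine ⟨θ * m / 4, by positivity, fun w hw w' hw' hwq hwq' => ?_⟩
  obtain ⟨c, η, f1, f2, f3, f4, f5, f6⟩ := T_point hk1 hk2 (avY κ hk4 hk3.le χ hχ hs)
    (avZ κ hk4 hk3.le χ hχ hs) hF hq hθ0 hθ1 hm0 hm2 hw hwq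
  obtain ⟨c', η', f1', f2', f3', f4', f5', f6'⟩ := T_point hk1 hk2 (avY κ hk4 hk3.le χ hχ hs)
    (avZ κ hk4 hk3.le χ hχ hs) hF' hq' hθ0 hθ1 hm0 hm3 hw' hwq'
  have hφ := fb_bp hχ f1 f3 (f4.trans_lt (by nlinarith))
  have hφ' := fb_bp hχ f1' f3' (f4'.trans_lt (by nlinarith))
  have b := hU (hTT c ν (r / 2) f1 f2 (mul_le_mul_of_nonneg_left hm2 hθ0.le) η f3 f4)
  have b' := hU (hTT c' ν' (r' / 2) f1' f2' (mul_le_mul_of_nonneg_left hm3 hθ0.le) η' f3' f4')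
  have hA2 := T_lim hμ hK hK' hY hZ limY limZ hφ.test hφ.mass hφ'.test hφ'.mass hφp.test
    (min_le_right _ _) b b'
  rw [abs_le] at hA2 f5 f6 f5' f6' ⊢
  constructor <;> linarith [hA2.1, hA2.2, f5.1, f5.2, f6.1, f6.2, f5'.1, f5'.2, f6'.1, f6'.2]

end Vale.Agent.P167.H411.Q
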